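import Mathlib

/-!
P092, Team N, block [N-GEOF] (helper337), part 1: the norm of the entries and of the `2 × 2`
minors of a matrix over a normed field.
-/

namespace Vale.Agent.P092.H337.NG

open Matrix

variable {k : Type*} [NormedField k] {n : ℕ}

/-- The maximum of the norms of the entries. -/
noncomputable def en (A : Matrix (Fin n) (Fin n) k) : ℝ :=
  ‖(fun i j => A i j : Fin n → Fin n → k)‖

/-- The `2 × 2` minor of the rows `i, i'` and the columns `j, j'`. -/
def mi (A : Matrix (Fin n) (Fin n) k) (i i' j j' : Fin n) : k :=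
  A i j * A i' j' - A i' j * A i j'

/-- The maximum of the norms of the `2 × 2` minors. -/
noncomputable def m2 (A : Matrix (Fin n) (Fin n) k) : ℝ :=
  ‖(fun i i' j j' => mi A i i' j j' : Fin n → Fin n → Fin n → Fin n → k)‖

theorem en_nonneg (A : Matrix (Fin n) (Fin n) k) : 0 ≤ en A := norm_nonneg _

theorem m2_nonneg (A : Matrix (Fin n) (Fin n) k) : 0 ≤ m2 A := norm_nonneg _

theorem entry_le (A : Matrix (Fin n) (Fin n) k) (i j : Fin n) : ‖A i j‖ ≤ en A :=
  (norm_le_pi_norm (fun j => A i j : Fin n → k) j).trans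
    (norm_le_pi_norm (fun i j => A i j : Fin n → Fin n → k) i)

theorem en_le_of {A : Matrix (Fin n) (Fin n) k} {C : ℝ} (hC : 0 ≤ C)
    (h : ∀ i j, ‖A i j‖ ≤ C) : en A ≤ C := by
  unfold en
  rw [pi_norm_le_iff_of_nonneg hC]
  intro i
  rw [pi_norm_le_iff_of_nonneg hC]
  exact h i

theorem mi_le (A : Matrix (Fin n) (Fin n) k) (i i' j j' : Fin n) : ‖mi A i i' j j'‖ ≤ m2 A :=
  (norm_le_pi_norm (fun j' => mi A i i' j j' : Fin n → k) j').trans
    ((norm_le_pi_norm (fun j j' => mi A i i' j j' : Fin n → Fin n → k) j).trans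
      ((norm_le_pi_norm (fun i' j j' => mi A i i' j j' : Fin n → Fin n → Fin n → k) i').trans
        (norm_le_pi_norm
          (fun i i' j j' => mi A i i' j j' : Fin n → Fin n → Fin n → Fin n → k) i)))

theorem m2_le_of {A : Matrix (Fin n) (Fin n) k} {C : ℝ} (hC : 0 ≤ C)
    (h : ∀ i i' j j', ‖mi A i i' j j'‖ ≤ C) : m2 A ≤ C := by
  unfold m2
  rw [pi_norm_le_iff_of_nonneg hC]
  intro i
  rw [pi_norm_le_iff_of_nonneg hC]
  intro i'
  rw [pi_norm_le_iff_of_nonneg hC]
  intro j
  rw [pi_norm_le_iff_of_nonneg hC]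
  exact h i i' j

theorem m2_le (A : Matrix (Fin n) (Fin n) k) : m2 A ≤ 2 * en A ^ 2 := by
  have h0 := en_nonneg A
  refine m2_le_of (by positivity) fun i i' j j' => ?_
  unfold mi
  have h1 : ‖A i j * A i' j'‖ ≤ en A * en A := by
    rw [norm_mul]
    exact mul_le_mul (entry_le A _ _) (entry_le A _ _) (norm_nonneg _) h0
  have h2 : ‖A i' j * A i j'‖ ≤ en A * en A := by
    rw [norm_mul]
    exact mul_le_mul (entry_le A _ _) (entry_le A _ _) (norm_nonneg _) h0
  calc _ ≤ ‖A i j * A i' j'‖ + ‖A i' j * A i j'‖ := norm_sub_le _ _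
    _ ≤ 2 * en A ^ 2 := by nlinarith

theorem norm_mulVec_le (A : Matrix (Fin n) (Fin n) k) (v : Fin n → k) :
    ‖A *ᵥ v‖ ≤ n * (en A * ‖v‖) := by
  have h0 := en_nonneg A
  rw [pi_norm_le_iff_of_nonneg (by positivity)]
  intro i
  calc ‖(A *ᵥ v) i‖ = ‖∑ j, A i j * v j‖ := rfl
    _ ≤ ∑ _j : Fin n, en A * ‖v‖ := by
        refine norm_sum_le_of_le _ fun j _ => ?_
        rw [norm_mul]
        exact mul_le_mul (entry_le A _ _) (norm_le_pi_norm v j) (norm_nonneg _) h0
    _ = _ := by simp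

theorem en_mul (A B : Matrix (Fin n) (Fin n) k) : en (A * B) ≤ n * (en A * en B) := by
  have h0 := en_nonneg A
  have h1 := en_nonneg B
  refine en_le_of (by positivity) fun i j => ?_
  rw [Matrix.mul_apply]
  calc _ ≤ ∑ _l : Fin n, en A * en B := by
        refine norm_sum_le_of_le _ fun l _ => ?_
        rw [norm_mul]
        exact mul_le_mul (entry_le A _ _) (entry_le B _ _) (norm_nonneg _) h0
    _ = _ := by simp

/-- Cauchy-Binet, without division by two. -/
theorem mi_mul (A B : Matrix (Fin n) (Fin n) k) (i i' j j' : Fin n) :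
    mi (A * B) i i' j j' = ∑ l, ∑ l' ∈ Finset.univ.filter (fun l' => l < l'),
      mi A i i' l l' * mi B l l' j j' := by
  have e1 : mi (A * B) i i' j j' = ∑ l, ∑ l', mi A i i' l l' * (B l j * B l' j') := by
    unfold mi
    rw [Matrix.mul_apply, Matrix.mul_apply, Matrix.mul_apply, Matrix.mul_apply,
      Finset.sum_mul_sum, Finset.sum_mul_sum, ← Finset.sum_sub_distrib]
    refine Finset.sum_congr rfl fun l _ => ?_
    rw [← Finset.sum_sub_distrib]
    refine Finset.sum_congr rfl fun l' _ => ?_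
    ring
  have e2 : ∀ F : Fin n → Fin n → k, (∀ l, F l l = 0) →
      ∑ l, ∑ l', F l l' = ∑ l, ∑ l' ∈ Finset.univ.filter (fun l' => l < l'),
        (F l l' + F l' l) := by
    intro F hF
    have a1 : ∀ l, ∑ l', F l l' = ∑ l' ∈ Finset.univ.filter (fun l' => l < l'), F l l' +
        ∑ l' ∈ Finset.univ.filter (fun l' => l' < l), F l l' := by
      intro l
      rw [← Finset.sum_filter_add_sum_filter_not Finset.univ (fun l' => l < l')]
      congr 1
      have : Finset.univ.filter (fun l' => ¬ l < l') =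
          insert l (Finset.univ.filter (fun l' : Fin n => l' < l)) := by
        ext l'
        simp only [Finset.mem_filter, Finset.mem_univ, true_and, Finset.mem_insert, not_lt]
        rw [le_iff_eq_or_lt]
      rw [this, Finset.sum_insert (by simp), hF, zero_add]
    have a2 : ∑ l, ∑ l' ∈ Finset.univ.filter (fun l' => l' < l), F l l' =
        ∑ l, ∑ l' ∈ Finset.univ.filter (fun l' => l < l'), F l' l := by
      simp only [Finset.sum_filter]
      rw [Finset.sum_comm]
    simp only [a1, Finset.sum_add_distrib]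
    rw [a2]
  rw [e1, e2 _ (fun l => by unfold mi; ring)]
  refine Finset.sum_congr rfl fun l _ => Finset.sum_congr rfl fun l' _ => ?_
  unfold mi
  ring

theorem sum_const_le (s : Finset (Fin n)) {c : ℝ} (hc : 0 ≤ c) : ∑ _l ∈ s, c ≤ n * c := by
  have h := Finset.card_le_univ s
  rw [Fintype.card_fin] at h
  rw [Finset.sum_const, nsmul_eq_mul]
  exact mul_le_mul_of_nonneg_right (Nat.cast_le.mpr h) hc

theorem m2_mul (A B : Matrix (Fin n) (Fin n) k) : m2 (A * B) ≤ n ^ 2 * (m2 A * m2 B) := by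
  have h0 := m2_nonneg A
  have h1 := m2_nonneg B
  have h2 : 0 ≤ m2 A * m2 B := mul_nonneg h0 h1
  refine m2_le_of (by positivity) fun i i' j j' => ?_
  rw [mi_mul]
  have h3 : ∀ l : Fin n, ‖∑ l' ∈ Finset.univ.filter (fun l' => l < l'),
      mi A i i' l l' * mi B l l' j j'‖ ≤ n * (m2 A * m2 B) := fun l =>
    (norm_sum_le_of_le _ (fun l' _ => by
      rw [norm_mul]
      exact mul_le_mul (mi_le A _ _ _ _) (mi_le B _ _ _ _) (norm_nonneg _) h0)).trans
      (sum_const_le _ h2)
  have h4 := (norm_sum_le_of_le Finset.univ fun l _ => h3 l).trans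
    (sum_const_le Finset.univ (mul_nonneg (Nat.cast_nonneg n) h2))
  exact h4.trans (le_of_eq (by ring))

/-- The Leibniz bound with bounds for each column. -/
theorem norm_det_le (A : Matrix (Fin n) (Fin n) k) (c : Fin n → ℝ)
    (h : ∀ i j, ‖A i j‖ ≤ c j) : ‖A.det‖ ≤ n.factorial * ∏ j, c j := by
  rw [Matrix.det_apply]
  calc _ ≤ ∑ _σ : Equiv.Perm (Fin n), ∏ j, c j := by
        refine norm_sum_le_of_le _ fun σ _ => ?_
        have e : ‖Equiv.Perm.sign σ • ∏ i, A (σ i) i‖ = ‖∏ i, A (σ i) i‖ := by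
          rcases Int.units_eq_one_or (Equiv.Perm.sign σ) with h1 | h1 <;> rw [h1] <;> simp
        rw [e, norm_prod]
        exact Finset.prod_le_prod (fun _ _ => norm_nonneg _) fun j _ => h (σ j) j
    _ = _ := by simp [Fintype.card_perm]

end Vale.Agent.P092.H337.NG
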