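import Vale.Agent.P092.H337.StabT
import Vale.Agent.P092.H944.DBr
import Vale.Agent.P092.SD.Defs
import Vale.Agent.P092.H859.CLD

/-!
P092, Team D, block [D0-DOMG] (helper337): from the letters (gaps, attracting points) to the
letters of `SD.Defs` (`NW`, `Att`), and the geometry `GeoF` of the wall limits over `ℝ`.
-/

namespace Vale.Agent.P092.H337

open Matrix Topology
open scoped LinearAlgebra.Projectivization
open Vale.Agent.P092.H944 Vale.Agent.P092.H820
open Vale.Agent.P092.SD (G3 PP nm NW)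
open Vale.Agent.P092.H859.CL (BB FF cn SepP GeoF)

/-! ### Norms -/

theorem nm_nonneg (h : G3 ℝ) : 0 ≤ nm h := norm_nonneg _

theorem abs_le_nm (h : G3 ℝ) (i j : Fin 3) : |h.1 i j| ≤ nm h := by
  have h1 := norm_le_pi_norm (fun i j => h.1 i j : Fin 3 → Fin 3 → ℝ) i
  have h2 := norm_le_pi_norm (fun j => h.1 i j : Fin 3 → ℝ) j
  rw [← Real.norm_eq_abs]
  exact h2.trans h1

theorem nm_le_of {h : G3 ℝ} {C : ℝ} (hC : 0 ≤ C) (hh : ∀ i j, |h.1 i j| ≤ C) : nm h ≤ C := by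
  unfold nm
  rw [pi_norm_le_iff_of_nonneg hC]
  intro i
  rw [pi_norm_le_iff_of_nonneg hC]
  intro j
  rw [Real.norm_eq_abs]
  exact hh i j

theorem nm_sq_le_hs (h : G3 ℝ) : nm h ^ 2 ≤ hs h.1 := by
  have h1 : nm h ≤ Real.sqrt (hs h.1) := nm_le_of (Real.sqrt_nonneg _) fun i j =>
    abs_entry_le h.1 i j
  calc nm h ^ 2 ≤ Real.sqrt (hs h.1) ^ 2 := pow_le_pow_left₀ (nm_nonneg h) h1 2
    _ = _ := Real.sq_sqrt (hs_nonneg _)

theorem hs_le_nm_sq (h : G3 ℝ) : hs h.1 ≤ 9 * nm h ^ 2 := by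
  unfold hs
  calc ∑ i, ∑ j, h.1 i j ^ 2 ≤ ∑ _i : Fin 3, ∑ _j : Fin 3, nm h ^ 2 := by
        refine Finset.sum_le_sum fun i _ => Finset.sum_le_sum fun j _ => ?_
        rw [← sq_abs]
        exact pow_le_pow_left₀ (abs_nonneg _) (abs_le_nm h i j) 2
    _ = _ := by simp; ring

theorem det_abs (h : G3 ℝ) : |h.1.det| = 1 := by rw [h.2, abs_one]

theorem coe_inv (h : G3 ℝ) : (h⁻¹).1 = h.1⁻¹ := by
  have h1 : h.1 * (h⁻¹).1 = 1 := by
    have := congrArg Subtype.val (mul_inv_cancel h)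
    exact this
  exact (inv_eq_right_inv h1).symm

theorem nm_pos (h : G3 ℝ) : 0 < nm h := by
  have h1 : 0 < hs h.1 := hs_pos (by rw [h.2]; exact one_ne_zero) (by norm_num)
  have h2 := hs_le_nm_sq h
  have h3 := nm_nonneg h
  rcases h3.lt_or_eq with h4 | h4
  · exact h4
  · rw [← h4] at h2
    norm_num at h2
    linarith

/-- Bounded second gap: near the wall. -/
theorem nw_of_gap {r : ℝ} {h : G3 ℝ} (hg : gap 1 h.1 ≤ r) : NW (9 * Real.exp (r / 2)) h := by
  unfold NW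
  have h1 := le_gap_one (det_abs h)
  rw [← coe_inv] at h1
  have h2 := nm_sq_le_hs h⁻¹
  have h3 := hs_le_nm_sq h
  have h4 : (nm h⁻¹ ^ 2) ^ 2 ≤ (9 * Real.exp (r / 2) * nm h) ^ 2 := by
    calc (nm h⁻¹ ^ 2) ^ 2 ≤ hs (h⁻¹).1 ^ 2 := pow_le_pow_left₀ (sq_nonneg _) h2 2
      _ ≤ 9 * Real.exp (gap 1 h.1) * hs h.1 := h1
      _ ≤ 9 * Real.exp r * (9 * nm h ^ 2) := by
          have := Real.exp_pos r
          have := hs_nonneg h.1
          have := Real.exp_le_exp.mpr hg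
          gcongr
      _ = (9 * Real.exp (r / 2) * nm h) ^ 2 := by
          have : Real.exp r = Real.exp (r / 2) ^ 2 := by
            rw [← Real.exp_nat_mul]; congr 1; push_cast; ring
          rw [this]; ring
  have := nm_nonneg h
  exact (pow_le_pow_iff_left₀ (sq_nonneg _) (by positivity) two_ne_zero).mp h4

/-- Near the wall: bounded second gap. -/
theorem gap_of_nw {R : ℝ} {h : G3 ℝ} (hn : NW R h) : gap 1 h.1 ≤ Real.log (243 * R ^ 2) := by
  unfold NW at hn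
  have h0 := nm_pos h
  have h0' := nm_pos h⁻¹
  have hR : 0 < R := by
    by_contra hc
    push Not at hc
    have : R * nm h ≤ 0 := mul_nonpos_of_nonpos_of_nonneg hc h0.le
    nlinarith [pow_pos h0' 2]
  rw [Real.le_log_iff_exp_le (by positivity)]
  have h1 := gap_one_le (det_abs h)
  rw [← coe_inv] at h1
  have h2 := hs_le_nm_sq h⁻¹
  have h3 := nm_sq_le_hs h
  have h4 : 0 < hs h.1 := lt_of_lt_of_le (by positivity) h3
  have h5 : Real.exp (gap 1 h.1) * hs h.1 ≤ 243 * R ^ 2 * hs h.1 := by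
    calc Real.exp (gap 1 h.1) * hs h.1 ≤ 3 * hs (h⁻¹).1 ^ 2 := h1
      _ ≤ 3 * (9 * nm h⁻¹ ^ 2) ^ 2 := by
          have := hs_nonneg (h⁻¹).1
          gcongr
      _ ≤ 3 * (9 * (R * nm h)) ^ 2 := by gcongr
      _ = 243 * R ^ 2 * nm h ^ 2 := by ring
      _ ≤ _ := by gcongr
  exact le_of_mul_le_mul_right h5 h4

/-- Large first gap: close to a matrix of rank one, with image the attracting point. -/
theorem att_of_gap {c : ℝ} (hc : 0 < c) {T : ℝ} (hT : 0 < T) {h : G3 ℝ} {p : PP ℝ}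
    (hp : Att c h.1 p) {A : Set (PP ℝ)} (hA : p ∈ A)
    (hg : Real.log (9 * T ^ 2 / c) ≤ gap 0 h.1) : SD.Att T A h := by
  obtain ⟨v, hv, h1, rfl⟩ := hp
  have hd : h.1.det ≠ 0 := by rw [h.2]; exact one_ne_zero
  refine ⟨h.1 *ᵥ v, fun j => ((h.1 *ᵥ v) ⬝ᵥ (h.1 *ᵥ Pi.single j 1)) / nq (h.1 *ᵥ v), hv, hA,
    fun i j => ?_⟩
  obtain ⟨a, ha⟩ : ∃ a, a = h.1 *ᵥ v := ⟨_, rfl⟩
  obtain ⟨b, hb⟩ : ∃ b, b = h.1 *ᵥ Pi.single j 1 := ⟨_, rfl⟩
  have hbi : h.1 i j = b i := by rw [hb, mulVec_single_one]; rfl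
  have ha0 : 0 < nq a := nq_pos (by rw [ha]; exact hv)
  rw [hbi, ← ha]
  beta_reduce
  rw [← hb, Real.norm_eq_abs]
  -- the distance to the line of `a`
  have e1 : nq (b - ((a ⬝ᵥ b) / nq a) • a) = gram b a / nq a := by
    have e2 : nq (b - ((a ⬝ᵥ b) / nq a) • a) = nq b - 2 * ((a ⬝ᵥ b) / nq a) * (a ⬝ᵥ b) +
        ((a ⬝ᵥ b) / nq a) ^ 2 * nq a := by
      rw [nq_eq, nq_eq, nq_eq]
      rw [sub_dotProduct, dotProduct_sub, dotProduct_sub, smul_dotProduct, dotProduct_smul,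
        smul_dotProduct, dotProduct_smul, dotProduct_comm b a]
      simp only [smul_eq_mul]
      ring
    rw [e2]
    unfold gram
    rw [dotProduct_comm b a]
    field_simp
    ring
  have e3 : gram b a ≤ Real.exp (-gap 0 h.1) * hs h.1 ^ 2 * (nq v) := by
    rw [hb, ha]
    refine (gram_gap h.1 hd _ _).trans ?_
    refine mul_le_mul_of_nonneg_left ((gram_le _ _).trans ?_) (by positivity)
    rw [show nq (Pi.single j (1:ℝ) : Fin 3 → ℝ) = 1 by
      rw [nq_eq, dotProduct_single, Pi.single_eq_same, mul_one], one_mul]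
  have e4 : gram b a / nq a ≤ (nm h / T) ^ 2 := by
    rw [div_le_iff₀ ha0]
    rw [← ha] at h1
    have hn := nm_pos h
    have hh := hs_le_nm_sq h
    have hh0 := hs_nonneg h.1
    have f1 : Real.exp (-gap 0 h.1) ≤ c / (9 * T ^ 2) := by
      rw [Real.log_le_iff_le_exp (by positivity)] at hg
      rw [Real.exp_neg, inv_le_comm₀ (Real.exp_pos _) (by positivity), inv_div]
      exact hg
    calc gram b a ≤ Real.exp (-gap 0 h.1) * hs h.1 ^ 2 * nq v := e3
      _ ≤ c / (9 * T ^ 2) * hs h.1 ^ 2 * nq v := by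
          have := nq_nonneg v
          gcongr
      _ = hs h.1 / (9 * T ^ 2) * (c * (hs h.1 * nq v)) := by ring
      _ ≤ 9 * nm h ^ 2 / (9 * T ^ 2) * nq a := by
          have := nq_nonneg v
          gcongr
      _ = (nm h / T) ^ 2 * nq a := by rw [div_pow]; field_simp
  have e5 : (b i - a i * ((a ⬝ᵥ b) / nq a)) ^ 2 ≤ (nm h / T) ^ 2 := by
    have := sq_le_nq (b - ((a ⬝ᵥ b) / nq a) • a) i
    rw [e1] at this
    simp only [Pi.sub_apply, Pi.smul_apply, smul_eq_mul] at this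
    rw [mul_comm (a i)]
    exact this.trans e4
  have hn := nm_pos h
  exact abs_le_of_sq_le_sq e5 (by positivity)

section group

variable {Γ : Type} [Group Γ] (q : Γ →* G3 ℝ)

/-- **[D0-DOMG]** The cone over `A` consists of near-wall elements with attracting point in `A`,
up to a finite and a regular part. -/
theorem cone_sub {c : ℝ} (hc : 0 < c) {bp : Γ → PP ℝ} (hbp : IsBp q c bp) (r : ℝ) :
    ∃ R, ∀ T > 0, ∃ T' : ℝ, ∀ A : Set (PP ℝ),
      cn (fun γ => gap 0 (q γ).1) (fun γ => gap 1 (q γ).1) bp A ⊆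
        {γ | NW R (q γ) ∧ SD.Att T A (q γ)} ∪
          (FF (fun γ => gap 0 (q γ).1) (fun γ => gap 1 (q γ).1) T' ∪
            BB (fun γ => gap 0 (q γ).1) (fun γ => gap 1 (q γ).1) r) := by
  refine ⟨9 * Real.exp (r / 2), fun T hT => ⟨max (Real.log (9 * T ^ 2 / c)) r, fun A γ hγ => ?_⟩⟩
  obtain ⟨h1, h2⟩ := hγ
  by_cases h3 : gap 1 (q γ).1 ≤ r
  · by_cases h4 : Real.log (9 * T ^ 2 / c) ≤ gap 0 (q γ).1
    · left
      exact ⟨nw_of_gap h3, att_of_gap hc hT (hbp γ) h2 h4⟩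
    · right; left
      push Not at h4
      exact ⟨h4.le.trans (le_max_left _ _), h3.trans (le_max_right _ _)⟩
  · right; right
    push Not at h3
    exact ⟨lt_of_lt_of_le h3 h1, h3⟩

/-- Outside the near-wall elements: off the cone or regular. -/
theorem not_nw_sub (r : ℝ) : {γ | ¬ NW (9 * Real.exp (r / 2)) (q γ)} ⊆
    {γ | gap 0 (q γ).1 < gap 1 (q γ).1} ∪
      BB (fun γ => gap 0 (q γ).1) (fun γ => gap 1 (q γ).1) r := by
  intro γ hγ
  have h3 : ¬ gap 1 (q γ).1 ≤ r := fun h => hγ (nw_of_gap h)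
  push Not at h3
  by_cases h4 : gap 0 (q γ).1 < gap 1 (q γ).1
  · left; exact h4
  · right
    push Not at h4
    exact ⟨lt_of_lt_of_le h3 h4, h3⟩

/-- **[D0-GEOF]** The geometry of the wall limits, given the separation of closed sets. The group
acts on the plane through `q`. -/
theorem geoF (fin : ∀ R, {γ | hs (q γ).1 ≤ R}.Finite) {c : ℝ} (hc : 0 < c) {bp : Γ → PP ℝ}
    (hbp : IsBp q c bp)
    (hsep : ∀ A A' : Set (PP ℝ), IsClosed A → IsClosed A' → Disjoint A A' →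
      SepP (fun γ => gap 0 (q γ).1) (fun γ => gap 1 (q γ).1) bp A A') :
    @GeoF Γ (PP ℝ) _ _ (MulAction.compHom (PP ℝ) q) (fun γ => gap 0 (q γ).1)
      (fun γ => gap 1 (q γ).1) bp := by
  let _ : MulAction Γ (PP ℝ) := MulAction.compHom (PP ℝ) q
  have hE : Emb (fun γ : Γ => (q γ).1) :=
    ⟨fun g h => Or.inl (by rw [map_mul]; rfl), fun g => by rw [(q g).2, one_pow], fin⟩
  refine ⟨fun s => ?_, fun r => ?_, fun s u => ?_, fun s u f ε hε r => ?_, hsep⟩
  · exact continuous_const_smul (q s)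
  · refine (hE.gap_finite r).subset fun g hg j hj => ?_
    have : j = 0 ∨ j = 1 := by omega
    rcases this with rfl | rfl
    · exact hg.1
    · exact hg.2
  · obtain ⟨C, hC⟩ := gap_stab q s u
    exact ⟨C, fun x => ⟨hC x 0, hC x 1⟩⟩
  · obtain ⟨T, hT⟩ := stab q hc hbp s u f.continuous hε
    exact ⟨T, fun x hx _ => hT x hx⟩

end group

end Vale.Agent.P092.H337
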