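import Vale.Agent.P092.H337.C3c
import Vale.Agent.P092.H315P.G5
import Vale.Agent.P092.H702.Wi
import Vale.Agent.P092.H221.Nf4
import Vale.Agent.P092.H99.CL.Key

/-!
P092 (helper337), TEAM P, Track 3: `Dat` for the forms `Frm` of Witt index 2 and
**COUNT_2 in the letters of `H99.CL`**.
-/

set_option linter.all false

open scoped InnerProductSpace ENNReal LinearAlgebra.Projectivization ZeroAtInfty
open Matrix Module Set Topology TopologicalSpace Filter MeasureTheory ContinuousLinearMap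

namespace Vale.Agent.P092.H337.C3

open Vale.Agent.P092.H303 (FormGroup Idx hyp)
open Vale.Agent.P092.H714.Cl (hf Frm hf_smul_left hf_smul_right)
open Vale.Agent.P092.H370.Po
open Vale.Agent.P092.H464.QF (Ix wt Dt Sf Ln)
open Vale.Agent.P092.CL (ta nmM NWr AttS act)
open Vale.Agent.P092.H315P.G (nmM_le ta_div ta_inv inv_of exists_fb Fb locS shellr opp_of2)

section inv

variable {k : Type} [NontriviallyNormedField k] {n : Type} [Fintype n] [DecidableEq n]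
  {σ : k →+* k} {ε : k} {J : Matrix n n k} {r : ℕ} {D : ℝ}

/-- the inverse of an isometry is bounded by the isometry -/
theorem inv_le (h : Fb σ ε J r D) (g : FormGroup σ J) (a b : n) :
    ‖ta (g⁻¹ : FormGroup σ J).1 a b‖ ≤ D ^ 3 * nmM (ta g.1) := by
  have hD := h.pos
  obtain ⟨y, hy, hyz⟩ := h.dual a
  set H := ta (g⁻¹ : FormGroup σ J).1 with hH
  have e1 : (H *ᵥ Pi.single b 1) a = H a b := by
    rw [mulVec_single_one]
    rfl
  have e2 : H789.S2.bf σ J (H *ᵥ Pi.single b 1) y =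
      H789.S2.bf σ J (Pi.single b 1) (ta g.1 *ᵥ y) := by
    rw [← H315P.G.ta_iso g, mulVec_mulVec, ta_inv, one_mulVec]
  rw [← e1, ← hyz (H *ᵥ Pi.single b 1), e2]
  have h1 : ‖(Pi.single b (1 : k) : n → k)‖ ≤ 1 := by
    rw [pi_norm_le_iff_of_nonneg zero_le_one]
    intro j
    by_cases hj : j = b
    · subst hj; simp
    · simp [Pi.single_eq_of_ne hj]
  have h2 : ‖ta g.1 *ᵥ y‖ ≤ D * nmM (ta g.1) * D :=
    (H315P.G.mulVec_le' (nmM_nonneg _) h.card_le (le_nmM _) y).trans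
      (mul_le_mul_of_nonneg_left hy (mul_nonneg hD.le (nmM_nonneg _)))
  calc ‖H789.S2.bf σ J (Pi.single b 1) (ta g.1 *ᵥ y)‖
      ≤ D * ‖(Pi.single b (1 : k) : n → k)‖ * ‖ta g.1 *ᵥ y‖ := h.up _ _
    _ ≤ D * 1 * (D * nmM (ta g.1) * D) := by
        have := nmM_nonneg (ta g.1)
        gcongr
    _ = _ := by ring

theorem div_le (h : Fb σ ε J r D) (g g' : FormGroup σ J) :
    nmM (ta (g' * g⁻¹ : FormGroup σ J).1) ≤
      Fintype.card n * (nmM (ta g'.1) * (D ^ 3 * nmM (ta g.1))) := by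
  have hD := h.pos
  have h0 := nmM_nonneg (ta g'.1)
  have h1 := nmM_nonneg (ta g.1)
  refine nmM_le (by positivity) fun a b => ?_
  rw [ta_div]
  change ‖∑ l, ta g'.1 a l * ta (g⁻¹ : FormGroup σ J).1 l b‖ ≤ _
  refine (norm_sum_le _ _).trans ((Finset.sum_le_sum (g := fun _ =>
    nmM (ta g'.1) * (D ^ 3 * nmM (ta g.1))) fun l _ => ?_).trans (le_of_eq ?_))
  · rw [norm_mul]
    exact mul_le_mul (le_nmM _ _ _) (inv_le h g l b) (norm_nonneg _) h0
  · rw [Finset.sum_const, Finset.card_univ, nsmul_eq_mul]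

theorem ball_card (hF : Frm σ ε J) (hσn : ∀ x, ‖σ x‖ = ‖x‖) {Γ : Type} {q : Γ → FormGroup σ J}
    (hud : ∀ C : ℝ, ∃ N : ℕ, ∀ T : Finset Γ,
      (∀ γ ∈ T, ∀ γ' ∈ T, nmM (ta (q γ' * (q γ)⁻¹).1) ≤ C) → T.card ≤ N) (R : ℝ) :
    ∃ M₀ : ℕ, ∀ S : Finset Γ, (∀ γ ∈ S, nmM (ta (q γ).1) ≤ R) → S.card ≤ M₀ := by
  obtain ⟨D, hD⟩ := exists_fb hF hσn (inv_of hF) 0
  have hD0 := hD.pos
  obtain ⟨N, hN⟩ := hud (Fintype.card n * (|R| * (D ^ 3 * |R|)))
  refine ⟨N, fun S hS => hN S fun γ hγ γ' hγ' => (div_le hD _ _).trans ?_⟩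
  have h1 := (hS γ hγ).trans (le_abs_self R)
  have h2 := (hS γ' hγ').trans (le_abs_self R)
  have h3 := nmM_nonneg (ta (q γ).1)
  have h4 := nmM_nonneg (ta (q γ').1)
  gcongr

end inv

section count

variable {k : Type} [NontriviallyNormedField k] [ProperSpace k] {ω : Type} [Fintype ω]
  [DecidableEq ω] {σ : k →+* k} {ε : k} {J₀ : Matrix ω ω k}

/-- the data of the count, forms `Frm` -/
theorem dat_frm (hF : Frm σ ε (hyp 2 ε J₀)) (hσ : Continuous σ)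
    (han : ∀ w, hf σ J₀ w w = 0 → w = 0) : Dat σ ε J₀ := by
  haveI : Nonempty (Idx 2 ω) := ⟨.inl (.inl 0)⟩
  have hσn : ∀ x, ‖σ x‖ = ‖x‖ := H337.Fr.norm_sig hF.inv hσ
  have hW : WI σ (hyp 2 ε J₀) 2 := H702.WI.wi_hyp hF han
  refine ⟨?_, ?_, ?_, ?_, ?_⟩
  · obtain ⟨C, h1, h2⟩ := H337.Fr.sf_fr (J₀ := J₀) hF hσ han
    refine ⟨C, h1, fun X => ?_⟩
    obtain ⟨κ, κ', h3, h4, -⟩ := h2 X
    exact ⟨κ, κ', h3, h4⟩
  · exact H221.Nf.nf2_QF hF hσn fun x hx h => hx (han x h)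
  · intro A B hB hAB R
    exact locS hF hσn hB (fun X hX Y hY => opp_of2 hF hW (hAB X hX Y hY)) R
  · intro Γ q hud C
    exact shellr hF hσn hW hud C
  · intro Γ q hud R
    exact ball_card hF hσn hud R

/-- **COUNT_2 in the letters of `H99.CL`**, forms of Witt index 2, every local field -/
theorem count2Stmt [MeasurableSpace k] [BorelSpace k] [Fact (Continuous σ)]
    (hk : H933.LocK k) (hF : Frm σ ε (hyp (0 + 2) ε J₀)) (han : ∀ w, hf σ J₀ w w = 0 → w = 0)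
    {w : k} (hw : w ≠ 0) (hσ : σ w = w) (μ₁ : Measure k) (μ₂ : Measure (CL.V2 σ ε)) :
    H99.CL.Count2Stmt (CL.lt (s := 0) (J₀ := J₀) hF hw hσ μ₁ μ₂) := by
  refine ⟨TDs σ (hyp 2 ε J₀), tds_dense' hk, ?_⟩
  intro Γ K _ _ _ q hud E B G G' hEG hEG' hBG' R A h f hf' hA
  exact count3' hk (dat_frm hF Fact.out han) q hud E B G G' hEG hEG' hBG' R A h f hf' hA

end count

end Vale.Agent.P092.H337.C3
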