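import Vale.Agent.P092.H337.NGa

/-!
P092, Team N, block [N-GEOF] (helper337), part 2: the two gaps of an element of `SL_n(k)`, by
entries and `2 × 2` minors.
-/

namespace Vale.Agent.P092.H337.NG

open Matrix

variable {k : Type*} [NormedField k] {n : ℕ}

/-- the group `SL_n(k)` -/
abbrev SLn (k : Type*) [Field k] (n : ℕ) := Matrix.SpecialLinearGroup (Fin n) k

theorem coe_mul_inv (g : SLn k n) : g.1 * (g⁻¹).1 = 1 := by
  have := congrArg Subtype.val (mul_inv_cancel g)
  exact this

theorem coe_inv_mul (g : SLn k n) : (g⁻¹).1 * g.1 = 1 := by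
  have := congrArg Subtype.val (inv_mul_cancel g)
  exact this

theorem coe_mul' (g h : SLn k n) : (g * h).1 = g.1 * h.1 := rfl

/-- The entries of `A` are cofactors of the inverse. -/
theorem en_le_inv' {A B : Matrix (Fin n) (Fin n) k} (hAB : A * B = 1) (hBA : B * A = 1)
    (hdB : B.det = 1) : en A ≤ n.factorial * en B ^ (n - 1) := by
  have h0 := en_nonneg B
  refine en_le_of (by positivity) fun i j => ?_
  obtain ⟨U, hU⟩ : ∃ U : Matrix (Fin n) (Fin 1) k,
      U = Matrix.of fun a _ => (1 : Matrix (Fin n) (Fin n) k) a j - B a i := ⟨_, rfl⟩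
  obtain ⟨V, hV⟩ : ∃ V : Matrix (Fin 1) (Fin n) k,
      V = Matrix.of fun _ b => (1 : Matrix (Fin n) (Fin n) k) i b := ⟨_, rfl⟩
  have hN : B + U * V = B * (1 + (A * U) * V) := by
    rw [Matrix.mul_add, Matrix.mul_one, Matrix.mul_assoc A U V, ← Matrix.mul_assoc B A, hBA,
      Matrix.one_mul]
  have hAU : ∀ a b, (A * U) a b = A a j - (1 : Matrix (Fin n) (Fin n) k) a i := by
    intro a b
    calc (A * U) a b = ∑ c, A a c * ((1 : Matrix (Fin n) (Fin n) k) c j - B c i) := by
          rw [Matrix.mul_apply, hU]; rfl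
      _ = (A * (1 : Matrix (Fin n) (Fin n) k)) a j - (A * B) a i := by
          rw [Matrix.mul_apply, Matrix.mul_apply, ← Finset.sum_sub_distrib]
          exact Finset.sum_congr rfl fun c _ => by ring
      _ = _ := by rw [Matrix.mul_one, hAB]
  have hVX : ∀ (X : Matrix (Fin n) (Fin 1) k) (a b : Fin 1), (V * X) a b = X i b := by
    intro X a b
    rw [Matrix.mul_apply, hV]
    simp [Matrix.one_apply]
  have hd : (B + U * V).det = A i j := by
    rw [hN, det_mul, det_one_add_mul_comm, hdB, one_mul, det_fin_one, Matrix.add_apply,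
      Matrix.one_apply_eq, hVX, hAU, Matrix.one_apply_eq]
    ring
  have hent : ∀ a b, ‖(B + U * V) a b‖ ≤ (fun b => if b = i then 1 else en B) b := by
    intro a b
    have e6 : (B + U * V) a b = B a b + ((1 : Matrix (Fin n) (Fin n) k) a j - B a i) *
        (1 : Matrix (Fin n) (Fin n) k) i b := by
      rw [Matrix.add_apply, Matrix.mul_apply, Fin.sum_univ_one, hU, hV]
      rfl
    rw [e6]
    by_cases hb : b = i
    · subst hb
      rw [Matrix.one_apply_eq, mul_one, add_sub_cancel]
      simp only [if_true]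
      rw [Matrix.one_apply]
      split_ifs <;> simp
    · rw [Matrix.one_apply_ne (Ne.symm hb), mul_zero, add_zero]
      simp only [if_neg hb]
      exact entry_le _ _ _
  have h1 := norm_det_le (B + U * V) (fun b => if b = i then 1 else en B) hent
  rw [hd] at h1
  refine h1.trans (le_of_eq ?_)
  congr 1
  rw [Finset.prod_ite]
  simp only [Finset.prod_const_one, Finset.prod_const, one_mul]
  congr 1
  have : (Finset.univ.filter fun b : Fin n => ¬ b = i) = Finset.univ.erase i := by
    ext b; simp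
  rw [this, Finset.card_erase_of_mem (Finset.mem_univ _), Finset.card_univ, Fintype.card_fin]

theorem en_le_inv (g : SLn k n) : en g.1 ≤ n.factorial * en (g⁻¹).1 ^ (n - 1) :=
  en_le_inv' (coe_mul_inv g) (coe_inv_mul g) (g⁻¹).2

/-- The `2 × 2` minors of `A` are the complementary minors of the inverse. -/
theorem m2_le_inv' {A B : Matrix (Fin n) (Fin n) k} (hAB : A * B = 1) (hBA : B * A = 1)
    (hdB : B.det = 1) : m2 A ≤ n.factorial * en B ^ (n - 2) := by
  have h0 := en_nonneg B
  refine m2_le_of (by positivity) fun i i' j j' => ?_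
  by_cases hii : i = i'
  · subst hii
    have : mi A i i j j' = 0 := by unfold mi; ring
    rw [this, norm_zero]
    positivity
  obtain ⟨U, hU⟩ : ∃ U : Matrix (Fin n) (Fin 2) k,
      U = Matrix.of fun a => ![(1 : Matrix (Fin n) (Fin n) k) a j - B a i,
        (1 : Matrix (Fin n) (Fin n) k) a j' - B a i'] := ⟨_, rfl⟩
  obtain ⟨V, hV⟩ : ∃ V : Matrix (Fin 2) (Fin n) k,
      V = Matrix.of ![fun b => (1 : Matrix (Fin n) (Fin n) k) i b,
        fun b => (1 : Matrix (Fin n) (Fin n) k) i' b] := ⟨_, rfl⟩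
  have hN : B + U * V = B * (1 + (A * U) * V) := by
    rw [Matrix.mul_add, Matrix.mul_one, Matrix.mul_assoc A U V, ← Matrix.mul_assoc B A, hBA,
      Matrix.one_mul]
  have hgU : ∀ a, (A * U) a 0 = A a j - (1 : Matrix (Fin n) (Fin n) k) a i ∧
      (A * U) a 1 = A a j' - (1 : Matrix (Fin n) (Fin n) k) a i' := by
    intro a
    constructor
    · calc (A * U) a 0 = ∑ c, A a c * ((1 : Matrix (Fin n) (Fin n) k) c j - B c i) := by
            rw [Matrix.mul_apply, hU]; rfl
        _ = (A * (1 : Matrix (Fin n) (Fin n) k)) a j - (A * B) a i := by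
            rw [Matrix.mul_apply, Matrix.mul_apply, ← Finset.sum_sub_distrib]
            exact Finset.sum_congr rfl fun c _ => by ring
        _ = _ := by rw [Matrix.mul_one, hAB]
    · calc (A * U) a 1 = ∑ c, A a c * ((1 : Matrix (Fin n) (Fin n) k) c j' - B c i') := by
            rw [Matrix.mul_apply, hU]; rfl
        _ = (A * (1 : Matrix (Fin n) (Fin n) k)) a j' - (A * B) a i' := by
            rw [Matrix.mul_apply, Matrix.mul_apply, ← Finset.sum_sub_distrib]
            exact Finset.sum_congr rfl fun c _ => by ring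
        _ = _ := by rw [Matrix.mul_one, hAB]
  have hVX : ∀ (X : Matrix (Fin n) (Fin 2) k) (b : Fin 2), (V * X) 0 b = X i b ∧
      (V * X) 1 b = X i' b := by
    intro X b
    constructor
    · rw [Matrix.mul_apply, hV]
      simp [Matrix.one_apply]
    · rw [Matrix.mul_apply, hV]
      simp [Matrix.one_apply]
  have hd : (B + U * V).det = mi A i i' j j' := by
    rw [hN, det_mul, det_one_add_mul_comm, hdB, one_mul, det_fin_two]
    simp only [Matrix.add_apply, (hVX _ _).1, (hVX _ _).2, (hgU _).1, (hgU _).2,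
      Matrix.one_apply_eq, Matrix.one_apply_ne hii, Matrix.one_apply_ne (Ne.symm hii)]
    rw [Matrix.one_apply_ne (show (0 : Fin 2) ≠ 1 by decide),
      Matrix.one_apply_ne (show (1 : Fin 2) ≠ 0 by decide)]
    unfold mi
    ring
  have hent : ∀ a b, ‖(B + U * V) a b‖ ≤
      (fun b => if b = i ∨ b = i' then 1 else en B) b := by
    intro a b
    have e6 : (B + U * V) a b = B a b + (((1 : Matrix (Fin n) (Fin n) k) a j - B a i) *
        (1 : Matrix (Fin n) (Fin n) k) i b + ((1 : Matrix (Fin n) (Fin n) k) a j' - B a i') *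
        (1 : Matrix (Fin n) (Fin n) k) i' b) := by
      rw [Matrix.add_apply, Matrix.mul_apply, Fin.sum_univ_two, hU, hV]
      rfl
    rw [e6]
    have hone : ∀ a b : Fin n, ‖(1 : Matrix (Fin n) (Fin n) k) a b‖ ≤ 1 := by
      intro a b
      rw [Matrix.one_apply]
      split_ifs <;> simp
    by_cases hb : b = i
    · subst hb
      rw [Matrix.one_apply_eq, Matrix.one_apply_ne (Ne.symm hii)]
      simp only [true_or, if_true]
      have : B a b + (((1 : Matrix (Fin n) (Fin n) k) a j - B a b) * 1 +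
          ((1 : Matrix (Fin n) (Fin n) k) a j' - B a i') * 0) =
          (1 : Matrix (Fin n) (Fin n) k) a j := by ring
      rw [this]
      exact hone _ _
    · by_cases hb' : b = i'
      · subst hb'
        rw [Matrix.one_apply_eq, Matrix.one_apply_ne hii]
        simp only [or_true, if_true]
        have : B a b + (((1 : Matrix (Fin n) (Fin n) k) a j - B a i) * 0 +
            ((1 : Matrix (Fin n) (Fin n) k) a j' - B a b) * 1) =
            (1 : Matrix (Fin n) (Fin n) k) a j' := by ring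
        rw [this]
        exact hone _ _
      · rw [Matrix.one_apply_ne (Ne.symm hb), Matrix.one_apply_ne (Ne.symm hb')]
        simp only [hb, hb', or_self, if_false, mul_zero, add_zero]
        exact entry_le _ _ _
  have h1 := norm_det_le (B + U * V) (fun b => if b = i ∨ b = i' then 1 else en B) hent
  rw [hd] at h1
  refine h1.trans (le_of_eq ?_)
  congr 1
  rw [Finset.prod_ite]
  simp only [Finset.prod_const_one, Finset.prod_const, one_mul]
  congr 1
  have : (Finset.univ.filter fun b : Fin n => ¬ (b = i ∨ b = i')) =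
      Finset.univ \ {i, i'} := by
    ext b; simp
  rw [this, Finset.card_sdiff_of_subset (Finset.subset_univ _), Finset.card_univ,
    Fintype.card_fin, Finset.card_pair hii]

theorem m2_le_inv (g : SLn k n) : m2 g.1 ≤ n.factorial * en (g⁻¹).1 ^ (n - 2) :=
  m2_le_inv' (coe_mul_inv g) (coe_inv_mul g) (g⁻¹).2

/-- Contraction of a minor with the inverse. -/
theorem en_le_m2 (hn : 2 ≤ n) (g : SLn k n) : en g.1 ≤ n * (m2 g.1 * en (g⁻¹).1) := by
  have h0 := en_nonneg (g⁻¹).1
  have h1 := m2_nonneg g.1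
  refine en_le_of (by positivity) fun i j => ?_
  obtain ⟨i', hi'⟩ : ∃ i' : Fin n, i' ≠ i := by
    have : Nontrivial (Fin n) := Fin.nontrivial_iff_two_le.mpr hn
    exact exists_ne i
  have e : g.1 i j = ∑ c, mi g.1 i i' j c * (g⁻¹).1 c i' := by
    have e1 : ∀ a, ∑ c, g.1 a c * (g⁻¹).1 c i' = (1 : Matrix (Fin n) (Fin n) k) a i' := by
      intro a
      rw [← Matrix.mul_apply, coe_mul_inv]
    calc g.1 i j = g.1 i j * (1 : Matrix (Fin n) (Fin n) k) i' i' -
          g.1 i' j * (1 : Matrix (Fin n) (Fin n) k) i i' := by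
          rw [Matrix.one_apply_eq, Matrix.one_apply_ne (Ne.symm hi')]; ring
      _ = _ := by
          rw [← e1, ← e1, Finset.mul_sum, Finset.mul_sum, ← Finset.sum_sub_distrib]
          refine Finset.sum_congr rfl fun c _ => ?_
          unfold mi
          ring
  rw [e]
  refine (norm_sum_le_of_le _ fun c _ => ?_).trans
    (sum_const_le Finset.univ (mul_nonneg h1 h0))
  rw [norm_mul]
  exact mul_le_mul (mi_le _ _ _ _ _) (entry_le _ _ _) (norm_nonneg _) h1

theorem en_pos (hn : 0 < n) (g : SLn k n) : 0 < en g.1 := by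
  rcases (en_nonneg g.1).lt_or_eq with h | h
  · exact h
  · exfalso
    have h1 : g.1 = 0 := by
      ext i j
      have := entry_le g.1 i j
      rw [← h] at this
      exact norm_le_zero_iff.mp this
    have h2 := g.2
    have : Nonempty (Fin n) := ⟨⟨0, hn⟩⟩
    rw [h1, det_zero] at h2
    exact zero_ne_one h2

theorem m2_pos (hn : 2 ≤ n) (g : SLn k n) : 0 < m2 g.1 := by
  have h1 := en_pos (by omega) g
  have h2 := en_le_m2 hn g
  have h3 := en_nonneg (g⁻¹).1
  rcases (m2_nonneg g.1).lt_or_eq with h | h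
  · exact h
  · exfalso
    rw [← h, zero_mul, mul_zero] at h2
    linarith

/-! ### The gaps -/

/-- `2 log ‖g‖ - log ‖Λ² g‖`: the first gap, up to a constant. -/
noncomputable def G1 (g : SLn k n) : ℝ := 2 * Real.log (en g.1) - Real.log (m2 g.1)

/-- `(n - 1) log ‖g⁻¹‖ - log ‖g‖`: the sum of the other gaps, up to bounded factors. -/
noncomputable def G2 (g : SLn k n) : ℝ :=
  ((n : ℝ) - 1) * Real.log (en (g⁻¹).1) - Real.log (en g.1)

section logs

variable (hn : 2 ≤ n)
include hn

theorem log_en_mul (g h : SLn k n) :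
    Real.log (en (g * h).1) ≤ Real.log n + (Real.log (en g.1) + Real.log (en h.1)) := by
  have h1 := en_pos (by omega) g
  have h2 := en_pos (by omega) h
  have h3 := en_pos (by omega) (g * h)
  have hn0 : (0 : ℝ) < n := by exact_mod_cast (by omega : 0 < n)
  rw [← Real.log_mul h1.ne' h2.ne', ← Real.log_mul hn0.ne' (by positivity)]
  exact Real.log_le_log h3 (en_mul g.1 h.1)

theorem log_m2_mul (g h : SLn k n) :
    Real.log (m2 (g * h).1) ≤ 2 * Real.log n + (Real.log (m2 g.1) + Real.log (m2 h.1)) := by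
  have h1 := m2_pos hn g
  have h2 := m2_pos hn h
  have h3 := m2_pos hn (g * h)
  have hn0 : (0 : ℝ) < n := by exact_mod_cast (by omega : 0 < n)
  have e : 2 * Real.log n = Real.log ((n : ℝ) ^ 2) := by rw [Real.log_pow]; push_cast; ring
  rw [e, ← Real.log_mul h1.ne' h2.ne', ← Real.log_mul (by positivity) (by positivity)]
  exact Real.log_le_log h3 (m2_mul g.1 h.1)

theorem log_m2_le (g : SLn k n) : Real.log (m2 g.1) ≤ Real.log 2 + 2 * Real.log (en g.1) := by
  have h1 := m2_pos hn g
  have h2 := en_pos (by omega) g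
  have e : 2 * Real.log (en g.1) = Real.log (en g.1 ^ 2) := by rw [Real.log_pow]; push_cast; ring
  rw [e, ← Real.log_mul (by norm_num) (by positivity)]
  exact Real.log_le_log h1 (m2_le g.1)

theorem log_m2_inv (g : SLn k n) :
    Real.log (m2 g.1) ≤ Real.log n.factorial + ((n : ℝ) - 2) * Real.log (en (g⁻¹).1) := by
  have h1 := m2_pos hn g
  have h2 := en_pos (by omega) g⁻¹
  have hf : (0 : ℝ) < n.factorial := by exact_mod_cast n.factorial_pos
  have e : ((n : ℝ) - 2) * Real.log (en (g⁻¹).1) = Real.log (en (g⁻¹).1 ^ (n - 2)) := by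
    rw [Real.log_pow, Nat.cast_sub hn]; push_cast; ring
  rw [e, ← Real.log_mul hf.ne' (by positivity)]
  exact Real.log_le_log h1 (m2_le_inv g)

theorem log_en_inv (g : SLn k n) :
    Real.log (en g.1) ≤ Real.log n.factorial + ((n : ℝ) - 1) * Real.log (en (g⁻¹).1) := by
  have h1 := en_pos (by omega) g
  have h2 := en_pos (by omega) g⁻¹
  have hf : (0 : ℝ) < n.factorial := by exact_mod_cast n.factorial_pos
  have e : ((n : ℝ) - 1) * Real.log (en (g⁻¹).1) = Real.log (en (g⁻¹).1 ^ (n - 1)) := by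
    rw [Real.log_pow, Nat.cast_sub (by omega)]; push_cast; ring
  rw [e, ← Real.log_mul hf.ne' (by positivity)]
  exact Real.log_le_log h1 (en_le_inv g)

theorem log_en_m2 (g : SLn k n) :
    Real.log (en g.1) ≤ Real.log n + (Real.log (m2 g.1) + Real.log (en (g⁻¹).1)) := by
  have h1 := en_pos (by omega) g
  have h2 := en_pos (by omega) g⁻¹
  have h3 := m2_pos hn g
  have hn0 : (0 : ℝ) < n := by exact_mod_cast (by omega : 0 < n)
  rw [← Real.log_mul h3.ne' h2.ne', ← Real.log_mul hn0.ne' (by positivity)]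
  exact Real.log_le_log h1 (en_le_m2 hn g)

/-- Quasi-invariance of `log ‖g‖`. -/
theorem abs_log_en (s x u : SLn k n) :
    |Real.log (en (s * x * u).1) - Real.log (en x.1)| ≤ 2 * Real.log n +
      (|Real.log (en s.1)| + |Real.log (en (s⁻¹).1)| + |Real.log (en u.1)| +
        |Real.log (en (u⁻¹).1)|) := by
  have h1 := log_en_mul hn (s * x) u
  have h2 := log_en_mul hn s x
  have h3 := log_en_mul hn (s⁻¹ * (s * x * u)) u⁻¹
  have h4 := log_en_mul hn s⁻¹ (s * x * u)
  have e : s⁻¹ * (s * x * u) * u⁻¹ = x := by group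
  rw [e] at h3
  have a1 := le_abs_self (Real.log (en s.1))
  have a2 := le_abs_self (Real.log (en (s⁻¹).1))
  have a3 := le_abs_self (Real.log (en u.1))
  have a4 := le_abs_self (Real.log (en (u⁻¹).1))
  have b1 := abs_nonneg (Real.log (en s.1))
  have b2 := abs_nonneg (Real.log (en (s⁻¹).1))
  have b3 := abs_nonneg (Real.log (en u.1))
  have b4 := abs_nonneg (Real.log (en (u⁻¹).1))
  rw [abs_le]
  constructor <;> linarith

/-- Quasi-invariance of `log ‖Λ² g‖`. -/
theorem abs_log_m2 (s x u : SLn k n) :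
    |Real.log (m2 (s * x * u).1) - Real.log (m2 x.1)| ≤ 4 * Real.log n +
      (|Real.log (m2 s.1)| + |Real.log (m2 (s⁻¹).1)| + |Real.log (m2 u.1)| +
        |Real.log (m2 (u⁻¹).1)|) := by
  have h1 := log_m2_mul hn (s * x) u
  have h2 := log_m2_mul hn s x
  have h3 := log_m2_mul hn (s⁻¹ * (s * x * u)) u⁻¹
  have h4 := log_m2_mul hn s⁻¹ (s * x * u)
  have e : s⁻¹ * (s * x * u) * u⁻¹ = x := by group
  rw [e] at h3
  have a1 := le_abs_self (Real.log (m2 s.1))
  have a2 := le_abs_self (Real.log (m2 (s⁻¹).1))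
  have a3 := le_abs_self (Real.log (m2 u.1))
  have a4 := le_abs_self (Real.log (m2 (u⁻¹).1))
  have b1 := abs_nonneg (Real.log (m2 s.1))
  have b2 := abs_nonneg (Real.log (m2 (s⁻¹).1))
  have b3 := abs_nonneg (Real.log (m2 u.1))
  have b4 := abs_nonneg (Real.log (m2 (u⁻¹).1))
  rw [abs_le]
  constructor <;> linarith

/-- **Quasi-invariance of the gaps.** -/
theorem gap_bd (s u : SLn k n) : ∃ C : ℝ, ∀ x : SLn k n,
    |G1 (s * x * u) - G1 x| ≤ C ∧ |G2 (s * x * u) - G2 x| ≤ C := by
  obtain ⟨C1, hC1⟩ : ∃ C : ℝ, ∀ x : SLn k n,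
      |Real.log (en (s * x * u).1) - Real.log (en x.1)| ≤ C := ⟨_, fun x => abs_log_en hn s x u⟩
  obtain ⟨C2, hC2⟩ : ∃ C : ℝ, ∀ x : SLn k n,
      |Real.log (m2 (s * x * u).1) - Real.log (m2 x.1)| ≤ C := ⟨_, fun x => abs_log_m2 hn s x u⟩
  obtain ⟨C3, hC3⟩ : ∃ C : ℝ, ∀ x : SLn k n,
      |Real.log (en ((s * x * u)⁻¹).1) - Real.log (en (x⁻¹).1)| ≤ C := by
    have e : ∀ x : SLn k n, (s * x * u)⁻¹ = u⁻¹ * x⁻¹ * s⁻¹ := fun x => by group
    have h := fun x : SLn k n => abs_log_en hn u⁻¹ x⁻¹ s⁻¹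
    exact ⟨_, fun x => by rw [e]; exact h x⟩
  have hn1 : (0 : ℝ) ≤ (n : ℝ) - 1 := by
    have : (2 : ℝ) ≤ n := by exact_mod_cast hn
    linarith
  refine ⟨2 * C1 + C2 + (((n : ℝ) - 1) * C3 + C1), fun x => ?_⟩
  have h1 := hC1 x
  have h2 := hC2 x
  have h3 := hC3 x
  have p1 : 0 ≤ C1 := (abs_nonneg _).trans h1
  have p2 : 0 ≤ C2 := (abs_nonneg _).trans h2
  have p3 : 0 ≤ C3 := (abs_nonneg _).trans h3
  have p4 := mul_nonneg hn1 p3
  rw [abs_le] at h1 h2 h3
  have m1 := mul_le_mul_of_nonneg_left h3.1 hn1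
  have m2' := mul_le_mul_of_nonneg_left h3.2 hn1
  unfold G1 G2
  constructor
  · rw [abs_le]; constructor <;> linarith
  · rw [abs_le]; constructor <;> nlinarith

/-- Both gaps bounded: the norm is bounded. -/
theorem log_en_le {g : SLn k n} {r : ℝ} (h1 : G1 g ≤ r) (h2 : G2 g ≤ r) :
    n * Real.log (en g.1) ≤ ((n : ℝ) - 1) * (|r| + Real.log n.factorial) +
      ((n : ℝ) - 2) * |r| := by
  unfold G1 at h1
  unfold G2 at h2
  have h3 := log_m2_inv hn g
  have hn2 : (2 : ℝ) ≤ n := by exact_mod_cast hn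
  have hr := le_abs_self r
  have h4 : 2 * Real.log (en g.1) ≤ |r| + (Real.log n.factorial +
      ((n : ℝ) - 2) * Real.log (en (g⁻¹).1)) := by linarith
  have h5 : ((n : ℝ) - 1) * Real.log (en (g⁻¹).1) ≤ |r| + Real.log (en g.1) := by linarith
  have h6 := mul_le_mul_of_nonneg_left h4 (show (0 : ℝ) ≤ (n : ℝ) - 1 by linarith)
  have h7 := mul_le_mul_of_nonneg_left h5 (show (0 : ℝ) ≤ (n : ℝ) - 2 by linarith)
  nlinarith

/-- Near the wall: the size is `(n - 1) / n` times the first gap, lower bound. -/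
theorem G1_ge {g : SLn k n} {R : ℝ} (h2 : G2 g ≤ R) :
    n * Real.log (en g.1) ≤ ((n : ℝ) - 1) * (G1 g + Real.log n.factorial) +
      ((n : ℝ) - 2) * R := by
  unfold G1
  unfold G2 at h2
  have h3 := log_m2_inv hn g
  have hn2 : (2 : ℝ) ≤ n := by exact_mod_cast hn
  have h5 : ((n : ℝ) - 1) * Real.log (en (g⁻¹).1) ≤ R + Real.log (en g.1) := by linarith
  have h6 := mul_le_mul_of_nonneg_left h3 (show (0 : ℝ) ≤ (n : ℝ) - 1 by linarith)
  have h7 := mul_le_mul_of_nonneg_left h5 (show (0 : ℝ) ≤ (n : ℝ) - 2 by linarith)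
  nlinarith

/-- Near the wall: the size is `(n - 1) / n` times the first gap, upper bound. -/
theorem G1_le {g : SLn k n} {R : ℝ} (h2 : G2 g ≤ R) :
    ((n : ℝ) - 1) * G1 g ≤ n * Real.log (en g.1) + ((n : ℝ) - 1) * Real.log n + R := by
  unfold G1
  unfold G2 at h2
  have h3 := log_en_m2 hn g
  have hn2 : (2 : ℝ) ≤ n := by exact_mod_cast hn
  have h5 : ((n : ℝ) - 1) * Real.log (en (g⁻¹).1) ≤ R + Real.log (en g.1) := by linarith
  have h6 := mul_le_mul_of_nonneg_left h3 (show (0 : ℝ) ≤ (n : ℝ) - 1 by linarith)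
  nlinarith

end logs

end Vale.Agent.P092.H337.NG
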