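import Vale.Agent.P092.H337.NGe

/-!
P092, Team N, block [N-GEOF] (helper337), part 6: the geometry for maps which are homomorphisms
modulo scalars, with a second size function (products of groups, `PSL_n`).
-/

namespace Vale.Agent.P092.H337.NG

open Matrix Topology
open scoped LinearAlgebra.Projectivization
open Vale.Agent.P092.H820
open Vale.Agent.P092.H859.CL (BB FF cn)
open Vale.Agent.P092.H859

/-! ### Equality modulo scalars -/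

section eqv

variable {k : Type*} [NormedField k] {n : ℕ}

/-- Equality modulo scalars. -/
def Eqv (g h : SLn k n) : Prop := ∃ c : k, g.1 = c • h.1

theorem Eqv.refl (g : SLn k n) : Eqv g g := ⟨1, (one_smul k g.1).symm⟩

theorem scalar_pow {g h : SLn k n} {c : k} (hc : g.1 = c • h.1) : c ^ n = 1 := by
  have h1 : g.1.det = c ^ n * h.1.det := by rw [hc, det_smul, Fintype.card_fin]
  rw [g.2, h.2, mul_one] at h1
  exact h1.symm

theorem scalar_norm [NeZero n] {g h : SLn k n} {c : k} (hc : g.1 = c • h.1) : ‖c‖ = 1 := by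
  have h1 : ‖c‖ ^ n = 1 := by rw [← norm_pow, scalar_pow hc, norm_one]
  exact (pow_eq_one_iff_of_nonneg (norm_nonneg _) (NeZero.ne n)).mp h1

theorem scalar_ne [NeZero n] {g h : SLn k n} {c : k} (hc : g.1 = c • h.1) : c ≠ 0 := by
  rw [← norm_pos_iff, scalar_norm hc]; exact one_pos

theorem Eqv.symm [NeZero n] {g h : SLn k n} (e : Eqv g h) : Eqv h g := by
  obtain ⟨c, hc⟩ := e
  refine ⟨c⁻¹, ?_⟩
  rw [hc, smul_smul, inv_mul_cancel₀ (scalar_ne hc), one_smul]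

theorem Eqv.trans {g h l : SLn k n} (e : Eqv g h) (e' : Eqv h l) : Eqv g l := by
  obtain ⟨c, hc⟩ := e
  obtain ⟨d, hd⟩ := e'
  exact ⟨c * d, by rw [hc, hd, smul_smul]⟩

theorem Eqv.mul {g h g' h' : SLn k n} (e : Eqv g h) (e' : Eqv g' h') : Eqv (g * g') (h * h') := by
  obtain ⟨c, hc⟩ := e
  obtain ⟨d, hd⟩ := e'
  refine ⟨c * d, ?_⟩
  rw [coe_mul', coe_mul', hc, hd, Matrix.smul_mul, Matrix.mul_smul, smul_smul]

theorem Eqv.inv [NeZero n] {g h : SLn k n} (e : Eqv g h) : Eqv g⁻¹ h⁻¹ := by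
  obtain ⟨c, hc⟩ := e
  refine ⟨c⁻¹, ?_⟩
  have hc0 := scalar_ne hc
  have h1 : g.1 * (c⁻¹ • (h⁻¹).1) = 1 := by
    rw [hc, Matrix.smul_mul, Matrix.mul_smul, smul_smul, coe_mul_inv, mul_inv_cancel₀ hc0,
      one_smul]
  calc (g⁻¹).1 = (g⁻¹).1 * (g.1 * (c⁻¹ • (h⁻¹).1)) := by rw [h1, Matrix.mul_one]
    _ = ((g⁻¹).1 * g.1) * (c⁻¹ • (h⁻¹).1) := by rw [Matrix.mul_assoc]
    _ = _ := by rw [coe_inv_mul, Matrix.one_mul]

theorem en_smul (c : k) (A : Matrix (Fin n) (Fin n) k) : en (c • A) = ‖c‖ * en A := by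
  unfold en
  rw [← norm_smul]
  rfl

theorem mi_smul (c : k) (A : Matrix (Fin n) (Fin n) k) (i i' j j' : Fin n) :
    mi (c • A) i i' j j' = c ^ 2 * mi A i i' j j' := by
  unfold mi
  simp only [Matrix.smul_apply, smul_eq_mul]
  ring

theorem m2_smul (c : k) (A : Matrix (Fin n) (Fin n) k) : m2 (c • A) = ‖c‖ ^ 2 * m2 A := by
  unfold m2
  rw [← norm_pow, ← norm_smul]
  congr 1
  funext i i' j j'
  exact mi_smul c A i i' j j'

theorem Eqv.en_eq [NeZero n] {g h : SLn k n} (e : Eqv g h) : en g.1 = en h.1 := by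
  obtain ⟨c, hc⟩ := e
  rw [hc, en_smul, scalar_norm hc, one_mul]

theorem Eqv.m2_eq [NeZero n] {g h : SLn k n} (e : Eqv g h) : m2 g.1 = m2 h.1 := by
  obtain ⟨c, hc⟩ := e
  rw [hc, m2_smul, scalar_norm hc, one_pow, one_mul]

theorem Eqv.G1_eq [NeZero n] {g h : SLn k n} (e : Eqv g h) : G1 g = G1 h := by
  unfold G1
  rw [e.en_eq, e.m2_eq]

theorem Eqv.G2_eq [NeZero n] {g h : SLn k n} (e : Eqv g h) : G2 g = G2 h := by
  unfold G2
  rw [e.en_eq, e.inv.en_eq]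

theorem Eqv.smul_eq [NeZero n] {g h : SLn k n} (e : Eqv g h) (p : ℙ k (Fin n → k)) :
    g • p = h • p := by
  obtain ⟨c, hc⟩ := e
  induction p using Projectivization.ind with
  | h v hv =>
    have e1 : g • Projectivization.mk k v hv = Projectivization.mk k (g.1 *ᵥ v) (mulVec_ne g hv) :=
      rfl
    have e2 : h • Projectivization.mk k v hv = Projectivization.mk k (h.1 *ᵥ v) (mulVec_ne h hv) :=
      rfl
    rw [e1, e2, Projectivization.mk_eq_mk_iff]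
    exact ⟨Units.mk0 c (scalar_ne hc), by rw [Units.smul_mk0, hc, smul_mulVec]⟩

theorem Eqv.ta [NeZero n] {g h : SLn k n} (e : Eqv g h) : Eqv (ta k n g) (ta k n h) := by
  obtain ⟨c, hc⟩ := e.inv
  exact ⟨c, by
    change ((g⁻¹).1)ᵀ = c • ((h⁻¹).1)ᵀ
    rw [hc, transpose_smul]⟩

end eqv

/-! ### Stability and separation modulo scalars -/

section est

variable {k : Type*} [NormedField k] {n : ℕ} [NeZero n]

theorem wd_stab' (s x u : SLn k n) {z : SLn k n} (hz : Eqv z (s * x * u)) :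
    ‖wd (vc z) (s.1 *ᵥ vc x)‖ ≤
      2 * (n ^ 2 * (en s.1 * (m2 x.1 / en x.1 * en u.1))) * ‖s.1 *ᵥ vc x‖ := by
  obtain ⟨c, hc⟩ := hz
  have hc1 := scalar_norm hc
  obtain ⟨e, he⟩ : ∃ e : Fin n → k, e = u.1 *ᵥ Pi.single (piv z).2 1 := ⟨_, rfl⟩
  have hn0 : (0 : ℝ) ≤ n := Nat.cast_nonneg n
  have h1 : vc z = (c * (ph x ⬝ᵥ e)) • (s.1 *ᵥ vc x) + c • (s.1 *ᵥ (rm x *ᵥ e)) := by
    have e1 : (s * x * u).1 = s.1 * (x.1 * u.1) := by rw [coe_mul', coe_mul', Matrix.mul_assoc]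
    rw [vc_eq, hc, smul_mulVec, e1, ← mulVec_mulVec, ← mulVec_mulVec, ← he, mulVec_eq x e,
      mulVec_add, mulVec_smul, smul_add, smul_smul]
  have he1 : ‖e‖ ≤ en u.1 := by
    rw [he, mulVec_single_one, pi_norm_le_iff_of_nonneg (en_nonneg _)]
    exact fun i => entry_le u.1 i _
  have h2 : ‖c • (s.1 *ᵥ (rm x *ᵥ e))‖ ≤ n ^ 2 * (en s.1 * (m2 x.1 / en x.1 * en u.1)) := by
    rw [norm_smul, hc1, one_mul]
    calc _ ≤ n * (en s.1 * (n * (en (rm x) * ‖e‖))) :=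
          (norm_mulVec_le _ _).trans (mul_le_mul_of_nonneg_left
            (mul_le_mul_of_nonneg_left (norm_mulVec_le _ _) (en_nonneg _)) hn0)
      _ = n ^ 2 * (en s.1 * (en (rm x) * ‖e‖)) := by ring
      _ ≤ _ := by
          have := en_rm_le x
          have := en_nonneg s.1
          have := m2_nonneg x.1
          have := en_nonneg x.1
          gcongr
  rw [h1, wd_add_smul]
  refine (wd_le _ _).trans ?_
  rw [← mul_assoc]
  exact mul_le_mul_of_nonneg_right (mul_le_mul_of_nonneg_left h2 (by norm_num)) (norm_nonneg _)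

/-- **Stability of the attracting points, modulo scalars.** -/
theorem stab' (hn : 2 ≤ n) [ProperSpace k] {F : Type*} [PseudoMetricSpace F]
    {f : ℙ k (Fin n → k) → F} (hf : Continuous f) (s u : SLn k n) {ε : ℝ} (hε : 0 < ε) :
    ∃ T : ℝ, ∀ x z : SLn k n, Eqv z (s * x * u) → T ≤ G1 x →
      dist (f (bp z)) (f (s • bp x)) < ε := by
  obtain ⟨δ, hδ, h⟩ := uc_wd hf hε
  obtain ⟨C, hC⟩ : ∃ C : ℝ, C = 2 * (n ^ 2 * (en s.1 * en u.1)) *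
      (n ^ 2 * (en (s⁻¹).1 * en (u⁻¹).1)) := ⟨_, rfl⟩
  have hC0 : 0 ≤ C := by
    rw [hC]
    have := en_nonneg s.1
    have := en_nonneg u.1
    have := en_nonneg (s⁻¹).1
    have := en_nonneg (u⁻¹).1
    positivity
  refine ⟨Real.log ((C + 1) / δ), fun x z hz hx => ?_⟩
  have e2 : s • bp x = Projectivization.mk k (s.1 *ᵥ vc x) (mulVec_ne s (vc_ne x)) := rfl
  rw [e2]
  refine h _ _ _ _ ?_
  refine (wd_stab' s x u hz).trans ?_
  have hx0 := en_pos' x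
  have b2 : en x.1 ≤ n ^ 2 * (en (s⁻¹).1 * en (u⁻¹).1) * ‖vc z‖ := by
    rw [norm_vc, hz.en_eq]
    have e : x.1 = (s⁻¹).1 * ((s * x * u).1 * (u⁻¹).1) := by
      have : x = s⁻¹ * ((s * x * u) * u⁻¹) := by group
      calc x.1 = (s⁻¹ * ((s * x * u) * u⁻¹)).1 := by rw [← this]
        _ = _ := by rw [coe_mul', coe_mul']
    calc en x.1 = en ((s⁻¹).1 * ((s * x * u).1 * (u⁻¹).1)) := by rw [← e]
      _ ≤ n * (en (s⁻¹).1 * (n * (en (s * x * u).1 * en (u⁻¹).1))) := by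
          refine (en_mul _ _).trans (mul_le_mul_of_nonneg_left
            (mul_le_mul_of_nonneg_left (en_mul _ _) (en_nonneg _)) (Nat.cast_nonneg n))
      _ = _ := by ring
  have b3 : m2 x.1 / en x.1 = en x.1 * Real.exp (-G1 x) := by
    rw [NG.m2_eq hn x]
    field_simp
  have b4 : Real.exp (-G1 x) ≤ δ / (C + 1) := by
    rw [Real.log_le_iff_le_exp (by positivity)] at hx
    rw [Real.exp_neg, inv_le_comm₀ (Real.exp_pos _) (by positivity), inv_div]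
    exact hx
  have hE := Real.exp_pos (-G1 x)
  have n1 := norm_nonneg (vc z)
  have n2 := norm_nonneg (s.1 *ᵥ vc x)
  have n3 := en_nonneg s.1
  have n4 := en_nonneg u.1
  have b5 : 2 * (n ^ 2 * (en s.1 * (m2 x.1 / en x.1 * en u.1))) ≤ δ * ‖vc z‖ := by
    rw [b3]
    calc 2 * (n ^ 2 * (en s.1 * (en x.1 * Real.exp (-G1 x) * en u.1)))
        = 2 * (n ^ 2 * (en s.1 * en u.1)) * en x.1 * Real.exp (-G1 x) := by ring
      _ ≤ 2 * (n ^ 2 * (en s.1 * en u.1)) *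
          (n ^ 2 * (en (s⁻¹).1 * en (u⁻¹).1) * ‖vc z‖) * Real.exp (-G1 x) := by
          gcongr
      _ = C * Real.exp (-G1 x) * ‖vc z‖ := by rw [hC]; ring
      _ ≤ C * (δ / (C + 1)) * ‖vc z‖ := by gcongr
      _ ≤ δ * ‖vc z‖ := by
          refine mul_le_mul_of_nonneg_right ?_ n1
          calc C * (δ / (C + 1)) = δ * (C / (C + 1)) := by ring
            _ ≤ δ * 1 := by
                refine mul_le_mul_of_nonneg_left ?_ hδ.le
                rw [div_le_one (by positivity)]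
                linarith
            _ = δ := mul_one δ
  calc _ ≤ δ * ‖vc z‖ * ‖s.1 *ᵥ vc x‖ := mul_le_mul_of_nonneg_right b5 n2
    _ = _ := by ring

/-- The sizes of `x` and `y` are determined by `x⁻¹ y`, modulo scalars. -/
theorem size_det' (hn : 3 ≤ n) {R δ : ℝ} (hδ : 0 < δ) : ∃ K : ℝ, ∀ x₁ y₁ x₂ y₂ : SLn k n,
    G2 x₁ ≤ R → G2 y₁ ≤ R → G2 x₂ ≤ R → G2 y₂ ≤ R →
    δ * (‖vc y₁‖ * ‖vc x₁‖) ≤ ‖wd (vc y₁) (vc x₁)‖ →
    δ * (‖vc y₂‖ * ‖vc x₂‖) ≤ ‖wd (vc y₂) (vc x₂)‖ → Eqv (x₁⁻¹ * y₁) (x₂⁻¹ * y₂) →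
    Real.log (en (x₁⁻¹).1) ≤ K + Real.log (en (x₂⁻¹).1) ∧
    Real.log (en (y₁⁻¹).1) ≤ K + Real.log (en (y₂⁻¹).1) := by
  have hn' : 2 ≤ n := by omega
  obtain ⟨K, hK⟩ := log_lower (k := k) (n := n) hn' (R := R) hδ
  have hn3 : (3 : ℝ) ≤ n := by exact_mod_cast hn
  obtain ⟨L, hL⟩ : ∃ L : ℝ, L = Real.log n.factorial := ⟨_, rfl⟩
  obtain ⟨N, hN⟩ : ∃ N : ℝ, N = Real.log n := ⟨_, rfl⟩
  obtain ⟨M, hM⟩ : ∃ M, M = |K| + |N| + |R| + |L| := ⟨_, rfl⟩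
  have hM0 : 0 ≤ M := by rw [hM]; positivity
  refine ⟨M, fun x₁ y₁ x₂ y₂ hx₁ hy₁ hx₂ hy₂ h1 h2 hz => ?_⟩
  have sym : ∀ x y : SLn k n, δ * (‖vc y‖ * ‖vc x‖) ≤ ‖wd (vc y) (vc x)‖ →
      δ * (‖vc x‖ * ‖vc y‖) ≤ ‖wd (vc x) (vc y)‖ := fun x y h => by
    rw [wd_norm_comm, mul_comm ‖vc x‖]; exact h
  have hz' : Eqv (y₁⁻¹ * x₁) (y₂⁻¹ * x₂) := by
    have e1 : y₁⁻¹ * x₁ = (x₁⁻¹ * y₁)⁻¹ := by group
    have e2 : y₂⁻¹ * x₂ = (x₂⁻¹ * y₂)⁻¹ := by group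
    rw [e1, e2]
    exact hz.inv
  have a1 := hK x₁ y₁ hx₁ h1
  have a2 := hK y₁ x₁ hy₁ (sym _ _ h1)
  have a3 := hK x₂ y₂ hx₂ h2
  have a4 := hK y₂ x₂ hy₂ (sym _ _ h2)
  have b1 := log_en_mul hn' x₁⁻¹ y₁
  have b2 := log_en_mul hn' y₁⁻¹ x₁
  have b3 := log_en_mul hn' x₂⁻¹ y₂
  have b4 := log_en_mul hn' y₂⁻¹ x₂
  rw [hz.en_eq] at a1 b1
  rw [hz'.en_eq] at a2 b2
  have c1 := log_en_inv hn' x₁
  have c2 := log_en_inv hn' x₂
  have c3 := log_en_inv hn' y₁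
  have c4 := log_en_inv hn' y₂
  unfold G2 at hx₁ hx₂ hy₁ hy₂
  rw [← hN] at b1 b2 b3 b4
  rw [← hL] at c1 c2 c3 c4
  have k1 := le_abs_self K
  have k2 := le_abs_self N
  have k3 := le_abs_self R
  have k4 := le_abs_self L
  obtain ⟨p, hp⟩ : ∃ p, p = Real.log (en (x₁⁻¹).1) - Real.log (en (x₂⁻¹).1) := ⟨_, rfl⟩
  obtain ⟨s, hs⟩ : ∃ s, s = Real.log (en (y₁⁻¹).1) - Real.log (en (y₂⁻¹).1) := ⟨_, rfl⟩
  obtain ⟨m, hm⟩ : ∃ m : ℝ, m = (n : ℝ) - 1 := ⟨_, rfl⟩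
  have hm2 : 2 ≤ m := by rw [hm]; linarith
  rw [← hm] at hx₁ hx₂ hy₁ hy₂ c1 c2 c3 c4
  have u1 : p + m * s ≤ M := by
    have : p + m * s ≤ K + N + R + L := by rw [hp, hs]; linarith
    rw [hM]; linarith
  have u2 : -M ≤ p + m * s := by
    have : -(K + N + R + L) ≤ p + m * s := by rw [hp, hs]; linarith
    rw [hM]; linarith
  have u3 : s + m * p ≤ M := by
    have : s + m * p ≤ K + N + R + L := by rw [hp, hs]; linarith
    rw [hM]; linarith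
  have u4 : -M ≤ s + m * p := by
    have : -(K + N + R + L) ≤ s + m * p := by rw [hp, hs]; linarith
    rw [hM]; linarith
  constructor
  · have : p ≤ M := lin_aux hm2 hM0 u3 u2
    rw [hp] at this
    linarith
  · have : s ≤ M := lin_aux hm2 hM0 u1 u4
    rw [hs] at this
    linarith

/-- `x₂ x₁⁻¹ ~ y₂ y₁⁻¹` is bounded. -/
theorem quot_bd' (hn : 3 ≤ n) {R δ : ℝ} (hδ : 0 < δ) : ∃ B : ℝ, ∀ x₁ y₁ x₂ y₂ : SLn k n,
    G2 x₁ ≤ R → G2 y₁ ≤ R → G2 x₂ ≤ R → G2 y₂ ≤ R →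
    δ * (‖vc y₁‖ * ‖vc x₁‖) ≤ ‖wd (vc y₁) (vc x₁)‖ →
    δ * (‖vc y₂‖ * ‖vc x₂‖) ≤ ‖wd (vc y₂) (vc x₂)‖ → Eqv (x₁⁻¹ * y₁) (x₂⁻¹ * y₂) →
    en (x₂ * x₁⁻¹).1 ≤ B := by
  have hn' : 2 ≤ n := by omega
  obtain ⟨K, hK⟩ := size_det' (k := k) hn (R := R) hδ
  obtain ⟨C1, hC1⟩ : ∃ C1 : ℝ, C1 = n.factorial * Real.exp R := ⟨_, rfl⟩
  have hC10 : 0 ≤ C1 := by rw [hC1]; positivity
  have hn0 : (0 : ℝ) ≤ n := Nat.cast_nonneg n
  refine ⟨6 * (n * (C1 * Real.exp K)) / δ,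
    fun x₁ y₁ x₂ y₂ hx₁ hy₁ hx₂ hy₂ h1 h2 hz => ?_⟩
  obtain ⟨k1, k2⟩ := hK x₁ y₁ x₂ y₂ hx₁ hy₁ hx₂ hy₂ h1 h2 hz
  have ht : Eqv (x₂ * x₁⁻¹) (y₂ * y₁⁻¹) := by
    have h3 : Eqv (x₂ * (x₁⁻¹ * y₁) * y₁⁻¹) (x₂ * (x₂⁻¹ * y₂) * y₁⁻¹) :=
      ((Eqv.refl x₂).mul hz).mul (Eqv.refl y₁⁻¹)
    have e1 : x₂ * (x₁⁻¹ * y₁) * y₁⁻¹ = x₂ * x₁⁻¹ := by group
    have e2 : x₂ * (x₂⁻¹ * y₂) * y₁⁻¹ = y₂ * y₁⁻¹ := by group
    rwa [e1, e2] at h3
  -- bound of the remainders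
  have aux : ∀ g h : SLn k n, G2 h ≤ R →
      Real.log (en (g⁻¹).1) ≤ K + Real.log (en (h⁻¹).1) → ∀ j,
      ‖wd ((h * g⁻¹).1 *ᵥ Pi.single j 1) (vc h)‖ ≤ 2 * (n * (C1 * Real.exp K)) * ‖vc h‖ := by
    intro g h hh hl j
    have e : (h * g⁻¹).1 *ᵥ Pi.single j 1 = h.1 *ᵥ ((g⁻¹).1 *ᵥ Pi.single j 1) := by
      rw [coe_mul', ← mulVec_mulVec]
    rw [e]
    refine (wd_mulVec_le _ _).trans (mul_le_mul_of_nonneg_right ?_ (norm_nonneg _))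
    refine mul_le_mul_of_nonneg_left (mul_le_mul_of_nonneg_left ?_ hn0) (by norm_num)
    have p1 := en_pos' g⁻¹
    have p2 := en_pos' h⁻¹
    have l1 : en (g⁻¹).1 ≤ Real.exp K * en (h⁻¹).1 := by
      rw [← Real.log_le_log_iff p1 (by positivity), Real.log_mul (Real.exp_pos _).ne' p2.ne',
        Real.log_exp]
      exact hl
    calc en (rm h) * ‖(g⁻¹).1 *ᵥ Pi.single j 1‖ ≤ en (rm h) * (Real.exp K * en (h⁻¹).1) :=
          mul_le_mul_of_nonneg_left ((norm_col_le _ _).trans l1) (en_nonneg _)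
      _ = (en (rm h) * en (h⁻¹).1) * Real.exp K := by ring
      _ ≤ _ := mul_le_mul_of_nonneg_right (by rw [hC1]; exact rm_nw hn' hh) (Real.exp_pos _).le
  have hB0 : 0 ≤ 6 * (n * (C1 * Real.exp K)) / δ := by positivity
  refine en_le_of hB0 fun i j => ?_
  obtain ⟨w, hw⟩ : ∃ w : Fin n → k, w = (x₂ * x₁⁻¹).1 *ᵥ Pi.single j 1 := ⟨_, rfl⟩
  have f1 : ‖wd w (vc x₂)‖ ≤ 2 * (n * (C1 * Real.exp K)) * ‖vc x₂‖ := by
    rw [hw]; exact aux x₁ x₂ hx₂ k1 j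
  have f2 : ‖wd w (vc y₂)‖ ≤ 2 * (n * (C1 * Real.exp K)) * ‖vc y₂‖ := by
    obtain ⟨c, hc⟩ := ht
    have e3 : wd w (vc y₂) = c • wd ((y₂ * y₁⁻¹).1 *ᵥ Pi.single j 1) (vc y₂) := by
      rw [hw, hc, smul_mulVec]
      have := wd_smul c 1 ((y₂ * y₁⁻¹).1 *ᵥ Pi.single j 1) (vc y₂)
      rwa [one_smul, mul_one] at this
    rw [e3, norm_smul, scalar_norm hc, one_mul]
    exact aux y₁ y₂ hy₂ k2 j
  have f3 := wd_three w (vc x₂) (vc y₂)
  have f4 : δ * (‖vc x₂‖ * ‖vc y₂‖) ≤ ‖wd (vc x₂) (vc y₂)‖ := by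
    rw [wd_norm_comm, mul_comm ‖vc x₂‖]; exact h2
  have q1 : 0 < ‖vc x₂‖ := by rw [norm_vc]; exact en_pos' x₂
  have q2 : 0 < ‖vc y₂‖ := by rw [norm_vc]; exact en_pos' y₂
  have f5 : (‖w‖ * δ) * (‖vc x₂‖ * ‖vc y₂‖) ≤
      (6 * (n * (C1 * Real.exp K))) * (‖vc x₂‖ * ‖vc y₂‖) := by
    calc _ = ‖w‖ * (δ * (‖vc x₂‖ * ‖vc y₂‖)) := by ring
      _ ≤ ‖w‖ * ‖wd (vc x₂) (vc y₂)‖ := mul_le_mul_of_nonneg_left f4 (norm_nonneg _)
      _ ≤ 2 * (‖vc y₂‖ * ‖wd w (vc x₂)‖) + ‖vc x₂‖ * ‖wd w (vc y₂)‖ := f3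
      _ ≤ 2 * (‖vc y₂‖ * (2 * (n * (C1 * Real.exp K)) * ‖vc x₂‖)) +
          ‖vc x₂‖ * (2 * (n * (C1 * Real.exp K)) * ‖vc y₂‖) := by gcongr
      _ = _ := by ring
  have f6 := le_of_mul_le_mul_right f5 (mul_pos q1 q2)
  have f7 : ‖(x₂ * x₁⁻¹).1 i j‖ ≤ ‖w‖ := by
    have : (x₂ * x₁⁻¹).1 i j = w i := by rw [hw, mulVec_single_one]; rfl
    rw [this]
    exact norm_le_pi_norm w i
  refine f7.trans ?_
  rw [le_div_iff₀ hδ]
  exact f6

end est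

/-! ### Homomorphisms modulo scalars and a second size -/

section ph

variable {k : Type} [NormedField k] {n : ℕ} [NeZero n] {Γ : Type} [Group Γ]

/-- Homomorphisms modulo scalars. -/
def PHom (q : Γ → SLn k n) : Prop := ∀ x y, Eqv (q (x * y)) (q x * q y)

theorem PHom.one {q : Γ → SLn k n} (h : PHom q) : Eqv (q 1) 1 := by
  have h1 := h 1 1
  rw [mul_one] at h1
  have h2 : Eqv ((q 1)⁻¹ * q 1) ((q 1)⁻¹ * (q 1 * q 1)) := (Eqv.refl _).mul h1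
  rw [inv_mul_cancel, inv_mul_cancel_left] at h2
  exact h2.symm

theorem PHom.inv {q : Γ → SLn k n} (h : PHom q) (x : Γ) : Eqv (q x⁻¹) (q x)⁻¹ := by
  have h1 : Eqv (q x⁻¹ * q x) 1 := by
    have := h x⁻¹ x
    rw [inv_mul_cancel] at this
    exact this.symm.trans h.one
  have h2 : Eqv (q x⁻¹ * q x * (q x)⁻¹) (1 * (q x)⁻¹) := h1.mul (Eqv.refl _)
  rwa [mul_inv_cancel_right, one_mul] at h2

theorem PHom.ta {q : Γ → SLn k n} (h : PHom q) : PHom fun x => ta k n (q x) := fun x y => by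
  have := (h x y).ta
  rwa [map_mul] at this

theorem PHom.mul3 {q : Γ → SLn k n} (h : PHom q) (s x u : Γ) :
    Eqv (q (s * x * u)) (q s * q x * q u) :=
  (h (s * x) u).trans ((h s x).mul (Eqv.refl _))

theorem PHom.inv_mul {q : Γ → SLn k n} (h : PHom q) (x y : Γ) :
    Eqv (q (x⁻¹ * y)) ((q x)⁻¹ * q y) :=
  (h x⁻¹ y).trans ((h.inv x).mul (Eqv.refl _))

theorem PHom.mul_inv {q : Γ → SLn k n} (h : PHom q) (x y : Γ) :
    Eqv (q (x * y⁻¹)) (q x * (q y)⁻¹) :=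
  (h x y⁻¹).trans ((Eqv.refl _).mul (h.inv y))

theorem phom_of_hom (q : Γ →* SLn k n) : PHom q := fun x y => by
  rw [map_mul]; exact Eqv.refl _

/-- A size function of the other coordinates. -/
structure Siz (ρ : Γ → ℝ) : Prop where
  gap : ∀ s u, ∃ C, ∀ x, |ρ (s * x * u) - ρ x| ≤ C
  quo : ∀ R, ∃ R', ∀ x y, ρ x ≤ R → ρ y ≤ R → ρ (y * x⁻¹) ≤ R'

theorem siz_zero : Siz (fun _ : Γ => (0 : ℝ)) :=
  ⟨fun _ _ => ⟨0, fun _ => by simp⟩, fun R => ⟨0, fun _ _ _ _ => le_rfl⟩⟩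

theorem ff_finite' (hn : 2 ≤ n) {q : Γ → SLn k n} {ρ : Γ → ℝ}
    (fin : ∀ R : ℝ, {γ | en (q γ).1 ≤ R ∧ ρ γ ≤ R}.Finite) (r : ℝ) :
    (FF (fun γ => G1 (q γ)) (fun γ => max (G2 (q γ)) (ρ γ)) r).Finite := by
  have hn0 : (0 : ℝ) < n := by exact_mod_cast (by omega : 0 < n)
  refine (fin (max (Real.exp ((((n : ℝ) - 1) * (|r| + Real.log n.factorial) +
      ((n : ℝ) - 2) * |r|) / n)) r)).subset fun γ hγ => ⟨?_, ?_⟩
  · have h1 := log_en_le hn hγ.1 ((le_max_left _ _).trans hγ.2)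
    refine le_trans ?_ (le_max_left _ _)
    rw [← Real.log_le_iff_le_exp (en_pos (by omega) _), le_div_iff₀ hn0]
    linarith
  · exact ((le_max_right _ _).trans hγ.2).trans (le_max_right _ _)

/-- **Separation**, modulo scalars, with a second size. -/
theorem sepP' (hn : 3 ≤ n) [ProperSpace k] {q : Γ → SLn k n} (hq : PHom q) {ρ : Γ → ℝ}
    (hρ : Siz ρ) (fin : ∀ R : ℝ, {γ | en (q γ).1 ≤ R ∧ ρ γ ≤ R}.Finite)
    {A A' : Set (ℙ k (Fin n → k))} (hA : IsClosed A) (hA' : IsClosed A') (hd : Disjoint A A') :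
    CL.SepP (fun γ => G1 (q γ)) (fun γ => max (G2 (q γ)) (ρ γ)) (fun γ => bp (q γ)) A A' := by
  have hn' : 2 ≤ n := by omega
  have hn3 : (3 : ℝ) ≤ n := by exact_mod_cast hn
  obtain ⟨δ, hδ, hsep⟩ := sep_wd hA hA' hd
  have hvv : ∀ x y : Γ, bp (q x) ∈ A → bp (q y) ∈ A' →
      δ * (‖vc (q y)‖ * ‖vc (q x)‖) ≤ ‖wd (vc (q y)) (vc (q x))‖ := fun x y hx hy => by
    rw [wd_norm_comm, mul_comm ‖vc (q y)‖]
    exact hsep _ _ (vc_ne _) (vc_ne _) hx hy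
  intro R
  obtain ⟨B, hB⟩ := quot_bd' (k := k) hn (R := R) hδ
  obtain ⟨B', hB'⟩ := hρ.quo R
  obtain ⟨K, hK⟩ := gaps_lower (k := k) hn' (R := R) hδ
  refine ⟨(fin (max B B')).toFinset, fun r => ?_⟩
  obtain ⟨M, hM⟩ : ∃ M : ℝ, M = |((n : ℝ) - 1) * r| + |K| + 1 := ⟨_, rfl⟩
  have hM1 : 0 < M := by rw [hM]; positivity
  refine ⟨(n * M + ((n : ℝ) - 1) * Real.log n + R) / ((n : ℝ) - 1),
    fun x y hx hy tx ty gx gy => ?_, fun x₁ y₁ x₂ y₂ hx₁ hy₁ hx₂ hy₂ _ _ _ _ g1 g2 g3 g4 hz => ?_⟩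
  · have hlog : ∀ z : Γ, (n * M + ((n : ℝ) - 1) * Real.log n + R) / ((n : ℝ) - 1) ≤ G1 (q z) →
        G2 (q z) ≤ R → M ≤ Real.log (en (q z).1) := by
      intro z h1 h2
      rw [div_le_iff₀ (by linarith)] at h1
      have h3 := G1_le hn' h2
      have h4 : (n : ℝ) * M ≤ n * Real.log (en (q z).1) := by linarith
      exact le_of_mul_le_mul_left h4 (by linarith)
    have gx' := (le_max_left _ _).trans gx
    have gy' := (le_max_left _ _).trans gy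
    obtain ⟨c1, c2⟩ := hK (q x) (q y) gx' gy' (hvv x y hx hy)
    have l1 := hlog x tx gx'
    have l2 := hlog y ty gy'
    have e := hq.inv_mul x y
    have r1 := le_abs_self (((n : ℝ) - 1) * r)
    have r2 := le_abs_self K
    have f1 : M ≤ n * Real.log (en (q y).1) := by
      calc M = 1 * M := (one_mul M).symm
        _ ≤ n * Real.log (en (q y).1) :=
            mul_le_mul (by linarith) l2 hM1.le (by linarith)
    have f2 : M ≤ (n * ((n : ℝ) - 2)) * Real.log (en (q x).1) := by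
      have hnn : 1 ≤ (n : ℝ) * ((n : ℝ) - 2) := by nlinarith
      calc M = 1 * M := (one_mul M).symm
        _ ≤ _ := mul_le_mul hnn l1 hM1.le (by linarith)
    constructor
    · have : ((n : ℝ) - 1) * r < ((n : ℝ) - 1) * G1 (q (x⁻¹ * y)) := by
        rw [e.G1_eq]; linarith
      exact lt_of_mul_lt_mul_left this (by linarith)
    · have : ((n : ℝ) - 1) * r < ((n : ℝ) - 1) * G2 (q (x⁻¹ * y)) := by
        rw [e.G2_eq]; linarith
      exact lt_of_lt_of_le (lt_of_mul_lt_mul_left this (by linarith)) (le_max_left _ _)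
  · rw [Set.Finite.mem_toFinset, Set.mem_ofPred_eq]
    constructor
    · rw [(hq.mul_inv x₂ x₁).en_eq]
      refine le_trans ?_ (le_max_left _ _)
      refine hB (q x₁) (q y₁) (q x₂) (q y₂) ((le_max_left _ _).trans g1)
        ((le_max_left _ _).trans g2) ((le_max_left _ _).trans g3) ((le_max_left _ _).trans g4)
        (hvv x₁ y₁ hx₁ hy₁) (hvv x₂ y₂ hx₂ hy₂) ?_
      have h1 := hq.inv_mul x₁ y₁
      have h2 := hq.inv_mul x₂ y₂
      rw [hz] at h1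
      exact h1.symm.trans h2
    · exact (hB' x₁ x₂ ((le_max_right _ _).trans g1) ((le_max_right _ _).trans g3)).trans
        (le_max_right _ _)

/-- **[N-GEOF]**, homomorphisms modulo scalars, with a second size, any action of `Γ` on the
projective space which is given by `q`. -/
theorem geoF' (hn : 3 ≤ n) [ProperSpace k] {q : Γ → SLn k n} (hq : PHom q) {ρ : Γ → ℝ}
    (hρ : Siz ρ) (fin : ∀ R : ℝ, {γ | en (q γ).1 ≤ R ∧ ρ γ ≤ R}.Finite)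
    [MulAction Γ (ℙ k (Fin n → k))] (hact : ∀ (γ : Γ) (p : ℙ k (Fin n → k)), γ • p = q γ • p)
    {Br : ℝ → Set Γ}
    (hBr : ∀ r, ∃ r', BB (fun γ => G1 (q γ)) (fun γ => max (G2 (q γ)) (ρ γ)) r' ⊆ Br r) :
    CN.GeoF Br (fun γ => G1 (q γ)) (fun γ => max (G2 (q γ)) (ρ γ)) (fun γ => bp (q γ)) := by
  have hn' : 2 ≤ n := by omega
  refine ⟨fun s => ?_, ff_finite' hn' fin, fun s u => ?_, fun s u f ε hε r => ?_,
    fun A A' hA hA' hd R => ?_⟩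
  · simp only [hact]
    exact continuous_const_smul (q s)
  · obtain ⟨C, hC⟩ := gap_bd hn' (q s) (q u)
    obtain ⟨C', hC'⟩ := hρ.gap s u
    refine ⟨max C C', fun x => ?_⟩
    have e := hq.mul3 s x u
    obtain ⟨h1, h2⟩ := hC (q x)
    rw [e.G1_eq, e.G2_eq]
    exact ⟨h1.trans (le_max_left _ _), (abs_max_sub_max_le_max _ _ _ _).trans
      (max_le_max h2 (hC' x))⟩
  · obtain ⟨T, hT⟩ := stab' hn' f.continuous (q s) (q u) hε
    refine ⟨T, fun x hx _ => ?_⟩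
    have h1 := hT (q x) (q (s * x * u)) (hq.mul3 s x u) hx
    rw [Real.dist_eq, ← hact] at h1
    exact h1.le
  · obtain ⟨S, hS⟩ := sepP' hn hq hρ fin hA hA' hd R
    refine ⟨S, fun r => ?_⟩
    obtain ⟨r', hr'⟩ := hBr r
    obtain ⟨T, h1, h2⟩ := hS r'
    exact ⟨T, fun x y hx hy tx ty gx gy => hr' (h1 x y hx hy tx ty gx gy), h2⟩

/-- Cones, with a second size. -/
theorem cone_sub' (hn : 2 ≤ n) (q : Γ → SLn k n) (ρ : Γ → ℝ) (r : ℝ) :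
    ∀ T > 0, ∃ T' : ℝ, ∀ A : Set (ℙ k (Fin n → k)),
      cn (fun γ => G1 (q γ)) (fun γ => max (G2 (q γ)) (ρ γ)) (fun γ => bp (q γ)) A ⊆
        {γ | (en ((q γ)⁻¹).1 ^ (n - 1) ≤ Real.exp r * en (q γ).1 ∧ ρ γ ≤ r) ∧
          AttN T A (q γ)} ∪
          (FF (fun γ => G1 (q γ)) (fun γ => max (G2 (q γ)) (ρ γ)) T' ∪
            BB (fun γ => G1 (q γ)) (fun γ => max (G2 (q γ)) (ρ γ)) r) := by
  refine fun T hT => ⟨max (Real.log T) r, fun A γ hγ => ?_⟩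
  obtain ⟨h1, h2⟩ := hγ
  by_cases h3 : max (G2 (q γ)) (ρ γ) ≤ r
  · by_cases h4 : Real.log T ≤ G1 (q γ)
    · left
      exact ⟨⟨nw_pow hn ((le_max_left _ _).trans h3), (le_max_right _ _).trans h3⟩,
        attN_of hn hT h4 h2⟩
    · right; left
      push Not at h4
      exact ⟨h4.le.trans (le_max_left _ _), h3.trans (le_max_right _ _)⟩
  · right; right
    push Not at h3
    exact ⟨lt_of_lt_of_le h3 h1, h3⟩

/-- Outside the near-wall elements: off the cone or regular. -/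
theorem not_nw_sub' (hn : 2 ≤ n) (q : Γ → SLn k n) (ρ : Γ → ℝ) (r : ℝ) :
    {γ | ¬ (en ((q γ)⁻¹).1 ^ (n - 1) ≤ Real.exp r * en (q γ).1 ∧ ρ γ ≤ r)} ⊆
      {γ | G1 (q γ) < max (G2 (q γ)) (ρ γ)} ∪
        BB (fun γ => G1 (q γ)) (fun γ => max (G2 (q γ)) (ρ γ)) r := by
  intro γ hγ
  have h3 : ¬ max (G2 (q γ)) (ρ γ) ≤ r := fun h =>
    hγ ⟨nw_pow hn ((le_max_left _ _).trans h), (le_max_right _ _).trans h⟩
  push Not at h3
  by_cases h4 : G1 (q γ) < max (G2 (q γ)) (ρ γ)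
  · left; exact h4
  · right
    push Not at h4
    exact ⟨lt_of_lt_of_le h3 h4, h3⟩

end ph

end Vale.Agent.P092.H337.NG
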