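import Vale.Agent.P092.H337.NGg

/-!
P092, Team N, block [N-GEOF] (helper337), part 8: targets which are finite products of groups
`SL_(n_i)(k_i)`, `n_i ≥ 2`, `k_i` any normed field. The size `rho q i` of the coordinates different
from `i`: `SizS`, finite balls, comparison with `{γ | ∀ j ≠ i, nm (q j γ) ≤ R}`, and the regular
elements.
-/

namespace Vale.Agent.P092.H337.NG

open Matrix Topology
open scoped LinearAlgebra.Projectivization
open Vale.Agent.P092.SN (PH NW NWA nm Att UD)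
open Vale.Agent.P092.RC (GG YY ct)
open Vale.Agent.P092.H859.CL (BB FF cn)
open Vale.Agent.P092.H859

/-! ### One factor -/

section size

variable {k : Type*} [NormedField k] {n : ℕ}

/-- The size `log ‖g‖ + log ‖g⁻¹‖`. -/
noncomputable def Lg (g : SLn k n) : ℝ := Real.log (en g.1) + Real.log (en (g⁻¹).1)

theorem Lg_inv (g : SLn k n) : Lg g⁻¹ = Lg g := by
  unfold Lg
  rw [inv_inv]
  ring

theorem Eqv.Lg_eq [NeZero n] {g h : SLn k n} (e : Eqv g h) : Lg g = Lg h := by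
  unfold Lg
  rw [e.en_eq, e.inv.en_eq]

theorem Lg_gap (hn : 2 ≤ n) (s u : SLn k n) : ∃ C, ∀ x, |Lg (s * x * u) - Lg x| ≤ C := by
  obtain ⟨C1, hC1⟩ : ∃ C : ℝ, ∀ x : SLn k n,
      |Real.log (en (s * x * u).1) - Real.log (en x.1)| ≤ C := ⟨_, fun x => abs_log_en hn s x u⟩
  obtain ⟨C3, hC3⟩ : ∃ C : ℝ, ∀ x : SLn k n,
      |Real.log (en ((s * x * u)⁻¹).1) - Real.log (en (x⁻¹).1)| ≤ C := by
    have e : ∀ x : SLn k n, (s * x * u)⁻¹ = u⁻¹ * x⁻¹ * s⁻¹ := fun x => by group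
    have h := fun x : SLn k n => abs_log_en hn u⁻¹ x⁻¹ s⁻¹
    exact ⟨_, fun x => by rw [e]; exact h x⟩
  refine ⟨C1 + C3, fun x => ?_⟩
  have h1 := abs_le.1 (hC1 x)
  have h3 := abs_le.1 (hC3 x)
  unfold Lg
  rw [abs_le]
  constructor <;> linarith

theorem Lg_mul (hn : 2 ≤ n) (g h : SLn k n) : Lg (g * h) ≤ 2 * Real.log n + (Lg g + Lg h) := by
  have h1 := log_en_mul hn g h
  have h2 := log_en_mul hn h⁻¹ g⁻¹
  rw [← _root_.mul_inv_rev] at h2
  unfold Lg
  linarith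

theorem en_one (hn : 0 < n) : en (1 : SLn k n).1 = 1 := by
  refine le_antisymm ?_ ?_
  · refine en_le_of zero_le_one fun i j => ?_
    have e : (1 : SLn k n).1 i j = (1 : Matrix (Fin n) (Fin n) k) i j := rfl
    rw [e, Matrix.one_apply]
    split_ifs <;> simp
  · have h := entry_le (1 : SLn k n).1 (⟨0, hn⟩ : Fin n) (⟨0, hn⟩ : Fin n)
    have e : (1 : SLn k n).1 (⟨0, hn⟩ : Fin n) (⟨0, hn⟩ : Fin n) = 1 := by
      change (1 : Matrix (Fin n) (Fin n) k) _ _ = 1
      exact Matrix.one_apply_eq _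
    rwa [e, norm_one] at h

theorem Lg_ge (hn : 2 ≤ n) (g : SLn k n) : 0 ≤ Real.log n + Lg g := by
  have h := log_en_mul hn g g⁻¹
  rw [mul_inv_cancel, en_one (by omega), Real.log_one] at h
  unfold Lg
  exact h

/-- The constant `log n + log n!`. -/
noncomputable def cst (n : ℕ) : ℝ := Real.log n + Real.log n.factorial

theorem cst_nonneg (n : ℕ) : 0 ≤ cst n := by
  unfold cst
  refine add_nonneg ?_ ?_
  · exact Real.log_natCast_nonneg n
  · exact Real.log_natCast_nonneg _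

theorem log_n_nonneg (n : ℕ) : 0 ≤ Real.log (n : ℝ) := Real.log_natCast_nonneg n

/-- `Lg` is bounded by the norm. -/
theorem Lg_le (hn : 2 ≤ n) (g : SLn k n) : Lg g ≤ cst n + n * Real.log (en g.1) := by
  have h := log_en_inv hn g⁻¹
  rw [inv_inv] at h
  have h1 := log_n_nonneg n
  unfold Lg cst
  linarith

/-- The norm is bounded by `Lg`. -/
theorem log_le_Lg (hn : 2 ≤ n) (g : SLn k n) : Real.log (en g.1) ≤ Lg g + cst n := by
  have h1 := Lg_ge hn g⁻¹
  have h2 := Lg_le hn g⁻¹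
  rw [Lg_inv] at h1 h2
  have hn2 : (2 : ℝ) ≤ n := by exact_mod_cast hn
  have h3 := cst_nonneg n
  have h5 : Real.log n ≤ cst n := by
    unfold cst
    linarith [Real.log_natCast_nonneg n.factorial]
  have h4 : -(cst n) ≤ Real.log (en (g⁻¹).1) := by
    by_contra hc
    push Not at hc
    nlinarith
  have h6 : Lg g = Real.log (en g.1) + Real.log (en (g⁻¹).1) := rfl
  linarith

/-- The first gap is bounded by `Lg`. -/
theorem G1_le_Lg (hn : 2 ≤ n) (g : SLn k n) : G1 g ≤ Lg g + Real.log n := by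
  have h := log_en_m2 hn g
  unfold G1 Lg
  linarith

end size

/-! ### Products -/

section prod

variable {Γ : Type} [Group Γ] {I : Type} [Fintype I] [DecidableEq I] {kk : I → Type}
  [∀ i, NontriviallyNormedField (kk i)] {NN : I → ℕ}

/-- The size of the coordinates different from `i`. -/
noncomputable def rho (q : ∀ i, Γ → GG (kk i) (NN i)) (i : I) (γ : Γ) : ℝ :=
  ∑ j ∈ Finset.univ.erase i, Lg (q j γ)

variable {q : ∀ i, Γ → GG (kk i) (NN i)}

theorem siz_rho (hN : ∀ i, 1 ≤ NN i) (hq : ∀ i, PH (q i)) (i : I) : Siz (rho q i) := by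
  constructor
  · intro s u
    have h : ∀ j, ∃ C, ∀ x, |Lg (q j (s * x * u)) - Lg (q j x)| ≤ C := fun j => by
      obtain ⟨C, hC⟩ := Lg_gap (n := NN j + 1) (by have := hN j; omega) (q j s) (q j u)
      refine ⟨C, fun x => ?_⟩
      rw [((phom_of_ph (hq j)).mul3 s x u).Lg_eq]
      exact hC _
    choose C hC using h
    refine ⟨∑ j ∈ Finset.univ.erase i, C j, fun x => ?_⟩
    unfold rho
    rw [← Finset.sum_sub_distrib]
    exact (Finset.abs_sum_le_sum_abs _ _).trans (Finset.sum_le_sum fun j _ => hC j x)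
  · intro R
    refine ⟨∑ j ∈ Finset.univ.erase i, 2 * Real.log ((NN j + 1 : ℕ) : ℝ) + (R + R),
      fun x y hx hy => ?_⟩
    have h : rho q i (y * x⁻¹) ≤ ∑ j ∈ Finset.univ.erase i, (2 * Real.log ((NN j + 1 : ℕ) : ℝ) +
        (Lg (q j y) + Lg (q j x))) := by
      unfold rho
      refine Finset.sum_le_sum fun j _ => ?_
      rw [((phom_of_ph (hq j)).mul_inv y x).Lg_eq]
      have h1 := Lg_mul (n := NN j + 1) (by have := hN j; omega) (q j y) (q j x)⁻¹
      rwa [Lg_inv] at h1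
    rw [Finset.sum_add_distrib, Finset.sum_add_distrib] at h
    unfold rho at hx hy h ⊢
    linarith

theorem sizS_rho (hN : ∀ i, 1 ≤ NN i) (hq : ∀ i, PH (q i)) (i : I) : SizS (rho q i) :=
  ⟨siz_rho hN hq i, 0, fun x => by
    have e : rho q i x⁻¹ = rho q i x := by
      unfold rho
      refine Finset.sum_congr rfl fun j _ => ?_
      rw [((phom_of_ph (hq j)).inv x).Lg_eq, Lg_inv]
    rw [e, sub_self, abs_zero]⟩

omit [Group Γ] in
/-- The other coordinates are bounded by `rho`. -/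
theorem nm_of_rho (hN : ∀ i, 1 ≤ NN i) (i : I) (r : ℝ) :
    ∃ R, ∀ γ, rho q i γ ≤ r → ∀ j, j ≠ i → nm (q j γ) ≤ R := by
  obtain ⟨S, hS⟩ : ∃ S : ℝ, S = ∑ l, Real.log ((NN l + 1 : ℕ) : ℝ) := ⟨_, rfl⟩
  refine ⟨∑ j, Real.exp (r + S + cst (NN j + 1)), fun γ hγ j hj => ?_⟩
  have h1 : Lg (q j γ) ≤ r + S := by
    have h2 : rho q i γ = Lg (q j γ) + ∑ l ∈ (Finset.univ.erase i).erase j, Lg (q l γ) := by
      exact (Finset.add_sum_erase (Finset.univ.erase i) (fun l => Lg (q l γ))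
        (Finset.mem_erase.2 ⟨hj, Finset.mem_univ j⟩)).symm
    have h3 : -S ≤ ∑ l ∈ (Finset.univ.erase i).erase j, Lg (q l γ) := by
      have h4 : ∑ l ∈ (Finset.univ.erase i).erase j, -Real.log ((NN l + 1 : ℕ) : ℝ) ≤
          ∑ l ∈ (Finset.univ.erase i).erase j, Lg (q l γ) := by
        refine Finset.sum_le_sum fun l _ => ?_
        have := Lg_ge (n := NN l + 1) (by have := hN l; omega) (q l γ)
        linarith
      have h5 : ∑ l ∈ (Finset.univ.erase i).erase j, Real.log ((NN l + 1 : ℕ) : ℝ) ≤ S := by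
        rw [hS]
        exact Finset.sum_le_sum_of_subset_of_nonneg (Finset.subset_univ _)
          fun l _ _ => log_n_nonneg _
      rw [Finset.sum_neg_distrib] at h4
      linarith
    linarith
  have h6 := log_le_Lg (n := NN j + 1) (by have := hN j; omega) (q j γ)
  have h7 : nm (q j γ) ≤ Real.exp (r + S + cst (NN j + 1)) := by
    have h8 : 0 < en (q j γ).1 := en_pos (by omega) _
    have h9 : Real.log (en (q j γ).1) ≤ r + S + cst (NN j + 1) := by linarith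
    exact (Real.log_le_iff_le_exp h8).1 h9
  refine h7.trans ?_
  exact Finset.single_le_sum (f := fun j => Real.exp (r + S + cst (NN j + 1)))
    (fun l _ => (Real.exp_pos _).le) (Finset.mem_univ j)

omit [Group Γ] in
/-- `rho` is bounded by the other coordinates. -/
theorem rho_of_nm (hN : ∀ i, 1 ≤ NN i) (i : I) (R : ℝ) :
    ∃ r, ∀ γ, (∀ j, j ≠ i → nm (q j γ) ≤ R) → rho q i γ ≤ r := by
  refine ⟨∑ j ∈ Finset.univ.erase i, (cst (NN j + 1) +
    ((NN j + 1 : ℕ) : ℝ) * Real.log (max R 1)), fun γ hγ => ?_⟩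
  unfold rho
  refine Finset.sum_le_sum fun j hj => ?_
  have h1 := Lg_le (n := NN j + 1) (by have := hN j; omega) (q j γ)
  have h2 : Real.log (en (q j γ).1) ≤ Real.log (max R 1) :=
    Real.log_le_log (en_pos (by omega) _)
      ((hγ j (Finset.ne_of_mem_erase hj)).trans (le_max_left _ _))
  have h3 := mul_le_mul_of_nonneg_left h2 (Nat.cast_nonneg (α := ℝ) (NN j + 1))
  linarith

omit [Group Γ] in
/-- **Finite balls.** -/
theorem fin_rho (hN : ∀ i, 1 ≤ NN i) (fin : ∀ C : ℝ, {γ | ∀ j, nm (q j γ) ≤ C}.Finite) (i : I)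
    (R : ℝ) : {γ | nm (q i γ) ≤ R ∧ rho q i γ ≤ R}.Finite := by
  obtain ⟨R', hR'⟩ := nm_of_rho (q := q) hN i R
  refine (fin (max R R')).subset fun γ hγ j => ?_
  by_cases hj : j = i
  · subst hj
    exact hγ.1.trans (le_max_left _ _)
  · exact (hR' γ hγ.2 j hj).trans (le_max_right _ _)

/-- The set of the elements whose coordinates different from `i` are bounded by `R`. -/
def ZZ (q : ∀ i, Γ → GG (kk i) (NN i)) (i : I) (R : ℝ) : Set Γ := {γ | ∀ j, j ≠ i → nm (q j γ) ≤ R}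

omit [Group Γ] [Fintype I] [DecidableEq I] in
theorem ZZ_mono (i : I) : Monotone (ZZ q i) := fun _ _ h _ hγ j hj => (hγ j hj).trans h

omit [Group Γ] in
theorem ZZ_of_rho (hN : ∀ i, 1 ≤ NN i) (i : I) (r : ℝ) :
    ∃ R, ∀ γ, rho q i γ ≤ r → γ ∈ ZZ q i R := nm_of_rho hN i r

omit [Group Γ] in
theorem rho_of_ZZ (hN : ∀ i, 1 ≤ NN i) (i : I) (R : ℝ) :
    ∃ r, ∀ γ ∈ ZZ q i R, rho q i γ ≤ r := rho_of_nm hN i R

/-- **Uniform discreteness** of `ZZ q i R`. -/
theorem ud_prod (hN : ∀ i, 1 ≤ NN i) (hq : ∀ i, PH (q i))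
    (fin : ∀ C : ℝ, {γ | ∀ j, nm (q j γ) ≤ C}.Finite) (i : I) (R : ℝ) : UD (q i) (ZZ q i R) := by
  obtain ⟨r, hr⟩ := rho_of_ZZ (q := q) hN i R
  exact ud_sn (hq i) (siz_rho hN hq i) (fin_rho hN fin i) hr

/-- Large size: large norm. -/
theorem nm_large {k : Type} [NontriviallyNormedField k] {N : ℕ} (hN : 1 ≤ N) (R : ℝ) :
    ∃ r, ∀ g : GG k N, (r < G1 g ∨ r < G1 g⁻¹) → R < nm g := by
  refine ⟨cst (N + 1) + ((N + 1 : ℕ) : ℝ) * Real.log (max R 1) + Real.log ((N + 1 : ℕ) : ℝ),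
    fun g hg => ?_⟩
  have h1 := Lg_le (n := N + 1) (by omega) g
  have h2 : cst (N + 1) + ((N + 1 : ℕ) : ℝ) * Real.log (max R 1) < Lg g := by
    rcases hg with h | h
    · linarith [G1_le_Lg (n := N + 1) (by omega) g]
    · have := G1_le_Lg (n := N + 1) (by omega) g⁻¹
      rw [Lg_inv] at this
      linarith
  have h3 : ((N + 1 : ℕ) : ℝ) * Real.log (max R 1) < ((N + 1 : ℕ) : ℝ) * Real.log (en g.1) := by
    linarith
  have h4 := lt_of_mul_lt_mul_left h3 (Nat.cast_nonneg _)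
  have h5 := (Real.log_lt_log_iff (lt_of_lt_of_le one_pos (le_max_right R 1))
    (en_pos (by omega) g)).1 h4
  exact lt_of_le_of_lt (le_max_left _ _) h5

omit [Group Γ] in
/-- **The regular elements, points**: two large gaps in the factor `i`, or the factor `i` and
another factor are large. -/
theorem bb_mix (hN : ∀ i, 1 ≤ NN i) (i : I) (R : ℝ) :
    ∃ r, BB (g1 (q i)) (g2 (q i) (rho q i)) r ⊆ {γ | R < G1 (q i γ) ∧ R < G2 (q i γ)} ∪
      {γ | R < nm (q i γ) ∧ ∃ j, j ≠ i ∧ R < nm (q j γ)} := by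
  obtain ⟨r1, hr1⟩ := nm_large (k := kk i) (hN i) R
  obtain ⟨r2, hr2⟩ := rho_of_nm (q := q) hN i R
  refine ⟨max R (max r1 r2), fun γ hγ => ?_⟩
  obtain ⟨h1, h2⟩ := hγ
  by_cases h3 : R < G2 (q i γ)
  · exact Or.inl ⟨lt_of_le_of_lt (le_max_left _ _) h1, h3⟩
  · right
    refine ⟨hr1 _ (Or.inl (lt_of_le_of_lt ((le_max_left _ _).trans (le_max_right _ _)) h1)), ?_⟩
    by_contra hc
    push Not at hc
    have h4 := hr2 γ hc
    rcases lt_max_iff.1 h2 with h5 | h5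
    · exact h3 (lt_of_le_of_lt (le_max_left _ _) h5)
    · exact absurd (lt_of_le_of_lt ((le_max_right _ _).trans (le_max_right _ _)) h5)
        (not_lt.2 h4)

omit [Group Γ] in
/-- **The regular elements, hyperplanes.** -/
theorem bb_mix' (hN : ∀ i, 1 ≤ NN i) (i : I) (R : ℝ) :
    ∃ r, BB (g1 fun γ => ct (q i γ)) (g2 (fun γ => ct (q i γ)) (rho q i)) r ⊆
      {γ | R < G1 (q i γ)⁻¹ ∧ R < G2 (q i γ)⁻¹} ∪
      {γ | R < nm (q i γ) ∧ ∃ j, j ≠ i ∧ R < nm (q j γ)} := by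
  obtain ⟨r1, hr1⟩ := nm_large (k := kk i) (hN i) R
  obtain ⟨r2, hr2⟩ := rho_of_nm (q := q) hN i R
  refine ⟨max R (max r1 r2), fun γ hγ => ?_⟩
  obtain ⟨h1, h2⟩ := hγ
  have e1 : G1 (ct (q i γ)) = G1 (q i γ)⁻¹ := G1_ta _
  have e2 : G2 (ct (q i γ)) = G2 (q i γ)⁻¹ := G2_ta _
  simp only [g1, g2, e1, e2] at h1 h2
  by_cases h3 : R < G2 (q i γ)⁻¹
  · exact Or.inl ⟨lt_of_le_of_lt (le_max_left _ _) h1, h3⟩
  · right
    refine ⟨hr1 _ (Or.inr (lt_of_le_of_lt ((le_max_left _ _).trans (le_max_right _ _)) h1)), ?_⟩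
    by_contra hc
    push Not at hc
    have h4 := hr2 γ hc
    rcases lt_max_iff.1 h2 with h5 | h5
    · exact h3 (lt_of_le_of_lt (le_max_left _ _) h5)
    · exact absurd (lt_of_le_of_lt ((le_max_right _ _).trans (le_max_right _ _)) h5)
        (not_lt.2 h4)

end prod

end Vale.Agent.P092.H337.NG
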