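import Vale.Agent.P092.H337.NGf
import Vale.Agent.P092.H859.CNE
import Vale.Agent.P092.SN.Defs

/-!
P092, Team N, block [N-GEOF] (helper337), part 7: the geometry in the letters of `SN/Defs`:
`geoF_sn`, `geoF_sn'` (`CN.GeoF`), `domCut_sn` (`CN.DomCut` for `NWA q Z`), `gaps_sn` (`CN.Gaps`
for `q` and `ct ∘ q`), `ud_sn` (`UD q (Z R)`), `nw_of_g2`, `g2_right` (inputs of
`H632.nws_abs`).
-/

namespace Vale.Agent.P092.H337.NG

open Matrix Topology
open scoped LinearAlgebra.Projectivization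
open Vale.Agent.P092.SN (PH NW NWA nm Att UD)
open Vale.Agent.P092.RC (GG YY ct)
open Vale.Agent.P092.H859.CL (BB FF cn)
open Vale.Agent.P092.H859

section inv2

variable {k : Type*} [NormedField k] {n : ℕ}

/-- The Leibniz bound with bounds for each row. -/
theorem norm_det_le_row (A : Matrix (Fin n) (Fin n) k) (c : Fin n → ℝ)
    (h : ∀ i j, ‖A i j‖ ≤ c i) : ‖A.det‖ ≤ n.factorial * ∏ j, c j := by
  rw [← det_transpose]
  exact norm_det_le Aᵀ c fun i j => h j i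

/-- The entries of the inverse: one `2 × 2` minor and `n - 3` entries. -/
theorem en_inv_le_m2 (hn : 3 ≤ n) (g : SLn k n) :
    en (g⁻¹).1 ≤ n.factorial * (m2 g.1 * en g.1 ^ (n - 3)) := by
  obtain ⟨A, hA⟩ : ∃ A, A = g.1 := ⟨_, rfl⟩
  have h0 := en_nonneg A
  have h02 := m2_nonneg A
  refine en_le_of (by rw [← hA]; positivity) fun i j => ?_
  obtain ⟨M, hM⟩ : ∃ M, M = A.updateRow j (Pi.single i 1) := ⟨_, rfl⟩
  have e1 : (g⁻¹).1 i j = M.det := by
    rw [Matrix.SpecialLinearGroup.coe_inv, Matrix.adjugate_apply, hM, hA]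
  rw [e1, ← hA]
  have hne : Nonempty (Fin n) := ⟨j⟩
  obtain ⟨l1, l2, q, h12, h1j, h2j, hq⟩ : ∃ l1 l2 q : Fin n, l1 ≠ l2 ∧ l1 ≠ j ∧ l2 ≠ j ∧
      ∀ x, ‖A l1 x‖ ≤ ‖A l1 q‖ ∧ ‖A l2 x‖ ≤ ‖A l1 q‖ := by
    have hc : 1 < (Finset.univ.erase j).card := by
      rw [Finset.card_erase_of_mem (Finset.mem_univ _), Finset.card_univ, Fintype.card_fin]
      omega
    obtain ⟨a, ha, b, hb, hab⟩ := Finset.one_lt_card.1 hc
    obtain ⟨qa, hqa⟩ := Finite.exists_max fun x => ‖A a x‖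
    obtain ⟨qb, hqb⟩ := Finite.exists_max fun x => ‖A b x‖
    rcases le_total ‖A b qb‖ ‖A a qa‖ with h | h
    · exact ⟨a, b, qa, hab, Finset.ne_of_mem_erase ha, Finset.ne_of_mem_erase hb,
        fun x => ⟨hqa x, (hqb x).trans h⟩⟩
    · exact ⟨b, a, qb, hab.symm, Finset.ne_of_mem_erase hb, Finset.ne_of_mem_erase ha,
        fun x => ⟨hqb x, (hqa x).trans h⟩⟩
  have hM1 : ∀ x, M l1 x = A l1 x := fun x => by rw [hM, updateRow_ne h1j]
  have hM2 : ∀ x, M l2 x = A l2 x := fun x => by rw [hM, updateRow_ne h2j]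
  have hMj : ∀ x, M j x = (Pi.single i (1 : k) : Fin n → k) x := fun x => by
    rw [hM, updateRow_self]
  by_cases hz : A l1 q = 0
  · have hrow : ∀ x, M l1 x = 0 := fun x => by
      have := (hq x).1
      rw [hz, norm_zero] at this
      rw [hM1]
      exact norm_le_zero_iff.1 this
    rw [det_eq_zero_of_row_eq_zero l1 hrow, norm_zero]
    positivity
  obtain ⟨a, ha⟩ : ∃ a : ℝ, a = ‖A l1 q‖ := ⟨_, rfl⟩
  have ha0 : 0 < a := by rw [ha]; exact norm_pos_iff.2 hz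
  have hd : (M.updateRow l2 (M l2 + (-(A l2 q / A l1 q)) • M l1)).det = M.det :=
    det_updateRow_add_smul_self M h12.symm _
  rw [← hd]
  refine (norm_det_le_row _ (Function.update (Function.update (Function.update
    (fun _ => en A) l2 (m2 A / a)) l1 a) j 1) fun l x => ?_).trans (le_of_eq ?_)
  · by_cases hl2 : l = l2
    · subst hl2
      rw [updateRow_self, Function.update_of_ne h2j, Function.update_of_ne h12.symm,
        Function.update_self]
      rw [Pi.add_apply, Pi.smul_apply, hM1, hM2, smul_eq_mul]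
      have e2 : A l x + -(A l q / A l1 q) * A l1 x = mi A l1 l q x / A l1 q := by
        unfold mi
        field_simp
        ring
      rw [e2, norm_div, ← ha]
      exact div_le_div_of_nonneg_right (mi_le _ _ _ _ _) ha0.le
    rw [updateRow_ne hl2]
    by_cases hlj : l = j
    · subst hlj
      rw [hMj, Function.update_self]
      exact (norm_le_pi_norm _ x).trans (norm_single i)
    rw [Function.update_of_ne hlj]
    by_cases hl1 : l = l1
    · subst hl1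
      rw [hM1, Function.update_self, ha]
      exact (hq x).1
    rw [Function.update_of_ne hl1, Function.update_of_ne hl2, hM, updateRow_ne hlj]
    exact entry_le A l x
  · congr 1
    rw [Finset.prod_update_of_mem (Finset.mem_univ _), Finset.prod_update_of_mem,
      Finset.prod_update_of_mem, Finset.prod_const, one_mul, ← mul_assoc, mul_div_cancel₀ _ ha0.ne']
    · congr 2
      rw [Finset.card_sdiff_of_subset, Finset.card_sdiff_of_subset, Finset.card_sdiff_of_subset,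
        Finset.card_univ, Fintype.card_fin]
      · simp only [Finset.card_singleton]; omega
      · exact Finset.subset_univ _
      · simpa using h1j
      · simp [h12.symm, h2j]
    · simp [h12.symm, h2j]
    · simpa using h1j

/-! ### Logarithms -/

/-- The first gap is at most the sum of all gaps but the last one, which is `G2` of the
inverse. -/
theorem G1_le_G2_inv (hn : 3 ≤ n) (g : SLn k n) : G1 g ≤ G2 g⁻¹ + Real.log n.factorial := by
  have h1 := en_pos (by omega) g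
  have h2 := en_pos (by omega) g⁻¹
  have h3 := m2_pos (by omega : 2 ≤ n) g
  have hf : (0 : ℝ) < n.factorial := by exact_mod_cast n.factorial_pos
  have h4 := Real.log_le_log h2 (en_inv_le_m2 hn g)
  rw [Real.log_mul hf.ne' (by positivity), Real.log_mul h3.ne' (by positivity), Real.log_pow,
    Nat.cast_sub hn] at h4
  push_cast at h4
  unfold G1 G2
  rw [inv_inv]
  linarith

end inv2

/-! ### The letters of `SN/Defs` -/

section sn

variable {k : Type} [NontriviallyNormedField k] {N : ℕ} {Γ : Type} [Group Γ]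

theorem phom_of_ph {q : Γ → GG k N} (h : PH q) : PHom q := h

theorem ph_ct {q : Γ → GG k N} (h : PH q) : PH fun γ => ct (q γ) := (phom_of_ph h).ta

theorem nm_eq (g : GG k N) : nm g = en g.1 := rfl

theorem nm_ct (g : GG k N) : nm (ct g) = nm g⁻¹ := en_ta g

theorem ct_ct (g : GG k N) : ct (ct g) = g := by
  apply Subtype.ext
  change (((ct g)⁻¹ : GG k N).1)ᵀ = g.1
  rw [← map_inv]
  change (((g⁻¹)⁻¹ : GG k N).1)ᵀᵀ = g.1
  rw [inv_inv, transpose_transpose]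

/-- The action of `Γ` on the projective space through `q`. -/
@[reducible] noncomputable def actQ {q : Γ → GG k N} (hq : PH q) : MulAction Γ (YY k N) where
  smul γ p := q γ • p
  one_smul p := ((phom_of_ph hq).one.smul_eq p).trans (one_smul _ p)
  mul_smul γ γ' p := ((phom_of_ph hq γ γ').smul_eq p).trans (mul_smul _ _ p)

/-- the first gap -/
noncomputable def g1 (q : Γ → GG k N) (γ : Γ) : ℝ := G1 (q γ)

/-- the other gaps and the other coordinates -/
noncomputable def g2 (q : Γ → GG k N) (ρ : Γ → ℝ) (γ : Γ) : ℝ := max (G2 (q γ)) (ρ γ)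

/-- the attracting point -/
noncomputable def bq (q : Γ → GG k N) (γ : Γ) : YY k N := bp (q γ)

/-- A size function of the other coordinates, invariant under inversion up to a constant. -/
structure SizS (ρ : Γ → ℝ) : Prop where
  siz : Siz ρ
  inv : ∃ C, ∀ x, |ρ x⁻¹ - ρ x| ≤ C

theorem sizS_zero : SizS (fun _ : Γ => (0 : ℝ)) := ⟨siz_zero, 0, fun _ => by simp⟩

/-- The inverses: `nm g` is at most a power of `nm g⁻¹`. -/
theorem nm_le_inv (g : GG k N) : nm g ≤ (N + 1).factorial * nm g⁻¹ ^ N := by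
  have h := en_le_inv g
  rwa [Nat.add_sub_cancel] at h

omit [Group Γ] in
theorem fin_ct {q : Γ → GG k N} {ρ : Γ → ℝ} (fin : ∀ R : ℝ, {γ | nm (q γ) ≤ R ∧ ρ γ ≤ R}.Finite)
    (R : ℝ) : {γ | nm (ct (q γ)) ≤ R ∧ ρ γ ≤ R}.Finite := by
  refine (fin (max ((N + 1).factorial * |R| ^ N) R)).subset fun γ hγ => ?_
  obtain ⟨h1, h2⟩ := hγ
  rw [nm_ct] at h1
  have h3 : (0 : ℝ) ≤ nm (q γ)⁻¹ := en_nonneg _
  refine ⟨?_, h2.trans (le_max_right _ _)⟩
  refine (nm_le_inv (q γ)).trans (le_trans ?_ (le_max_left _ _))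
  have h4 : nm (q γ)⁻¹ ^ N ≤ |R| ^ N := pow_le_pow_left₀ h3 (h1.trans (le_abs_self R)) N
  exact mul_le_mul_of_nonneg_left h4 (by positivity)

/-- **[N-GEOF] in the letters of `SN/Defs`**: points. -/
theorem geoF_sn [ProperSpace k] (hN : 2 ≤ N) {q : Γ → GG k N} (hq : PH q) {ρ : Γ → ℝ} (hρ : Siz ρ)
    (fin : ∀ R : ℝ, {γ | nm (q γ) ≤ R ∧ ρ γ ≤ R}.Finite) {Br : ℝ → Set Γ}
    (hBr : ∀ r, ∃ r', BB (g1 q) (g2 q ρ) r' ⊆ Br r) :
    @CN.GeoF Γ (YY k N) _ _ (actQ hq) Br (g1 q) (g2 q ρ) (bq q) :=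
  @geoF' k _ (N + 1) _ Γ _ (by omega) _ q hq ρ hρ fin (actQ hq) (fun _ _ => rfl) Br hBr

/-- **[N-GEOF] in the letters of `SN/Defs`**: hyperplanes. -/
theorem geoF_sn' [ProperSpace k] (hN : 2 ≤ N) {q : Γ → GG k N} (hq : PH q) {ρ : Γ → ℝ}
    (hρ : Siz ρ) (fin : ∀ R : ℝ, {γ | nm (q γ) ≤ R ∧ ρ γ ≤ R}.Finite) {Br : ℝ → Set Γ}
    (hBr : ∀ r, ∃ r', BB (g1 fun γ => ct (q γ)) (g2 (fun γ => ct (q γ)) ρ) r' ⊆ Br r) :
    @CN.GeoF Γ (YY k N) _ _ (actQ (ph_ct hq)) Br (g1 fun γ => ct (q γ))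
      (g2 (fun γ => ct (q γ)) ρ) (bq fun γ => ct (q γ)) :=
  geoF_sn hN (ph_ct hq) hρ (fin_ct fin) hBr

omit [Group Γ] in
/-- The near-wall sets contain the sublevel sets of `g2`. -/
theorem nw_of_g2 (hN : 1 ≤ N) (q : Γ → GG k N) (ρ : Γ → ℝ) {Z : ℝ → Set Γ} (hZm : Monotone Z)
    (hZ : ∀ r, ∃ R, ∀ γ, ρ γ ≤ r → γ ∈ Z R) (r : ℝ) :
    ∃ R : ℝ, ∀ γ, g2 q ρ γ ≤ r → γ ∈ Z R ∧ NW R (q γ) := by
  obtain ⟨R0, hR0⟩ := hZ r
  refine ⟨max R0 (Real.exp r), fun γ hγ => ⟨hZm (le_max_left _ _) (hR0 γ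
    ((le_max_right _ _).trans hγ)), ?_⟩⟩
  have h1 := nw_pow (n := N + 1) (by omega) ((le_max_left _ _).trans hγ : G2 (q γ) ≤ r)
  rw [Nat.add_sub_cancel] at h1
  have h2 : (0 : ℝ) ≤ nm (q γ) := en_nonneg _
  exact le_trans h1 (mul_le_mul_of_nonneg_right (le_max_right _ _) h2)

omit [Group Γ] in
/-- **The geometric input at the level of the cut-offs.** -/
theorem domCut_sn (hN : 1 ≤ N) (q : Γ → GG k N) (ρ : Γ → ℝ) {Z : ℝ → Set Γ} (hZm : Monotone Z)
    (hZ : ∀ r, ∃ R, ∀ γ, ρ γ ≤ r → γ ∈ Z R) :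
    CN.DomCut (NWA q Z) (g1 q) (g2 q ρ) (bq q) := by
  intro r
  obtain ⟨R, hR⟩ := nw_of_g2 hN q ρ hZm hZ r
  refine ⟨R, fun T hT => ⟨max (Real.log T) r, fun A γ hγ => ?_⟩⟩
  obtain ⟨h1, h2⟩ := hγ
  by_cases h3 : g2 q ρ γ ≤ r
  · by_cases h4 : Real.log T ≤ G1 (q γ)
    · left
      obtain ⟨h5, h6⟩ := hR γ h3
      exact ⟨h5, h6, attN_of (by omega) hT h4 h2⟩
    · right; left
      push Not at h4
      exact ⟨h4.le.trans (le_max_left _ _), h3.trans (le_max_right _ _)⟩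
  · right; right
    push Not at h3
    exact ⟨lt_of_lt_of_le h3 h1, h3⟩

/-- **The comparison of the two pairs of gaps.** -/
theorem gaps_sn (hN : 2 ≤ N) {q : Γ → GG k N} (hq : PH q) {ρ : Γ → ℝ} (hρ : SizS ρ) :
    ∃ C, CN.Gaps (g1 q) (g2 q ρ) (g1 fun γ => ct (q γ)) (g2 (fun γ => ct (q γ)) ρ) C := by
  obtain ⟨C, hC⟩ := hρ.inv
  have hC0 : 0 ≤ C := (abs_nonneg _).trans (hC 1)
  obtain ⟨F, hF⟩ : ∃ F : ℝ, F = Real.log ((N + 1).factorial : ℝ) := ⟨_, rfl⟩
  have hF0 : 0 ≤ F := by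
    rw [hF]
    exact Real.log_nonneg (by exact_mod_cast (N + 1).factorial_pos)
  have e1 : ∀ g : GG k N, G1 (ct g) = G1 g⁻¹ := fun g => G1_ta g
  have e2 : ∀ g : GG k N, G2 (ct g) = G2 g⁻¹ := fun g => G2_ta g
  have i1 : ∀ γ, G1 (q γ⁻¹) = G1 (q γ)⁻¹ := fun γ => ((phom_of_ph hq).inv γ).G1_eq
  have i2 : ∀ γ, G2 (q γ⁻¹) = G2 (q γ)⁻¹ := fun γ => ((phom_of_ph hq).inv γ).G2_eq
  refine ⟨C + F, by linarith, fun g => ?_, fun g => ?_, fun g => ?_, fun g => ?_⟩
  · simp only [g1, e1, i1, sub_self, abs_zero]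
    linarith
  · simp only [g2, e2, i2]
    have h1 := abs_max_sub_max_le_max (G2 (q g)⁻¹) (ρ g⁻¹) (G2 (q g)⁻¹) (ρ g)
    rw [sub_self, abs_zero, max_eq_right (abs_nonneg (ρ g⁻¹ - ρ g))] at h1
    linarith [hC g]
  · simp only [g1, g2, e1]
    have h1 := G1_le_G2_inv (n := N + 1) (by omega) (q g)⁻¹
    rw [inv_inv] at h1
    have h2 := le_max_left (G2 (q g)) (ρ g)
    rw [← hF] at h1
    linarith
  · simp only [g1, g2, e2]
    have h1 := G1_le_G2_inv (n := N + 1) (by omega) (q g)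
    have h2 := le_max_left (G2 (q g)⁻¹) (ρ g)
    rw [← hF] at h1
    linarith

/-- **Uniform discreteness.** -/
theorem ud_sn {q : Γ → GG k N} (hq : PH q) {ρ : Γ → ℝ} (hρ : Siz ρ)
    (fin : ∀ R : ℝ, {γ | nm (q γ) ≤ R ∧ ρ γ ≤ R}.Finite) {Z : Set Γ} {r : ℝ}
    (hZ : ∀ γ ∈ Z, ρ γ ≤ r) : UD q Z := by
  classical
  intro C
  obtain ⟨r', hr'⟩ := hρ.quo r
  refine ⟨(fin (max C r')).toFinset.card, fun S hS hS' => ?_⟩
  rcases S.eq_empty_or_nonempty with rfl | ⟨x, hx⟩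
  · simp
  refine Finset.card_le_card_of_injOn (fun γ => γ * x⁻¹) (fun γ hγ => ?_) fun a _ b _ h =>
    mul_right_cancel h
  rw [Set.Finite.coe_toFinset]
  have e : nm (q (γ * x⁻¹)) = nm (q γ * (q x)⁻¹) := ((phom_of_ph hq).mul_inv γ x).en_eq
  refine ⟨?_, ?_⟩
  · rw [e]
    exact (hS' x hx γ hγ).trans (le_max_left _ _)
  · exact (hr' x γ (hZ x (hS x hx)) (hZ γ (hS γ hγ))).trans (le_max_right _ _)

/-- Quasi-invariance on the right, in the form used by `H632.nws_abs`. -/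
theorem g2_right (hN : 1 ≤ N) {q : Γ → GG k N} (hq : PH q) {ρ : Γ → ℝ} (hρ : Siz ρ) (u : Γ) :
    ∃ C, ∀ g, |g2 q ρ (g * u) - g2 q ρ g| ≤ C := by
  obtain ⟨C, hC⟩ := gap_bd (n := N + 1) (by omega) (q 1) (q u)
  obtain ⟨C', hC'⟩ := hρ.gap 1 u
  refine ⟨max C C', fun x => ?_⟩
  have e := (phom_of_ph hq).mul3 1 x u
  have h1 := (hC (q x)).2
  have h2 := hC' x
  rw [one_mul] at e h2
  rw [← e.G2_eq] at h1
  exact (abs_max_sub_max_le_max _ _ _ _).trans (max_le_max h1 h2)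

end sn

end Vale.Agent.P092.H337.NG
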