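import Vale.Agent.P092.H337.NGh
import Vale.Agent.P092.H859.TgN
import Vale.Agent.P092.H776.NG6

/-!
P092, Team N, products (helper337), part 9: the letters of `H859/TgN`, `H776/NG6` and `H805/RowN` for
a finite family of targets `q i : Γ → SL_(N_i+1)(k_i)`: `tg_prod`, the regular sets `RG q Br`, the
regular elements of every coordinate (points, hyperplanes) are in `Br`, and `SysF` for every
coordinate along every wall.
-/

set_option linter.all false

open scoped InnerProductSpace ENNReal LinearAlgebra.Projectivization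
open Filter Topology ContinuousLinearMap MeasureTheory TopologicalSpace

namespace Vale.Agent.P092.H337.NG

open Vale.Agent.P092.SN (PH NW NWA nm Att UD Adm bw)
open Vale.Agent.P092.RC (GG YY PG ct)
open Vale.Agent.P092.H859.CL (BB FF cn)
open Vale.Agent.P092.H859
open Vale.Agent.P092.H933 (LocK)

/-! ### Duals -/

section dual

variable {k : Type} [NontriviallyNormedField k] {N : ℕ}

theorem Lg_ct (g : GG k N) : Lg (ct g) = Lg g := by
  have e1 : en (ct g).1 = en (g⁻¹).1 := en_ta g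
  have e2 : en ((ct g)⁻¹).1 = en g.1 := by
    have h : (ct g)⁻¹ = ct g⁻¹ := (map_inv (ct : GG k N →* GG k N) g).symm
    rw [h]
    have h2 : en (ct g⁻¹).1 = en ((g⁻¹)⁻¹).1 := en_ta g⁻¹
    rw [h2, inv_inv]
  unfold Lg
  rw [e1, e2]
  ring

theorem nm_ct_le (g : GG k N) : nm (ct g) ≤ (N + 1).factorial * nm g ^ N := by
  have h := nm_le_inv g⁻¹
  rw [inv_inv] at h
  rw [nm_ct]
  exact h

/-- a large dual is large -/
theorem nm_large_ct (r : ℝ) : ∃ r' : ℝ, ∀ g : GG k N, r' < nm (ct g) → r < nm g := by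
  refine ⟨(N + 1).factorial * |r| ^ N, fun g hg => ?_⟩
  by_contra hc
  push Not at hc
  have h1 : nm g ^ N ≤ |r| ^ N := pow_le_pow_left₀ (norm_nonneg _) (hc.trans (le_abs_self r)) _
  have h2 := mul_le_mul_of_nonneg_left h1 (Nat.cast_nonneg (α := ℝ) (N + 1).factorial)
  exact absurd hg (not_lt.2 ((nm_ct_le g).trans h2))

end dual

/-! ### The targets -/

section tgt

variable {Γ : Type} [Group Γ] {I : Type} [Fintype I] [DecidableEq I] {kk : I → Type}
  [∀ i, NontriviallyNormedField (kk i)] {NN : I → ℕ} {q q' : ∀ i, Γ → GG (kk i) (NN i)}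

/-- **The target data of the coordinate `i`.** -/
theorem tg_prod (hN : ∀ i, 1 ≤ NN i) (hq : ∀ i, PH (q i))
    (fin : ∀ C : ℝ, {γ | ∀ j, nm (q j γ) ≤ C}.Finite) (i : I) : TgN.Tg (q i) (rho q i) where
  ph := hq i
  siz := siz_rho hN hq i
  inv := (sizS_rho hN hq i).inv
  fin := fin_rho hN fin i

/-- **The target data of the coordinate `i`, dual.** -/
theorem tg_prod_ct (hN : ∀ i, 1 ≤ NN i) (hq : ∀ i, PH (q i))
    (fin : ∀ C : ℝ, {γ | ∀ j, nm (q j γ) ≤ C}.Finite) (i : I) :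
    TgN.Tg (fun γ => ct (q i γ)) (rho q i) := (tg_prod hN hq fin i).dual

omit [Group Γ] in
/-- Duals of coordinates do not change `rho`. -/
theorem rho_tw (h : ∀ j γ, q' j γ = q j γ ∨ q' j γ = ct (q j γ)) (i : I) : rho q' i = rho q i := by
  funext γ
  unfold rho
  refine Finset.sum_congr rfl fun j _ => ?_
  rcases h j γ with h1 | h1
  · rw [h1]
  · rw [h1, Lg_ct]

omit [Group Γ] in
/-- Joint finiteness for duals of coordinates. -/
theorem fin_tw (h : ∀ j γ, q' j γ = q j γ ∨ q' j γ = ct (q j γ))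
    (fin : ∀ C : ℝ, {γ | ∀ j, nm (q j γ) ≤ C}.Finite) (C : ℝ) :
    {γ | ∀ j, nm (q' j γ) ≤ C}.Finite := by
  refine (fin (∑ j, (|C| + ((NN j + 1).factorial : ℝ) * |C| ^ NN j))).subset fun γ hγ j => ?_
  have h0 : ∀ j : I, 0 ≤ |C| + ((NN j + 1).factorial : ℝ) * |C| ^ NN j := fun j => by positivity
  refine le_trans ?_ (Finset.single_le_sum (f := fun j => |C| + ((NN j + 1).factorial : ℝ) *
    |C| ^ NN j) (fun j _ => h0 j) (Finset.mem_univ j))
  have h1 : nm (q' j γ) ≤ |C| := (hγ j).trans (le_abs_self C)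
  rcases h j γ with h2 | h2
  · rw [← h2]
    have : 0 ≤ ((NN j + 1).factorial : ℝ) * |C| ^ NN j := by positivity
    linarith
  · have h3 : nm (q j γ) ≤ ((NN j + 1).factorial : ℝ) * nm (q' j γ) ^ NN j := by
      rw [h2]
      have h4 := nm_ct_le (ct (q j γ))
      rwa [ct_ct] at h4
    have h5 : nm (q' j γ) ^ NN j ≤ |C| ^ NN j := pow_le_pow_left₀ (norm_nonneg _) h1 _
    have h6 : ((NN j + 1).factorial : ℝ) * nm (q' j γ) ^ NN j ≤
        ((NN j + 1).factorial : ℝ) * |C| ^ NN j := mul_le_mul_of_nonneg_left h5 (Nat.cast_nonneg _)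
    have := abs_nonneg C
    linarith

end tgt

/-! ### Regular sets -/

section rg

variable {Γ : Type} [Group Γ] {I : Type} {kk : I → Type} [∀ i, NontriviallyNormedField (kk i)]
  {NN : I → ℕ}

/-- The regular sets of a finite family of targets: the output of `H776.NG.exists_regular`. -/
structure RG (q : ∀ i, Γ → GG (kk i) (NN i)) (Br : ℝ → Set Γ) : Prop where
  anti : Antitone Br
  tr : ∀ (γ : Γ) (r : ℝ), ∃ r', ∀ g ∈ Br r', γ⁻¹ * g ∈ Br r
  pts : ∀ i (r : ℝ), ∃ r' : ℝ, ∀ γ, r' < G1 (q i γ) → r' < G2 (q i γ) → γ ∈ Br r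
  hyp : ∀ i (r : ℝ), ∃ r' : ℝ, ∀ γ, r' < G1 (ct (q i γ)) → r' < G2 (ct (q i γ)) → γ ∈ Br r
  mix : ∀ i j, i ≠ j → ∀ r : ℝ, ∃ r' : ℝ, ∀ γ, r' < nm (q i γ) → r' < nm (q j γ) → γ ∈ Br r

variable {q q' : ∀ i, Γ → GG (kk i) (NN i)} {Br : ℝ → Set Γ}

/-- Duals of coordinates. -/
theorem RG.tw (h : RG q Br) (hd : ∀ i, (∀ γ, q' i γ = q i γ) ∨ ∀ γ, q' i γ = ct (q i γ)) :
    RG q' Br where
  anti := h.anti
  tr := h.tr
  pts i r := by
    rcases hd i with h1 | h1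
    · simp only [h1]
      exact h.pts i r
    · simp only [h1]
      exact h.hyp i r
  hyp i r := by
    rcases hd i with h1 | h1
    · simp only [h1]
      exact h.hyp i r
    · simp only [h1, ct_ct]
      exact h.pts i r
  mix i j hij r := by
    obtain ⟨r0, h0⟩ := h.mix i j hij r
    have key : ∀ l, ∃ r' : ℝ, ∀ γ, r' < nm (q' l γ) → r0 < nm (q l γ) := by
      intro l
      rcases hd l with h1 | h1
      · exact ⟨r0, fun γ h2 => by rwa [h1] at h2⟩
      · obtain ⟨r', h2⟩ := nm_large_ct (k := kk l) (N := NN l) r0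
        exact ⟨r', fun γ h3 => h2 _ (by rwa [h1] at h3)⟩
    obtain ⟨r1, h1⟩ := key i
    obtain ⟨r2, h2⟩ := key j
    exact ⟨max r1 r2, fun γ a b => h0 γ (h1 γ ((le_max_left _ _).trans_lt a))
      (h2 γ ((le_max_right _ _).trans_lt b))⟩

variable [Fintype I] [DecidableEq I]

/-- A common bound for the mixed elements. -/
theorem RG.mix' (h : RG q Br) (i : I) (r : ℝ) : ∃ r' : ℝ, ∀ γ, r' < nm (q i γ) →
    (∃ j, j ≠ i ∧ r' < nm (q j γ)) → γ ∈ Br r := by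
  have h1 : ∀ j, ∃ r' : ℝ, j ≠ i → ∀ γ, r' < nm (q i γ) → r' < nm (q j γ) → γ ∈ Br r := by
    intro j
    by_cases hj : j = i
    · exact ⟨0, fun h => absurd hj h⟩
    · obtain ⟨r', hr'⟩ := h.mix i j (Ne.symm hj) r
      exact ⟨r', fun _ => hr'⟩
  choose r' hr' using h1
  refine ⟨∑ j, |r' j|, fun γ h2 h3 => ?_⟩
  obtain ⟨j, hj, h4⟩ := h3
  have h5 : r' j ≤ ∑ j, |r' j| := (le_abs_self _).trans
    (Finset.single_le_sum (f := fun j => |r' j|) (fun _ _ => abs_nonneg _) (Finset.mem_univ j))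
  exact hr' j hj γ (h5.trans_lt h2) (h5.trans_lt h4)

/-- **The regular elements of every coordinate, points.** -/
theorem RG.bb (h : RG q Br) (hN : ∀ i, 1 ≤ NN i) (i : I) (r : ℝ) :
    ∃ r', BB (TgN.g1 (q i)) (TgN.g2 (q i) (rho q i)) r' ⊆ Br r := by
  obtain ⟨r1, h1⟩ := h.pts i r
  obtain ⟨r2, h2⟩ := h.mix' i r
  obtain ⟨r', hr'⟩ := bb_mix (q := q) hN i (max r1 r2)
  refine ⟨r', fun γ hγ => ?_⟩
  rcases hr' hγ with ⟨a, b⟩ | ⟨a, j, hj, b⟩
  · exact h1 γ ((le_max_left _ _).trans_lt a) ((le_max_left _ _).trans_lt b)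
  · exact h2 γ ((le_max_right _ _).trans_lt a) ⟨j, hj, (le_max_right _ _).trans_lt b⟩

/-- **The regular elements of every coordinate, hyperplanes.** -/
theorem RG.bb_ct (h : RG q Br) (hN : ∀ i, 1 ≤ NN i) (i : I) (r : ℝ) :
    ∃ r', BB (TgN.g1 fun γ => ct (q i γ)) (TgN.g2 (fun γ => ct (q i γ)) (rho q i)) r' ⊆
      Br r := by
  obtain ⟨r1, h1⟩ := h.hyp i r
  obtain ⟨r2, h2⟩ := h.mix' i r
  obtain ⟨r', hr'⟩ := bb_mix' (q := q) hN i (max r1 r2)
  refine ⟨r', fun γ hγ => ?_⟩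
  have e1 : G1 (ct (q i γ)) = G1 (q i γ)⁻¹ := G1_ta _
  have e2 : G2 (ct (q i γ)) = G2 (q i γ)⁻¹ := G2_ta _
  rcases hr' hγ with ⟨a, b⟩ | ⟨a, j, hj, b⟩
  · exact h1 γ (by rw [e1]; exact (le_max_left _ _).trans_lt a)
      (by rw [e2]; exact (le_max_left _ _).trans_lt b)
  · exact h2 γ ((le_max_right _ _).trans_lt a) ⟨j, hj, (le_max_right _ _).trans_lt b⟩

end rg

/-! ### `SysF` for every coordinate, along every wall -/

section sysf

open Vale.Agent.P092.SR Vale.Agent.P092.H160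
open Vale.Agent.P092.RC (KK pic)
open Vale.Agent.P092.H805.RowN Vale.Agent.P092.H805.Row

variable {E : Type} [Group E] [TopologicalSpace E] [IsTopologicalGroup E] [LocallyCompactSpace E]
  [SecondCountableTopology E] [T2Space E] [MeasurableSpace E] [BorelSpace E]
  {Γ : Subgroup E} [DiscreteTopology Γ] [Countable Γ] [MeasurableSpace (E ⧸ Γ)]
  [BorelSpace (E ⧸ Γ)] {ν : Measure (E ⧸ Γ)} [IsProbabilityMeasure ν]
  (hν : ∀ g : E, ν.map (fun x => g • x) = ν)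
  {Λ : Type} [Group Λ] [Countable Λ] {α : Γ →* (Ell2 Λ →L[ℂ] Ell2 Λ)} (hα : Frame α)

/-- One target, a general regular set. -/
theorem sysF_tg {k : Type} [NontriviallyNormedField k] {N : ℕ} (hN : 2 ≤ N)
    {q : Γ → GG k N} {ρ : Γ → ℝ} (h : TgN.Tg q ρ) {A : Subgroup E} {Br : ℝ → Set Γ}
    (hBr : ∀ r, ∃ r', BB (TgN.g1 q) (TgN.g2 q ρ) r' ⊆ Br r)
    (nrm : ∀ ε : ℝ, 0 < ε → ∃ r, ∀ u ∈ A, msE hν hα u (Br r) ≤ ε) :
    CN.SysF (mpE ν hα) (fun g => pic hν hα g) (Bd ν hα) (msE hν hα) A Br (TgN.g1 q)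
      (TgN.g2 q ρ) :=
  sysNE hν hα (fun s u => h.gap2 hN s u) hBr nrm

section fam

variable {I : Type} [Fintype I] [DecidableEq I] {kk : I → Type}
  [∀ i, NontriviallyNormedField (kk i)] {NN : I → ℕ} {q : ∀ i, Γ → GG (kk i) (NN i)}
  {Br : ℝ → Set Γ}

/-- **`SysF`, points of the coordinate `j`**, along any subgroup `A` without regular mass. -/
theorem sysF_pts (hN : ∀ i, 2 ≤ NN i) (hq : ∀ i, PH (q i))
    (fin : ∀ C : ℝ, {γ | ∀ j, nm (q j γ) ≤ C}.Finite) (h : RG q Br) {A : Subgroup E}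
    (nrm : ∀ ε : ℝ, 0 < ε → ∃ r, ∀ u ∈ A, msE hν hα u (Br r) ≤ ε) (j : I) :
    CN.SysF (mpE ν hα) (fun g => pic hν hα g) (Bd ν hα) (msE hν hα) A Br (TgN.g1 (q j))
      (TgN.g2 (q j) (rho q j)) :=
  sysF_tg hν hα (hN j) (tg_prod (fun i => by have := hN i; omega) hq fin j)
    (h.bb (fun i => by have := hN i; omega) j) nrm

/-- **`SysF`, hyperplanes of the coordinate `j`.** -/
theorem sysF_hyp (hN : ∀ i, 2 ≤ NN i) (hq : ∀ i, PH (q i))
    (fin : ∀ C : ℝ, {γ | ∀ j, nm (q j γ) ≤ C}.Finite) (h : RG q Br) {A : Subgroup E}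
    (nrm : ∀ ε : ℝ, 0 < ε → ∃ r, ∀ u ∈ A, msE hν hα u (Br r) ≤ ε) (j : I) :
    CN.SysF (mpE ν hα) (fun g => pic hν hα g) (Bd ν hα) (msE hν hα) A Br
      (TgN.g1 fun γ => ct (q j γ)) (TgN.g2 (fun γ => ct (q j γ)) (rho q j)) :=
  sysF_tg hν hα (hN j) (tg_prod_ct (fun i => by have := hN i; omega) hq fin j)
    (h.bb_ct (fun i => by have := hN i; omega) j) nrm

end fam

/-! ### Existence -/

section ex

variable {I : Type} [Fintype I] [DecidableEq I] {k : I → Type}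
  [∀ i, NontriviallyNormedField (k i)] [∀ i, ProperSpace (k i)] {N : I → ℕ}
  {I' : Type} [Fintype I'] [Nonempty I'] {k' : I' → Type}
  [∀ j, NontriviallyNormedField (k' j)] [∀ j, ProperSpace (k' j)] {N' : I' → ℕ}

/-- **Regular sets of a family of targets, small along every wall of an admissible family of
sources.** -/
theorem exists_rg {ι : ∀ i, GG (k i) (N i) →* E} {a a' : ∀ i, E →* PG (k i) (N i + 1)}
    (hA : ∀ i, Adm (ι i) (a i) (a' i))
    (hcomm : ∀ i j, i ≠ j → ∀ g h, Commute (ι i g) (ι j h)) {w : ∀ i, (k i)ˣ}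
    (hw : ∀ i, ‖(w i : k i)‖ < 1) (hk' : ∀ j, LocK (k' j)) (hN' : ∀ j, 0 < N' j)
    (hNN : ∑ j, N' j ≤ ∑ i, N i) {q : ∀ j, Γ → GG (k' j) (N' j)} (hq : ∀ j, PH (q j))
    (fin : ∀ C : ℝ, {γ : Γ | ∀ j, nm (q j γ) ≤ C}.Finite) :
    ∃ Br : ℝ → Set Γ, RG q Br ∧ ∀ i, ∀ ε : ℝ, 0 < ε → ∃ r : ℝ,
      ∀ u ∈ Subgroup.zpowers (ι i (bw (w i))), msE hν hα u (Br r) ≤ ε := by
  obtain ⟨Br, h1, h2, h3, h4, h5, h6⟩ := H776.NG.exists_regular hν hα
    (fun i => by have := (hA i).hN; omega) ι a (fun i => (hA i).cι) (fun i => (hA i).ca)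
    (fun i => (hA i).comp) hcomm w hw hk' hN' hNN q hq fin
  exact ⟨Br, ⟨h1, h2, h3, h4, h5⟩, h6⟩

end ex

end sysf

end Vale.Agent.P092.H337.NG
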