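import Vale.Agent.P092.H337.NGi
import Vale.Agent.P092.H515.TauF
import Vale.Agent.P092.H368.SN.GeoB
import Vale.Agent.P092.H368.SN.GeoC

/-!
P092, Team N, products (helper337), part 10: sizes `log (1 + nm (q j γ))` of the coordinates
(`H515.Tau.Coords`), and `tau_wall`: along the powers of a wall element of one source factor one
coordinate takes all the mass, on the concrete picture of any admissible source.
-/

set_option linter.all false

open scoped InnerProductSpace ENNReal LinearAlgebra.Projectivization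
open Filter Topology ContinuousLinearMap MeasureTheory TopologicalSpace

namespace Vale.Agent.P092.H337.NG

open Vale.Agent.P092.SN (PH NW NWA nm Att UD Adm bw)
open Vale.Agent.P092.RC (GG YY PG ct KK pic lam₁ lam₂ XX Om Moore)
open Vale.Agent.P092.H859.CL (BB FF cn st)
open Vale.Agent.P092.H859
open Vale.Agent.P092.H933 (LocK)
open Vale.Agent.P092.H515.Tau (Coords T1 T2 T1_gap T2_gap BB_sub quasi one_wall)

/-! ### Sizes of the coordinates -/

section crd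

variable {Γ : Type} [Group Γ] {I : Type} {kk : I → Type} [∀ i, NontriviallyNormedField (kk i)]
  {NN : I → ℕ}

/-- the size of the coordinate `j` -/
noncomputable def Ls (q : ∀ i, Γ → GG (kk i) (NN i)) (j : I) (γ : Γ) : ℝ :=
  Real.log (1 + nm (q j γ))

variable {q : ∀ i, Γ → GG (kk i) (NN i)}

omit [Group Γ] in
theorem one_le_nm (j : I) (γ : Γ) : 1 ≤ 1 + nm (q j γ) := by
  have : 0 ≤ nm (q j γ) := norm_nonneg _
  linarith

omit [Group Γ] in
theorem Ls_nonneg (j : I) (γ : Γ) : 0 ≤ Ls q j γ := Real.log_nonneg (one_le_nm j γ)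

omit [Group Γ] in
theorem nm_of_Ls {j : I} {γ : Γ} {r : ℝ} (h : Ls q j γ ≤ r) : nm (q j γ) ≤ Real.exp r := by
  have h1 := one_le_nm (q := q) j γ
  have h2 := (Real.log_le_iff_le_exp (by linarith)).1 h
  linarith

omit [Group Γ] in
theorem Ls_of_nm {j : I} {γ : Γ} {r : ℝ} (h : nm (q j γ) ≤ r) : Ls q j γ ≤ Real.log (1 + r) :=
  Real.log_le_log (by have := one_le_nm (q := q) j γ; linarith) (by linarith)

omit [Group Γ] in
/-- a large size is a large norm -/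
theorem nm_lt_of_Ls {j : I} {γ : Γ} {r : ℝ} (h : Real.log (1 + max r 0) < Ls q j γ) :
    r < nm (q j γ) := by
  by_contra hc
  push Not at hc
  exact absurd (Ls_of_nm (hc.trans (le_max_left r 0))) (not_le.2 h)

theorem Ls_mul (hq : ∀ i, PH (q i)) (j : I) (x y : Γ) :
    Ls q j (x * y) ≤ Ls q j x + Ls q j y + Real.log ((NN j : ℝ) + 2) := by
  have e0 : Eqv (q j (x * y)) (q j x * q j y) := hq j x y
  have e : nm (q j (x * y)) = nm (q j x * q j y) := e0.en_eq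
  have h1 : nm (q j x * q j y) ≤ ((NN j + 1 : ℕ) : ℝ) * (nm (q j x) * nm (q j y)) :=
    en_mul (q j x).1 (q j y).1
  have hx : 0 ≤ nm (q j x) := norm_nonneg _
  have hy : 0 ≤ nm (q j y) := norm_nonneg _
  have hN : (0 : ℝ) ≤ NN j := Nat.cast_nonneg _
  have h2 : 1 + nm (q j (x * y)) ≤ (1 + nm (q j x)) * (1 + nm (q j y)) * ((NN j : ℝ) + 2) := by
    rw [e]
    push_cast at h1
    have h3 : 0 ≤ nm (q j x) * nm (q j y) := mul_nonneg hx hy
    nlinarith [mul_nonneg hN hx, mul_nonneg hN hy, mul_nonneg hN h3]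
  have p1 : 0 < 1 + nm (q j x) := by linarith
  have p2 : 0 < 1 + nm (q j y) := by linarith
  have p3 : 0 < 1 + nm (q j (x * y)) := by
    have : 0 ≤ nm (q j (x * y)) := norm_nonneg _
    linarith
  have p4 : 0 < (NN j : ℝ) + 2 := by linarith
  unfold Ls
  rw [← Real.log_mul p1.ne' p2.ne', ← Real.log_mul (mul_pos p1 p2).ne' p4.ne']
  exact Real.log_le_log p3 h2

theorem Ls_inv (hN : ∀ i, 1 ≤ NN i) (hq : ∀ i, PH (q i)) (j : I) (x : Γ) :
    Ls q j x⁻¹ ≤ Real.log (1 + ((NN j + 1).factorial : ℝ)) + (NN j : ℝ) * Ls q j x := by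
  have e : nm (q j x⁻¹) = nm (q j x)⁻¹ := ((phom_of_ph (hq j)).inv x).en_eq
  have h1 : nm (q j x)⁻¹ ≤ ((NN j + 1).factorial : ℝ) * nm (q j x) ^ NN j := by
    have h := nm_le_inv (q j x)⁻¹
    rwa [inv_inv] at h
  have hx : 0 ≤ nm (q j x) := norm_nonneg _
  have hf : (0 : ℝ) ≤ ((NN j + 1).factorial : ℝ) := Nat.cast_nonneg _
  have h2 : 1 + nm (q j x⁻¹) ≤ (1 + ((NN j + 1).factorial : ℝ)) * (1 + nm (q j x)) ^ NN j := by
    rw [e]
    have h3 : nm (q j x) ^ NN j ≤ (1 + nm (q j x)) ^ NN j :=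
      pow_le_pow_left₀ hx (by linarith) _
    have h4 : (1 : ℝ) ≤ (1 + nm (q j x)) ^ NN j := one_le_pow₀ (by linarith)
    have h5 := mul_le_mul_of_nonneg_left h3 hf
    calc 1 + nm (q j x)⁻¹ ≤ 1 + ((NN j + 1).factorial : ℝ) * nm (q j x) ^ NN j := by linarith
      _ ≤ (1 + nm (q j x)) ^ NN j + ((NN j + 1).factorial : ℝ) * (1 + nm (q j x)) ^ NN j := by
          linarith
      _ = _ := by ring
  have p1 : 0 < (1 + nm (q j x)) ^ NN j := pow_pos (by linarith) _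
  have p2 : 0 < 1 + ((NN j + 1).factorial : ℝ) := by linarith
  have p3 : 0 < 1 + nm (q j x⁻¹) := by
    have : 0 ≤ nm (q j x⁻¹) := norm_nonneg _
    linarith
  unfold Ls
  rw [← Real.log_pow, ← Real.log_mul p2.ne' p1.ne']
  exact Real.log_le_log p3 h2

variable [Fintype I] [DecidableEq I] {Br : ℝ → Set Γ}

/-- **The sizes of the coordinates.** -/
theorem RG.coords (h : RG q Br) (hN : ∀ i, 1 ≤ NN i) (hq : ∀ i, PH (q i))
    (fin : ∀ C : ℝ, {γ | ∀ j, nm (q j γ) ≤ C}.Finite) : Coords Br (Ls q) where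
  nonneg := Ls_nonneg
  fin r := (fin (Real.exp r)).subset fun γ hγ j => nm_of_Ls (hγ j)
  inv := by
    refine ⟨1 + ∑ j, (Real.log (1 + ((NN j + 1).factorial : ℝ)) + NN j), ?_, fun j γ => ?_⟩
    · have : 0 ≤ ∑ j, (Real.log (1 + ((NN j + 1).factorial : ℝ)) + NN j) :=
        Finset.sum_nonneg fun j _ => add_nonneg (Real.log_nonneg (by
          have : (0 : ℝ) ≤ ((NN j + 1).factorial : ℝ) := Nat.cast_nonneg _
          linarith)) (Nat.cast_nonneg _)
      linarith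
    · have h1 := Ls_inv hN hq j γ
      have hl : 0 ≤ Real.log (1 + ((NN j + 1).factorial : ℝ)) := Real.log_nonneg (by
          have : (0 : ℝ) ≤ ((NN j + 1).factorial : ℝ) := Nat.cast_nonneg _
          linarith)
      have h2 : Real.log (1 + ((NN j + 1).factorial : ℝ)) + NN j ≤
          1 + ∑ j, (Real.log (1 + ((NN j + 1).factorial : ℝ)) + NN j) := by
        have h3 := Finset.single_le_sum (f := fun j => Real.log (1 + ((NN j + 1).factorial : ℝ)) +
          NN j) (fun j _ => add_nonneg (Real.log_nonneg (by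
          have : (0 : ℝ) ≤ ((NN j + 1).factorial : ℝ) := Nat.cast_nonneg _
          linarith)) (Nat.cast_nonneg _)) (Finset.mem_univ j)
        linarith
      have h4 := Ls_nonneg (q := q) j γ
      have h5 : (0 : ℝ) ≤ NN j := Nat.cast_nonneg _
      calc Ls q j γ⁻¹ ≤ Real.log (1 + ((NN j + 1).factorial : ℝ)) + (NN j : ℝ) * Ls q j γ := h1
        _ ≤ (Real.log (1 + ((NN j + 1).factorial : ℝ)) + NN j) * (Ls q j γ + 1) := by nlinarith
        _ ≤ _ := mul_le_mul_of_nonneg_right h2 (by linarith)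
  mul := by
    refine ⟨∑ j, Real.log ((NN j : ℝ) + 2), fun j x y => ?_⟩
    have h1 := Ls_mul hq j x y
    have h2 := Finset.single_le_sum (f := fun j => Real.log ((NN j : ℝ) + 2)) (fun j _ =>
      Real.log_nonneg (by
        have : (0 : ℝ) ≤ NN j := Nat.cast_nonneg _
        linarith)) (Finset.mem_univ j)
    linarith
  mix r := by
    choose r' hr' using fun i => h.mix' i r
    refine ⟨∑ i, Real.log (1 + max (r' i) 0), ?_⟩
    rintro γ ⟨j, j', hj, h1, h2⟩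
    have h3 : Real.log (1 + max (r' j) 0) ≤ ∑ i, Real.log (1 + max (r' i) 0) :=
      Finset.single_le_sum (f := fun i => Real.log (1 + max (r' i) 0)) (fun i _ =>
        Real.log_nonneg (by have := le_max_right (r' i) 0; linarith)) (Finset.mem_univ j)
    exact hr' j γ (nm_lt_of_Ls (h3.trans_lt h1)) ⟨j', hj.symm, nm_lt_of_Ls (h3.trans_lt h2)⟩

end crd

/-! ### The concrete picture -/

section pict

open Vale.Agent.P092.SR Vale.Agent.P092.H160
open Vale.Agent.P092.H805.RowN Vale.Agent.P092.H805.Row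
open Vale.Agent.P092.H368.SN (SrcE GeoE Cz z0 geoE_of_adm pow_cocompact Ctr Cen)

variable {E : Type} [Group E] [TopologicalSpace E] [IsTopologicalGroup E] [LocallyCompactSpace E]
  [SecondCountableTopology E] [T2Space E] [MeasurableSpace E] [BorelSpace E]
  {Γ : Subgroup E} [DiscreteTopology Γ] [Countable Γ] [MeasurableSpace (E ⧸ Γ)]
  [BorelSpace (E ⧸ Γ)] {ν : Measure (E ⧸ Γ)} [IsProbabilityMeasure ν]
  (hν : ∀ g : E, ν.map (fun x => g • x) = ν)
  {Λ : Type} [Group Λ] [Countable Λ] {α : Γ →* (Ell2 Λ →L[ℂ] Ell2 Λ)} (hα : Frame α)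

/-- The source data of the first leg, without duality. -/
theorem srcE_pic [NoncompactSpace E]
    (hΛ : ∀ g : Λ, g ≠ 1 → Set.Infinite {y : Λ | ∃ h, y = h * g * h⁻¹}) {b : E}
    (hb : Tendsto (fun n : ℕ => b ^ n) atTop (cocompact E)) :
    SrcE b (pic hν hα) (lam₁ ν α) (XX ν Λ ∪ Set.range (lam₂ ν α)) (Om ν Λ) (mpE ν hα)
      (Bd ν hα) (Bf ν hα) where
  pic := picE hν hα hΛ
  mcov := mcovE hν hα
  mW := mWE hν hα
  slow := slowE hν hα
  loc := locE hν hα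
  esc := fun g ξ hξ => H859.CL.tendsto_pw.1 ((escE hν hα hb).esc g ξ hξ)
  esc' := fun g ξ hξ => H859.CL.tendsto_pw.1 ((escE' hν hα hb).esc g ξ hξ)
  sym := symE hν hα

variable {I : Type} [Fintype I] [DecidableEq I] [Nonempty I] {kk : I → Type}
  [∀ i, NontriviallyNormedField (kk i)] {NN : I → ℕ} {q : ∀ i, Γ → GG (kk i) (NN i)}
  {Br : ℝ → Set Γ}

/-- `SysF` for the largest coordinate and the others. -/
theorem sysF_T (hN : ∀ i, 1 ≤ NN i) (hq : ∀ i, PH (q i))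
    (fin : ∀ C : ℝ, {γ | ∀ j, nm (q j γ) ≤ C}.Finite) (h : RG q Br) {A : Subgroup E}
    (nrm : ∀ ε : ℝ, 0 < ε → ∃ r, ∀ u ∈ A, msE hν hα u (Br r) ≤ ε) :
    CN.SysF (mpE ν hα) (fun g => pic hν hα g) (Bd ν hα) (msE hν hα) A Br (T1 (Ls q))
      (T2 (Ls q)) := by
  have hG := h.coords hN hq fin
  refine sysNE hν hα (fun s u => ?_) (BB_sub hG) nrm
  obtain ⟨C, hC0, hC⟩ := quasi hG s u
  refine ⟨(Fintype.card I + 1) * C, fun x => ⟨(T1_gap fun j => hC j x).trans ?_,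
    T2_gap hC0 fun j => hC j x⟩⟩
  have : (0 : ℝ) ≤ (Fintype.card I : ℝ) * C := by positivity
  linarith

variable {k : Type} [NontriviallyNormedField k] [ProperSpace k] {N : ℕ} {ι : GG k N →* E}
  {a a' : E →* PG k (N + 1)}

/-- **One wall, one coordinate**, on the concrete picture of an admissible source. -/
theorem tau_wall [NoncompactSpace E]
    (hΛ : ∀ g : Λ, g ≠ 1 → Set.Infinite {y : Λ | ∃ h, y = h * g * h⁻¹})
    (hN : ∀ i, 1 ≤ NN i) (hq : ∀ i, PH (q i))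
    (fin : ∀ C : ℝ, {γ | ∀ j, nm (q j γ) ≤ C}.Finite) (h : RG q Br)
    (hA : Adm ι a a') {v : kˣ} (hv : ‖(v : k)‖ < 1) (hz : Cz v ι a a')
    (nrm : ∀ ε : ℝ, 0 < ε → ∃ r, ∀ u ∈ Subgroup.zpowers (ι (bw v)), msE hν hα u (Br r) ≤ ε) :
    ∃ j : I, ∀ ξ, ∀ ε : ℝ, 0 < ε → ∃ r : ℝ, ∀ u ∈ Subgroup.zpowers (ι (bw v)),
      ‖H103.mS₁ ν hα {γ | ∃ i, i ≠ j ∧ r < nm (q i γ)} (pic hν hα u ξ)‖ ≤ ε := by
  have hE := geoE_of_adm hA hv hz
  have hS := sysF_T hν hα hN hq fin h nrm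
  obtain ⟨j, hj⟩ := one_wall (srcE_pic hν hα hΛ (pow_cocompact hA hv)) (h.coords hN hq fin)
    hS hE.moore hE.moore' fun ξ ε hε => finE hα ξ hε
  refine ⟨j, fun ξ ε hε => ?_⟩
  obtain ⟨r, hr⟩ := hj ξ ε hε
  refine ⟨Real.exp r, fun u hu => ?_⟩
  rw [← st_eq hα]
  refine le_trans (hS.sys.prj.mono ?_ _) (hr u hu)
  rintro γ ⟨i, hi, h1⟩
  refine ⟨i, hi, ?_⟩
  change r < Real.log (1 + nm (q i γ))
  rw [Real.lt_log_iff_exp_lt (by have := one_le_nm (q := q) i γ; linarith)]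
  linarith

/-- **One coordinate for every factor of the source.** -/
theorem exists_tau [NoncompactSpace E]
    (hΛ : ∀ g : Λ, g ≠ 1 → Set.Infinite {y : Λ | ∃ h, y = h * g * h⁻¹})
    {J : Type} [Fintype J] [DecidableEq J] {k : J → Type} [∀ j, NontriviallyNormedField (k j)]
    [∀ j, ProperSpace (k j)] {N : J → ℕ} [∀ i, ProperSpace (kk i)]
    {ι : ∀ j, GG (k j) (N j) →* E} {a a' : ∀ j, E →* PG (k j) (N j + 1)}
    (hA : ∀ j, Adm (ι j) (a j) (a' j))
    (hcomm : ∀ i j, i ≠ j → ∀ g h, Commute (ι i g) (ι j h)) {v : ∀ j, (k j)ˣ}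
    (hv : ∀ j, ‖(v j : k j)‖ < 1) (hz : ∀ j, Cz (v j) (ι j) (a j) (a' j))
    (hk : ∀ i, LocK (kk i)) (hN : ∀ i, 1 ≤ NN i) (hNN : ∑ i, NN i ≤ ∑ j, N j)
    (hq : ∀ i, PH (q i)) (fin : ∀ C : ℝ, {γ | ∀ j, nm (q j γ) ≤ C}.Finite) :
    ∃ (Br : ℝ → Set Γ) (τ : J → I), RG q Br ∧
      (∀ j, ∀ ε : ℝ, 0 < ε → ∃ r : ℝ, ∀ u ∈ Subgroup.zpowers (ι j (bw (v j))),
        msE hν hα u (Br r) ≤ ε) ∧
      ∀ j ξ, ∀ ε : ℝ, 0 < ε → ∃ r : ℝ, ∀ u ∈ Subgroup.zpowers (ι j (bw (v j))),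
        ‖H103.mS₁ ν hα {γ | ∃ i, i ≠ τ j ∧ r < nm (q i γ)} (pic hν hα u ξ)‖ ≤ ε := by
  obtain ⟨Br, hB, hn⟩ := exists_rg hν hα hA hcomm hv hk hN hNN hq fin
  choose τ hτ using fun j => tau_wall hν hα hΛ hN hq fin hB (hA j) (hv j) (hz j) (hn j)
  exact ⟨Br, τ, hB, hn, hτ⟩

end pict

end Vale.Agent.P092.H337.NG
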