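import Vale.Agent.P092.H370.Po4
import Vale.Agent.P092.H835.PlGr
import Vale.Agent.P092.H914.NJB

/-!
P092 (helper337), TEAM P, Track 3: singular points and singular lines of a form in projective
letters (any index type): `lp X` = the point of the line `X`, `pls Y` = the Pluecker point of the
plane `Y`; sections; the dense set of the tame functions.
-/

set_option linter.all false

open scoped LinearAlgebra.Projectivization
open Matrix Module Set Topology TopologicalSpace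

namespace Vale.Agent.P092.H337.C3

open Vale.Agent.P092.H303 (FormGroup)
open Vale.Agent.P092.H714.Cl
open Vale.Agent.P092.H370.Po
open Vale.Agent.P092.H100.Gr (Gr Fr sp sp_oq fr_val_cont sp_surj)
open Vale.Agent.P092.H820 (pj pj_eq pj_surj pj_continuous)
open Vale.Agent.P092.H835.PlGr (plk plk_cont plk_emb plk_inj rep_alt rep_line mem_iff)
open Vale.Agent.P092.H835.PlF (Alt w3)
open Vale.Agent.P092.H820 (wd)
open Vale.Agent.P092.H914 (TD SecStmt)
open Vale.Agent.P092.H589.K2 (Nrm)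

section pt

variable {n : Type} [Fintype n] [DecidableEq n] {k : Type} [NontriviallyNormedField k]
  {σ : k →+* k} {J : Matrix n n k}

theorem fr_ne (v : Fr k n 1) : v.1 0 ≠ 0 := v.2.ne_zero 0

/-- the point of a frame -/
def lpF (v : Fr k n 1) : ℙ k (n → k) := pj k n ⟨v.1 0, fr_ne v⟩

theorem mem_sp1 {v : Fr k n 1} {x : n → k} : x ∈ (sp v).1 ↔ ∃ c : k, c • v.1 0 = x := by
  change x ∈ Submodule.span k (range v.1) ↔ _
  have e : range v.1 = {v.1 0} := by
    ext y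
    constructor
    · rintro ⟨i, rfl⟩
      rw [Subsingleton.elim i 0]
      rfl
    · rintro rfl
      exact ⟨0, rfl⟩
  rw [e, Submodule.mem_span_singleton]

theorem lpF_eq {v : Fr k n 1} {x : n → k} (hx : x ≠ 0) (h : x ∈ (sp v).1) :
    lpF v = pj k n ⟨x, hx⟩ := by
  obtain ⟨c, rfl⟩ := mem_sp1.1 h
  have hc : c ≠ 0 := fun h0 => hx (by rw [h0, zero_smul])
  exact ((pj_eq _ _).2 ⟨Units.mk0 c hc, rfl⟩).symm

/-- **the point of a line** -/
noncomputable def lp (X : Gr k n 1) : ℙ k (n → k) := lpF (sp_surj X).choose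

theorem lp_eq {X : Gr k n 1} {x : n → k} (hx : x ≠ 0) (h : x ∈ X.1) : lp X = pj k n ⟨x, hx⟩ := by
  refine lpF_eq hx ?_
  rw [(sp_surj X).choose_spec]
  exact h

theorem lp_sp (v : Fr k n 1) : lp (sp v) = lpF v :=
  lp_eq (fr_ne v) (mem_sp1.2 ⟨1, one_smul _ _⟩)

theorem lp_cont : Continuous (lp : Gr k n 1 → ℙ k (n → k)) := by
  rw [← sp_oq.continuous_comp_iff]
  have e : (lp : Gr k n 1 → ℙ k (n → k)) ∘ sp = lpF := funext lp_sp
  rw [e]
  exact pj_continuous.comp (Continuous.subtype_mk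
    ((continuous_apply (0 : Fin 1)).comp fr_val_cont) _)

theorem exists_vec (X : Gr k n 1) : ∃ x : n → k, x ≠ 0 ∧ X.1 = Submodule.span k {x} := by
  obtain ⟨v, hv⟩ := sp_surj X
  refine ⟨v.1 0, fr_ne v, ?_⟩
  ext y
  rw [Submodule.mem_span_singleton, ← mem_sp1, hv]

/-- the vectors of a point -/
theorem mem_of_lp {X : Gr k n 1} {x : n → k} {hx : x ≠ 0} (h : lp X = pj k n ⟨x, hx⟩) :
    x ∈ X.1 := by
  obtain ⟨y, hy, e⟩ := exists_vec X
  have hyX : y ∈ X.1 := by rw [e]; exact Submodule.mem_span_singleton_self y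
  rw [lp_eq hy hyX] at h
  obtain ⟨c, hc⟩ := (pj_eq _ _).1 h
  have h1 : (c : k) • x = y := hc
  have h2 : x = (c : k)⁻¹ • y := by rw [← h1, smul_smul, inv_mul_cancel₀ c.ne_zero, one_smul]
  rw [h2]
  exact X.1.smul_mem _ hyX

theorem lp_inj : Function.Injective (lp : Gr k n 1 → ℙ k (n → k)) := by
  intro X Y h
  obtain ⟨x, hx, hX⟩ := exists_vec X
  have hxX : x ∈ X.1 := by rw [hX]; exact Submodule.mem_span_singleton_self x
  have h1 : lp Y = pj k n ⟨x, hx⟩ := by rw [← h, lp_eq hx hxX]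
  have h2 : X.1 ≤ Y.1 := by
    rw [hX, Submodule.span_singleton_le_iff_mem]
    exact mem_of_lp h1
  exact Subtype.ext (Submodule.eq_of_le_of_finrank_eq h2 (X.2.trans Y.2.symm))

/-- the point of a singular line -/
noncomputable def lps (X : SGr σ J 1) : ℙ k (n → k) := lp X.1

theorem lps_cont : Continuous (lps : SGr σ J 1 → ℙ k (n → k)) := lp_cont.comp SGr.val_cont

theorem lps_inj : Function.Injective (lps : SGr σ J 1 → ℙ k (n → k)) := fun X Y h =>
  Subtype.ext (lp_inj h)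

/-- the Pluecker point of a singular plane -/
noncomputable def pls (Y : SGr σ J 2) : ℙ k (n × n → k) := plk Y.1

theorem pls_cont : Continuous (pls : SGr σ J 2 → ℙ k (n × n → k)) := plk_cont.comp SGr.val_cont

variable [ProperSpace k]

/-- the restriction of the functions to the singular points -/
noncomputable def rst (σ : k →+* k) (J : Matrix n n k) : C(ℙ k (n → k), ℂ) →⋆ₐ[ℂ] C(SGr σ J 1, ℂ) :=
  ContinuousMap.compStarAlgHom' ℂ ℂ ⟨lps, lps_cont⟩

theorem rst_apply (F : C(ℙ k (n → k), ℂ)) (X : SGr σ J 1) : rst σ J F X = F (lps X) := rfl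

theorem rst_surj (hσ : Continuous σ) : Function.Surjective (rst σ J : C(ℙ k (n → k), ℂ) → _) := by
  haveI : Fact (Continuous σ) := ⟨hσ⟩
  have hemb : IsClosedEmbedding (lps : SGr σ J 1 → ℙ k (n → k)) :=
    lps_cont.isClosedEmbedding lps_inj
  intro f
  have h1 : ∀ f : C(SGr σ J 1, ℝ), ∃ F : C(ℙ k (n → k), ℝ), F.comp ⟨lps, lps_cont⟩ = f :=
    fun f => ContinuousMap.exists_extension hemb f
  obtain ⟨F, hF⟩ := h1 ⟨fun L => (f L).re, Complex.continuous_re.comp f.continuous⟩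
  obtain ⟨G, hG⟩ := h1 ⟨fun L => (f L).im, Complex.continuous_im.comp f.continuous⟩
  refine ⟨⟨fun x => (F x : ℂ) + (G x : ℂ) * Complex.I, ?_⟩, ContinuousMap.ext fun L => ?_⟩
  · exact (Complex.continuous_ofReal.comp F.continuous).add
      ((Complex.continuous_ofReal.comp G.continuous).mul continuous_const)
  · have h2 : F (lps L) = (f L).re := congrArg (fun g : C(SGr σ J 1, ℝ) => g L) hF
    have h3 : G (lps L) = (f L).im := congrArg (fun g : C(SGr σ J 1, ℝ) => g L) hG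
    change (F (lps L) : ℂ) + (G (lps L) : ℂ) * Complex.I = f L
    rw [h2, h3, Complex.re_add_im]

/-- the tame functions on the singular points -/
def TDs (σ : k →+* k) (J : Matrix n n k) : Set C(SGr σ J 1, ℂ) := rst σ J '' TD k n

theorem tds_dense (hσ : Continuous σ)
    (hd : closure (Submodule.span ℂ (TD k n) : Set C(ℙ k (n → k), ℂ)) = Set.univ) :
    closure (Submodule.span ℂ (TDs σ J) : Set C(SGr σ J 1, ℂ)) = Set.univ := by
  have h1 : (rst σ J '' (Submodule.span ℂ (TD k n) : Set _)) ⊆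
      (Submodule.span ℂ (TDs σ J) : Set C(SGr σ J 1, ℂ)) := by
    rintro _ ⟨F, hF, rfl⟩
    have h2 := Submodule.mem_map_of_mem
      (f := ((rst σ J : C(ℙ k (n → k), ℂ) →⋆ₐ[ℂ] C(SGr σ J 1, ℂ)) :
        C(ℙ k (n → k), ℂ) →ₗ[ℂ] C(SGr σ J 1, ℂ))) hF
    rw [Submodule.map_span] at h2
    exact h2
  have hc : Continuous (rst σ J : C(ℙ k (n → k), ℂ) →⋆ₐ[ℂ] C(SGr σ J 1, ℂ)) :=
    ContinuousMap.continuous_precomp _
  refine Set.eq_univ_of_univ_subset ?_
  intro F _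
  obtain ⟨F', rfl⟩ := rst_surj (σ := σ) (J := J) hσ F
  have h3 : F' ∈ closure (Submodule.span ℂ (TD k n) : Set C(ℙ k (n → k), ℂ)) := by rw [hd]; trivial
  exact closure_mono h1 (image_closure_subset_closure_image hc ⟨F', h3, rfl⟩)

/-- measurable sections -/
theorem exists_sec1 [MeasurableSpace k] (hs : SecStmt k) [MeasurableSpace (SGr σ J 1)]
    [BorelSpace (SGr σ J 1)] : ∃ s : SGr σ J 1 → n → k, Measurable s ∧ (∀ X, Nrm (s X)) ∧
      (∀ X, s X ∈ X.S) ∧ ∀ X, ∃ h : s X ≠ 0, lps X = pj k n ⟨s X, h⟩ := by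
  letI m1 : MeasurableSpace (ℙ k (n → k)) := borel _
  haveI b1 : BorelSpace (ℙ k (n → k)) := ⟨rfl⟩
  obtain ⟨τ, h1, h2, h3⟩ := hs n
  have h4 : ∀ X : SGr σ J 1, ∃ h : τ (lps X) ≠ 0, lps X = pj k n ⟨τ (lps X), h⟩ := by
    intro X
    obtain ⟨h, e⟩ := h3 (lps X)
    exact ⟨h, e.symm⟩
  refine ⟨fun X => τ (lps X), h1.comp lps_cont.measurable, fun X => h2 _, fun X => ?_, h4⟩
  obtain ⟨h, e⟩ := h4 X
  exact mem_of_lp e

theorem exists_sec2 [MeasurableSpace k] (hs : SecStmt k) [MeasurableSpace (SGr σ J 2)]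
    [BorelSpace (SGr σ J 2)] : ∃ p : SGr σ J 2 → n × n → k, Measurable p ∧ (∀ Y, Nrm (p Y)) ∧
      (∀ Y, Alt (p Y)) ∧ (∀ Y x, x ∈ Y.S ↔ w3 x (p Y) = 0) ∧ ∀ Y, ∃ z y, p Y = wd z y := by
  letI m1 : MeasurableSpace (ℙ k (n × n → k)) := borel _
  haveI b1 : BorelSpace (ℙ k (n × n → k)) := ⟨rfl⟩
  obtain ⟨τ, h1, h2, h3⟩ := hs (n × n)
  have h4 : ∀ Y : SGr σ J 2, ∃ h : τ (pls Y) ≠ 0, plk Y.1 = pj k (n × n) ⟨τ (pls Y), h⟩ := by
    intro Y
    obtain ⟨h, e⟩ := h3 (pls Y)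
    exact ⟨h, e.symm⟩
  refine ⟨fun Y => τ (pls Y), h1.comp pls_cont.measurable, fun Y => h2 _, fun Y => ?_,
    fun Y x => ?_, fun Y => ?_⟩
  · obtain ⟨h, e⟩ := h4 Y
    exact rep_alt (hω := h) e
  · obtain ⟨h, e⟩ := h4 Y
    exact mem_iff (hω := h) e
  · obtain ⟨h, e⟩ := h4 Y
    obtain ⟨x, hx, hx0⟩ : ∃ x ∈ Y.S, x ≠ 0 := by
      have hd : finrank k Y.S = 2 := Y.dim
      have : Y.S ≠ ⊥ := by
        intro h
        rw [h, finrank_bot] at hd
        exact absurd hd (by norm_num)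
      exact Submodule.exists_mem_ne_zero_of_ne_bot this
    obtain ⟨y, _, hy⟩ := rep_line (hω := h) e hx0 hx
    exact ⟨x, y, hy⟩

end pt

end Vale.Agent.P092.H337.C3
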