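import Vale.Agent.P092.H337.Fr1
import Vale.Agent.P092.H464.Q.Wt

/-!
P092 (helper337), TEAM P, Track 3, rows (K1), (K4) in the letters of helper464: the form
`hyp 2 ε J₀` with anisotropic `J₀` is standard (`Sf`), and its maximal singular spaces have
bounded frames (`Fr`).
-/

set_option linter.all false

open Matrix Module Set Topology Filter

namespace Vale.Agent.P092.H337.Fr

open Vale.Agent.P092.H303 (FormGroup Idx hyp)
open Vale.Agent.P092.H714.Cl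
open Vale.Agent.P092.H370.Po
open Vale.Agent.P092.H631.P2

section sig

variable {k : Type} [NontriviallyNormedField k] {σ : k →+* k}

theorem norm_lt_one_sig (hσ : Continuous σ) {z : k} (hz : ‖z‖ < 1) : ‖σ z‖ < 1 := by
  have h1 : Tendsto (fun n : ℕ => z ^ n) atTop (𝓝 0) := tendsto_pow_atTop_nhds_zero_of_norm_lt_one hz
  have h2 : Tendsto (fun n : ℕ => σ (z ^ n)) atTop (𝓝 (σ 0)) := (hσ.tendsto 0).comp h1
  rw [map_zero] at h2
  have h3 := h2.norm
  rw [norm_zero] at h3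
  by_contra hge
  push Not at hge
  have h4 : ∀ n : ℕ, (1 : ℝ) ≤ ‖σ (z ^ n)‖ := by
    intro n
    rw [map_pow, norm_pow]
    exact one_le_pow₀ hge
  have h5 : (1 : ℝ) ≤ 0 := ge_of_tendsto' h3 h4
  linarith

/-- a continuous involution is isometric -/
theorem norm_sig (hinv : ∀ x, σ (σ x) = x) (hσ : Continuous σ) (x : k) : ‖σ x‖ = ‖x‖ := by
  by_cases hx : x = 0
  · rw [hx, map_zero]
  have hsx : σ x ≠ 0 := by rwa [Ne, map_eq_zero]
  have hx' := norm_pos_iff.2 hx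
  have hs' := norm_pos_iff.2 hsx
  refine le_antisymm ?_ ?_
  · by_contra hlt
    push Not at hlt
    have h1 : ‖x / σ x‖ < 1 := by rw [norm_div, div_lt_one hs']; exact hlt
    have h2 := norm_lt_one_sig hσ h1
    rw [map_div₀, hinv, norm_div, div_lt_one hx'] at h2
    linarith
  · by_contra hlt
    push Not at hlt
    have h1 : ‖σ x / x‖ < 1 := by rw [norm_div, div_lt_one hx']; exact hlt
    have h2 := norm_lt_one_sig hσ h1
    rw [map_div₀, hinv, norm_div, div_lt_one hs'] at h2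
    linarith

theorem norm_eps {ε : k} (h : ε * ε = 1) : ‖ε‖ = 1 := by
  have h1 : ‖ε‖ * ‖ε‖ = 1 := by rw [← norm_mul, h, norm_one]
  nlinarith [norm_nonneg ε]

end sig

section hypf

variable {ι : Type} [Fintype ι] [DecidableEq ι] {k : Type} [Field k]
  {σ : k →+* k} {ε : k} {r : ℕ} {J₀ : Matrix ι ι k}

/-- the form in coordinates -/
theorem hf_hyp (x y : Idx r ι → k) : hf σ (hyp r ε J₀) x y =
    ∑ b : Fin r, x (.inl (.inl b)) * σ (y (.inl (.inr b))) +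
      ∑ b : Fin r, x (.inl (.inr b)) * (ε * σ (y (.inl (.inl b)))) +
      hf σ J₀ (fun w => x (.inr w)) (fun w => y (.inr w)) := by
  unfold hf hyp
  simp only [dotProduct, mulVec, Fintype.sum_sum_type, fromBlocks_apply₁₁, fromBlocks_apply₁₂,
    fromBlocks_apply₂₁, fromBlocks_apply₂₂, Matrix.zero_apply, zero_mul, Finset.sum_const_zero,
    add_zero, zero_add, Matrix.one_apply, Matrix.smul_apply, smul_eq_mul, ite_mul, one_mul,
    mul_ite, mul_one, mul_zero, Finset.sum_ite_eq, Finset.mem_univ, if_true]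

end hypf

section bd

variable {ι : Type} [Fintype ι] [DecidableEq ι] {k : Type} [NontriviallyNormedField k]
  {σ : k →+* k} {ε : k} {J₀ : Matrix ι ι k}

theorem hf_le_entries (hs : ∀ x, ‖σ x‖ = ‖x‖) {u v : ι → k} {a b : ℝ} (ha : 0 ≤ a) (hb : 0 ≤ b)
    (hu : ∀ i, ‖u i‖ ≤ a) (hv : ∀ i, ‖v i‖ ≤ b) :
    ‖hf σ J₀ u v‖ ≤ (∑ i, ∑ j, ‖J₀ i j‖) * (a * b) := by
  unfold hf
  simp only [dotProduct, mulVec, Finset.mul_sum]
  rw [Finset.sum_mul]
  refine (norm_sum_le _ _).trans (Finset.sum_le_sum fun i _ => ?_)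
  rw [Finset.sum_mul]
  refine (norm_sum_le _ _).trans (Finset.sum_le_sum fun j _ => ?_)
  rw [norm_mul, norm_mul, hs]
  calc ‖u i‖ * (‖J₀ i j‖ * ‖v j‖) = ‖J₀ i j‖ * (‖u i‖ * ‖v j‖) := by ring
    _ ≤ ‖J₀ i j‖ * (a * b) := mul_le_mul_of_nonneg_left
        (mul_le_mul (hu i) (hv j) (norm_nonneg _) ha) (norm_nonneg _)

/-- an anisotropic form is bounded below -/
theorem aniso_bd [ProperSpace k] (hσ : Continuous σ) (hs : ∀ x, ‖σ x‖ = ‖x‖)
    (han : ∀ w, hf σ J₀ w w = 0 → w = 0) :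
    ∃ c : ℝ, 0 < c ∧ ∀ w : ι → k, c * ‖w‖ ^ 2 ≤ ‖hf σ J₀ w w‖ := by
  by_cases hne : (Metric.sphere (0 : ι → k) 1).Nonempty
  · have hcont : Continuous fun w : ι → k => ‖hf σ J₀ w w‖ := by
      unfold hf
      simp only [dotProduct, mulVec]
      refine Continuous.norm (continuous_finset_sum _ fun i _ => (continuous_apply i).mul
        (continuous_finset_sum _ fun j _ => continuous_const.mul (hσ.comp (continuous_apply j))))
    obtain ⟨w₀, hw₀, hmin⟩ := (isCompact_sphere (0 : ι → k) 1).exists_isMinOn hne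
      hcont.continuousOn
    have hw0 : w₀ ≠ 0 := by
      intro h
      rw [h, mem_sphere_iff_norm, sub_self, norm_zero] at hw₀
      exact zero_ne_one hw₀
    refine ⟨‖hf σ J₀ w₀ w₀‖, norm_pos_iff.2 fun h => hw0 (han _ h), fun w => ?_⟩
    by_cases hw : w = 0
    · rw [hw, norm_zero]
      simp only [ne_eq, OfNat.ofNat_ne_zero, not_false_eq_true, zero_pow, mul_zero]
      exact norm_nonneg _
    · obtain ⟨i, hi⟩ : ∃ i, ‖w i‖ = ‖w‖ := by
        haveI : Nonempty ι := by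
          by_contra hemp
          rw [not_nonempty_iff] at hemp
          exact hw (Subsingleton.elim _ _)
        obtain ⟨i, -, hi⟩ := Finset.exists_mem_eq_sup' (Finset.univ_nonempty (α := ι))
          (fun i => ‖w i‖₊)
        refine ⟨i, ?_⟩
        have h2 : ‖w‖ ≤ ‖w i‖ := by
          rw [pi_norm_le_iff_of_nonneg (norm_nonneg _)]
          intro j
          have h3 : ‖w j‖₊ ≤ ‖w i‖₊ := hi ▸ Finset.le_sup' (fun i => ‖w i‖₊) (Finset.mem_univ j)
          exact h3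
        exact le_antisymm (norm_le_pi_norm w i) h2
      have hwi : w i ≠ 0 := by
        rw [← norm_pos_iff, hi]
        exact norm_pos_iff.2 hw
      have hmem : (w i)⁻¹ • w ∈ Metric.sphere (0 : ι → k) 1 := by
        rw [mem_sphere_iff_norm, sub_zero, norm_smul, norm_inv, hi,
          inv_mul_cancel₀ (norm_pos_iff.2 hw).ne']
      have h4 := hmin hmem
      simp only [mem_setOf_eq] at h4
      rw [hf_smul_left, hf_smul_right, norm_mul, norm_mul, hs, norm_inv, hi] at h4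
      have hp := norm_pos_iff.2 hw
      calc ‖hf σ J₀ w₀ w₀‖ * ‖w‖ ^ 2
          ≤ (‖w‖⁻¹ * (‖w‖⁻¹ * ‖hf σ J₀ w w‖)) * ‖w‖ ^ 2 :=
            mul_le_mul_of_nonneg_right h4 (sq_nonneg _)
        _ = ‖hf σ J₀ w w‖ := by field_simp
  · refine ⟨1, one_pos, fun w => ?_⟩
    have hw : w = 0 := by
      by_contra hw
      haveI : Nontrivial (ι → k) := ⟨⟨w, 0, hw⟩⟩
      obtain ⟨i, hi⟩ : ∃ i, w i ≠ 0 := by
        by_contra hall
        push Not at hall
        exact hw (funext hall)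
      refine hne ⟨Pi.single i 1, ?_⟩
      rw [mem_sphere_iff_norm, sub_zero]
      refine le_antisymm ?_ ?_
      · rw [pi_norm_le_iff_of_nonneg zero_le_one]
        intro j
        by_cases hj : j = i
        · subst hj; simp
        · simp [Pi.single_eq_of_ne hj]
      · have := norm_le_pi_norm (Pi.single i (1 : k) : ι → k) i
        simpa using this
    rw [hw, norm_zero]
    simp only [ne_eq, OfNat.ofNat_ne_zero, not_false_eq_true, zero_pow, mul_zero]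
    exact norm_nonneg _

end bd

section std2

open Vale.Agent.P092.H464.QF (Ix wt Bd eb Sf Fr)

variable {ω : Type} [Fintype ω] [DecidableEq ω] {k : Type} [NontriviallyNormedField k]
  {σ : k →+* k} {ε : k} {J₀ : Matrix ω ω k}

/-- the bound of the form by the three parts of the vectors -/
theorem le3_hyp (hs : ∀ x, ‖σ x‖ = ‖x‖) (he : ‖ε‖ = 1) {x y : Ix ω → k}
    {a0 a1 a2 b0 b1 b2 : ℝ} (ha1 : 0 ≤ a1) (hb1 : 0 ≤ b1) (hx : Bd x a0 a1 a2)
    (hy : Bd y b0 b1 b2) :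
    ‖hf σ (hyp 2 ε J₀) x y‖ ≤
      2 * (a0 * b2 + a2 * b0) + (∑ i, ∑ j, ‖J₀ i j‖) * (a1 * b1) := by
  have ha0 : 0 ≤ a0 := (norm_nonneg _).trans (hx.m 0)
  have ha2 : 0 ≤ a2 := (norm_nonneg _).trans (hx.p 0)
  rw [hf_hyp]
  have h1 : ‖∑ b : Fin 2, x (.inl (.inl b)) * σ (y (.inl (.inr b)))‖ ≤ 2 * (a2 * b0) := by
    refine (norm_sum_le _ _).trans ?_
    refine (Finset.sum_le_sum (g := fun _ => a2 * b0) fun b _ => ?_).trans (le_of_eq ?_)
    · rw [norm_mul, hs]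
      exact mul_le_mul (hx.p b) (hy.m b) (norm_nonneg _) ha2
    · rw [Finset.sum_const, Finset.card_univ, Fintype.card_fin, nsmul_eq_mul]; norm_num
  have h2 : ‖∑ b : Fin 2, x (.inl (.inr b)) * (ε * σ (y (.inl (.inl b))))‖ ≤ 2 * (a0 * b2) := by
    refine (norm_sum_le _ _).trans ?_
    refine (Finset.sum_le_sum (g := fun _ => a0 * b2) fun b _ => ?_).trans (le_of_eq ?_)
    · rw [norm_mul, norm_mul, he, one_mul, hs]
      exact mul_le_mul (hx.m b) (hy.p b) (norm_nonneg _) ha0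
    · rw [Finset.sum_const, Finset.card_univ, Fintype.card_fin, nsmul_eq_mul]; norm_num
  have h3 := hf_le_entries (J₀ := J₀) hs ha1 hb1 (u := fun w => x (.inr w))
    (v := fun w => y (.inr w)) hx.w hy.w
  refine (norm_add₃_le).trans ?_
  linarith

/-- the quadratic relation of the isotropic vectors -/
theorem an_hyp (hs : ∀ x, ‖σ x‖ = ‖x‖) (he : ‖ε‖ = 1) {c : ℝ} (hc : 0 < c)
    (hcw : ∀ w : ω → k, c * ‖w‖ ^ 2 ≤ ‖hf σ J₀ w w‖) {x : Ix ω → k} {a0 a2 : ℝ}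
    (hxx : hf σ (hyp 2 ε J₀) x x = 0) (h0 : ∀ b, ‖x (.inl (.inr b))‖ ≤ a0)
    (h2 : ∀ b, ‖x (.inl (.inl b))‖ ≤ a2) (w : ω) : ‖x (.inr w)‖ ^ 2 ≤ 4 / c * (a0 * a2) := by
  have ha0 : 0 ≤ a0 := (norm_nonneg _).trans (h0 0)
  have ha2 : 0 ≤ a2 := (norm_nonneg _).trans (h2 0)
  rw [hf_hyp] at hxx
  set A := ∑ b : Fin 2, x (.inl (.inl b)) * σ (x (.inl (.inr b))) with hA
  set B := ∑ b : Fin 2, x (.inl (.inr b)) * (ε * σ (x (.inl (.inl b)))) with hB
  have h1 : ‖A‖ ≤ 2 * (a2 * a0) := by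
    refine (norm_sum_le _ _).trans ?_
    refine (Finset.sum_le_sum (g := fun _ => a2 * a0) fun b _ => ?_).trans (le_of_eq ?_)
    · rw [norm_mul, hs]
      exact mul_le_mul (h2 b) (h0 b) (norm_nonneg _) ha2
    · rw [Finset.sum_const, Finset.card_univ, Fintype.card_fin, nsmul_eq_mul]; norm_num
  have h3 : ‖B‖ ≤ 2 * (a0 * a2) := by
    refine (norm_sum_le _ _).trans ?_
    refine (Finset.sum_le_sum (g := fun _ => a0 * a2) fun b _ => ?_).trans (le_of_eq ?_)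
    · rw [norm_mul, norm_mul, he, one_mul, hs]
      exact mul_le_mul (h0 b) (h2 b) (norm_nonneg _) ha0
    · rw [Finset.sum_const, Finset.card_univ, Fintype.card_fin, nsmul_eq_mul]; norm_num
  have h4 : ‖hf σ J₀ (fun w => x (.inr w)) (fun w => x (.inr w))‖ ≤ 4 * (a0 * a2) := by
    have e : hf σ J₀ (fun w => x (.inr w)) (fun w => x (.inr w)) = -(A + B) := by
      linear_combination hxx
    rw [e, norm_neg]
    refine (norm_add_le _ _).trans ?_
    linarith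
  have h5 := hcw fun w => x (.inr w)
  have h6 : ‖x (.inr w)‖ ≤ ‖fun w => x (.inr w)‖ := norm_le_pi_norm (fun w => x (.inr w)) w
  have h7 : ‖x (.inr w)‖ ^ 2 ≤ ‖fun w => x (.inr w)‖ ^ 2 := by gcongr
  rw [div_mul_eq_mul_div, le_div_iff₀ hc]
  nlinarith

/-- **(K4)**: the form `hyp 2 ε J₀` is standard -/
theorem sf_hyp [ProperSpace k] (hF : Frm σ ε (hyp 2 ε J₀)) (hσ : Continuous σ)
    (han : ∀ w, hf σ J₀ w w = 0 → w = 0) : ∃ C : ℝ, Sf (hf σ (hyp 2 ε J₀)) C := by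
  have hs : ∀ x, ‖σ x‖ = ‖x‖ := norm_sig hF.inv hσ
  have he : ‖ε‖ = 1 := norm_eps hF.eps
  obtain ⟨c, hc, hcw⟩ := aniso_bd hσ hs han
  set B : ℝ := ∑ i, ∑ j, ‖J₀ i j‖ with hB
  have hB0 : 0 ≤ B := Finset.sum_nonneg fun _ _ => Finset.sum_nonneg fun _ _ => norm_nonneg _
  have h4c : 0 < 4 / c := by positivity
  refine ⟨2 + B + 4 / c, ?_, fun x y z => hf_add_left σ _ x y z, fun a x z => hf_smul_left σ _ a x z,
    fun x y z => hf_add_right σ _ z x y, fun a x z => ?_, fun x y => ?_, ?_, fun x b => ?_, ?_⟩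
  · linarith
  · rw [hf_smul_right, norm_mul, hs]
  · rw [hF.herm x y, norm_mul, he, one_mul, hs]
  · intro x y a0 a1 a2 b0 b1 b2 ha1 hb1 hx hy
    have ha0 : 0 ≤ a0 := (norm_nonneg _).trans (hx.m 0)
    have ha2 : 0 ≤ a2 := (norm_nonneg _).trans (hx.p 0)
    have hb0 : 0 ≤ b0 := (norm_nonneg _).trans (hy.m 0)
    have hb2 : 0 ≤ b2 := (norm_nonneg _).trans (hy.p 0)
    refine (le3_hyp hs he ha1 hb1 hx hy).trans ?_
    have e1 : 0 ≤ a0 * b2 + a2 * b0 := by positivity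
    have e2 : 0 ≤ a1 * b1 := by positivity
    nlinarith
  · have e : (eb (.inl (.inl b)) : Ix ω → k) = Pi.single (.inl (.inl b)) 1 := rfl
    rw [e, hf_eL, norm_mul, he, mul_one]
  · intro x a0 a2 hxx h0 h2 w
    have ha0 : 0 ≤ a0 := (norm_nonneg _).trans (h0 0)
    have ha2 : 0 ≤ a2 := (norm_nonneg _).trans (h2 0)
    refine (an_hyp hs he hc hcw hxx h0 h2 w).trans ?_
    have e1 : 0 ≤ a0 * a2 := by positivity
    nlinarith

omit [DecidableEq ω] [Fintype ω] in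
theorem wt_ne_two (i : Ix ω) : wt i ≠ 2 ↔ ∀ b : Fin 2, (.inl (.inl b) : Ix ω) ≠ i := by
  rcases i with (b | b) | w
  · simp
  · simp
  · simp

/-- **(K1)**: bounded frames of the maximal singular spaces -/
theorem fr_hyp [ProperSpace k] (hF : Frm σ ε (hyp 2 ε J₀)) (hσ : Continuous σ) :
    ∃ C : ℝ, 0 < C ∧ ∀ X : SGr σ (hyp 2 ε J₀) 2, ∃ κ κ' : Matrix (Ix ω) (Ix ω) k,
      Fr (hf σ (hyp 2 ε J₀)) C κ κ' ∧ (∀ x, x ∈ X.S ↔ ∀ i, wt i ≠ 2 → (κ *ᵥ x) i = 0) ∧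
      ∀ x : Ix ω → k, (∀ i, wt i ≠ 2 → x i = 0) ↔ κ' *ᵥ x ∈ X.S := by
  obtain ⟨C, hC0, hC⟩ := exists_frame_std (ι := ω) (J₀ := J₀) hF hσ (le_refl 2)
  have key : ∀ x : Ix ω → k, (∀ i, (∀ a, iL ω (le_refl 2) a ≠ i) → x i = 0) ↔
      ∀ i, wt i ≠ 2 → x i = 0 := fun x =>
    forall_congr' fun i => imp_congr_left (wt_ne_two i).symm
  refine ⟨C, hC0, fun X => ?_⟩
  obtain ⟨κ, κ', h1, h2, h3, h4, h5, h6, h7, h8, h9, h10⟩ := hC X
  exact ⟨κ, κ', ⟨h1, h2, h5, h6, h7⟩, fun x => (h9 x).trans (key _),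
    fun x => (key x).symm.trans (h10 x)⟩

/-- one constant for both -/
theorem sf_fr [ProperSpace k] (hF : Frm σ ε (hyp 2 ε J₀)) (hσ : Continuous σ)
    (han : ∀ w, hf σ J₀ w w = 0 → w = 0) : ∃ C : ℝ, Sf (hf σ (hyp 2 ε J₀)) C ∧
    ∀ X : SGr σ (hyp 2 ε J₀) 2, ∃ κ κ' : Matrix (Ix ω) (Ix ω) k,
      Fr (hf σ (hyp 2 ε J₀)) C κ κ' ∧ (∀ x, x ∈ X.S ↔ ∀ i, wt i ≠ 2 → (κ *ᵥ x) i = 0) ∧
      ∀ x : Ix ω → k, (∀ i, wt i ≠ 2 → x i = 0) ↔ κ' *ᵥ x ∈ X.S := by
  obtain ⟨C1, h1⟩ := sf_hyp hF hσ han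
  obtain ⟨C2, hC2, h2⟩ := fr_hyp hF hσ
  refine ⟨max C1 C2, ?_, fun X => ?_⟩
  · refine ⟨h1.one.trans (le_max_left _ _), h1.add, h1.smul, h1.add', h1.smul', h1.sym, ?_,
      h1.dual, ?_⟩
    · intro x y a0 a1 a2 b0 b1 b2 ha1 hb1 hx hy
      have ha0 : 0 ≤ a0 := (norm_nonneg _).trans (hx.m 0)
      have ha2 : 0 ≤ a2 := (norm_nonneg _).trans (hx.p 0)
      have hb0 : 0 ≤ b0 := (norm_nonneg _).trans (hy.m 0)
      have hb2 : 0 ≤ b2 := (norm_nonneg _).trans (hy.p 0)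
      exact (h1.le3 ha1 hb1 hx hy).trans
        (mul_le_mul_of_nonneg_right (le_max_left _ _) (by positivity))
    · intro x a0 a2 hxx h0 h2 w
      have ha0 : 0 ≤ a0 := (norm_nonneg _).trans (h0 0)
      have ha2 : 0 ≤ a2 := (norm_nonneg _).trans (h2 0)
      exact (h1.an hxx h0 h2 w).trans
        (mul_le_mul_of_nonneg_right (le_max_left _ _) (by positivity))
  · obtain ⟨κ, κ', hf, h3, h4⟩ := h2 X
    exact ⟨κ, κ', ⟨hf.l, hf.r, fun i j => (hf.le i j).trans (le_max_right _ _),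
      fun i j => (hf.le' i j).trans (le_max_right _ _), hf.iso⟩, h3, h4⟩

end std2

end Vale.Agent.P092.H337.Fr
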