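import Vale.Agent.P092.H337.C3a
import Vale.Agent.P092.H337.Fr2
import Vale.Agent.P092.H464.Q.KB3
import Vale.Agent.P092.H217.PK6a
import Vale.Agent.P092.CL.Lt
import Vale.Agent.P092.H796.Conc

/-!
P092 (helper337), TEAM P, Track 3, COUNT_2 for forms of Witt index 2: one shell. `Dat` lists what
is used about the form (frames, normal form of the near-2-wall isometries, contraction, bounded
shells): no `Frm`, so that it serves all the forms, the orthogonal ones included.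
-/

set_option linter.all false

open scoped InnerProductSpace ENNReal LinearAlgebra.Projectivization ZeroAtInfty
open Matrix Module Set Topology TopologicalSpace Filter MeasureTheory ContinuousLinearMap

namespace Vale.Agent.P092.H337.C3

open Vale.Agent.P092.H303 (FormGroup Idx hyp)
open Vale.Agent.P092.H714.Cl (hf Frm hf_smul_left hf_smul_right)
open Vale.Agent.P092.H370.Po
open Vale.Agent.P092.H100.Gr (Gr Fr sp)
open Vale.Agent.P092.H820 (pj pj_eq pj_surj wd)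
open Vale.Agent.P092.H835.PlF (Alt w3)
open Vale.Agent.P092.H914 (TD SecStmt OpfStmt)
open Vale.Agent.P092.H589.K2 (Nrm Tame Opf Cells)
open Vale.Agent.P092.H589.Mu (Cap)
open Vale.Agent.P092.H464 (Pv CI)
open Vale.Agent.P092.H464.QF (Ix wt Dt Sf Ln)
open Vale.Agent.P092.CL (ta nmM NWr AttS act)

section stmts

variable {k : Type} [NontriviallyNormedField k] {ω : Type} [Fintype ω] [DecidableEq ω]

/-- (K2): the normal form of a near-2-wall isometry -/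
def NF2 (h : (Ix ω → k) → (Ix ω → k) → k) : Prop :=
  ∀ C₀ : ℝ, ∃ C' : ℝ, 1 ≤ C' ∧ ∀ (κ κ' g : Matrix (Ix ω) (Ix ω) k) (M : ℝ), 1 ≤ M →
    H464.QF.Fr h C₀ κ κ' →
    (∀ x y, h (g *ᵥ x) (g *ᵥ y) = h x y) → (∀ i j, ‖g i j‖ ≤ C₀ * M) →
    (∀ x, (∀ i, wt i ≠ 2 → (κ *ᵥ x) i = 0) → M * ‖g *ᵥ x‖ ≤ C₀ * ‖x‖) →
    ∃ (c t : k) (A A' : Matrix (Ix ω) (Ix ω) k), c ≠ 0 ∧ M ≤ C' * ‖c‖ ∧ ‖c‖ ≤ C' * M ∧
      t = c⁻¹ ∧ 1 ≤ C' * ‖t‖ * M ∧ ‖t‖ * M ≤ C' ∧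
      (∀ x, g *ᵥ x = c • (A *ᵥ Dt t (κ *ᵥ x))) ∧
      A' * A = 1 ∧ A * A' = 1 ∧ (∀ i j, ‖A i j‖ ≤ C') ∧ ∀ i j, ‖A' i j‖ ≤ C'

/-- what the count uses about the form -/
structure Dat (σ : k →+* k) (ε : k) (J₀ : Matrix ω ω k) : Prop where
  /-- the standard form and bounded frames, one constant -/
  fr : ∃ C : ℝ, Sf (hf σ (hyp 2 ε J₀)) C ∧ ∀ X : SGr σ (hyp 2 ε J₀) 2,
    ∃ κ κ' : Matrix (Ix ω) (Ix ω) k, H464.QF.Fr (hf σ (hyp 2 ε J₀)) C κ κ' ∧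
      ∀ x, x ∈ X.S ↔ ∀ i, wt i ≠ 2 → (κ *ᵥ x) i = 0
  nf : NF2 (hf σ (hyp 2 ε J₀))
  /-- contraction of opposite lines at the full rate -/
  loc : ∀ A B : Set (SGr σ (hyp 2 ε J₀) 2), IsClosed B →
    (∀ X ∈ closure A, ∀ Y ∈ B, ∀ z : SGr σ (hyp 2 ε J₀) 1, Inc z X → ¬ Inc z Y) → ∀ R : ℝ,
    ∃ T > 0, ∃ C : ℝ, 1 ≤ C ∧ ∀ g : FormGroup σ (hyp 2 ε J₀), NWr 2 R (ta g.1) →
      AttS T A (ta g.1) → ∀ Y : SGr σ (hyp 2 ε J₀) 2, g • Y ∈ B → ∀ y ∈ Y.S,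
        nmM (ta g.1) * ‖ta g.1 *ᵥ y‖ ≤ C * ‖y‖
  /-- bounded shells -/
  shell : ∀ {Γ : Type} {q : Γ → FormGroup σ (hyp 2 ε J₀)},
    (∀ C : ℝ, ∃ N : ℕ, ∀ T : Finset Γ,
      (∀ γ ∈ T, ∀ γ' ∈ T, nmM (ta (q γ' * (q γ)⁻¹).1) ≤ C) → T.card ≤ N) → ∀ C : ℝ,
    ∃ N : ℕ, ∀ S : Finset Γ,
      (∀ γ ∈ S, ∀ γ' ∈ S, nmM (ta (q γ).1) ≤ C * nmM (ta (q γ').1)) →
      ∀ ν : SGr σ (hyp 2 ε J₀) 2,
      (∀ γ ∈ S, ∀ z ∈ ν.S, nmM (ta (q γ).1) * ‖ta (q γ).1 *ᵥ z‖ ≤ C * ‖z‖) → S.card ≤ N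
  /-- bounded balls -/
  ball : ∀ {Γ : Type} {q : Γ → FormGroup σ (hyp 2 ε J₀)},
    (∀ C : ℝ, ∃ N : ℕ, ∀ T : Finset Γ,
      (∀ γ ∈ T, ∀ γ' ∈ T, nmM (ta (q γ' * (q γ)⁻¹).1) ≤ C) → T.card ≤ N) → ∀ R : ℝ,
    ∃ M₀ : ℕ, ∀ S : Finset Γ, (∀ γ ∈ S, nmM (ta (q γ).1) ≤ R) → S.card ≤ M₀

end stmts

section mats

variable {k : Type} [NontriviallyNormedField k] {n : Type} [Fintype n] [DecidableEq n]
  {σ : k →+* k} {ε : k} {J : Matrix n n k}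

theorem le_nmM (A : Matrix n n k) (a b : n) : ‖A a b‖ ≤ nmM A :=
  (norm_le_pi_norm (fun b => A a b : n → k) b).trans
    (norm_le_pi_norm (fun a b => A a b : n → n → k) a)

theorem nmM_nonneg (A : Matrix n n k) : 0 ≤ nmM A := norm_nonneg _

theorem ta_mulVec (g : SpecialLinearGroup n k) (x : n → k) : ta g *ᵥ x = x ᵥ* (g⁻¹).1 := by
  unfold ta
  rw [Matrix.mulVec_transpose]

theorem ta_iso (g : FormGroup σ J) (x y : n → k) :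
    hf σ J (ta g.1 *ᵥ x) (ta g.1 *ᵥ y) = hf σ J x y := by
  rw [ta_mulVec, ta_mulVec]
  exact H714.Cl.mem_formGroup.1 (inv_mem g.2) x y

theorem ta_mem {j : ℕ} (g : FormGroup σ J) {X : SGr σ J j} {x : n → k} (hx : x ∈ X.S) :
    ta g.1 *ᵥ x ∈ (g • X).S := by
  rw [ta_mulVec, smul_S]
  exact vecMul_mem_act hx

theorem ta_ne (g : SpecialLinearGroup n k) {x : n → k} (hx : x ≠ 0) : ta g *ᵥ x ≠ 0 := by
  intro h
  rw [ta_mulVec] at h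
  have h1 : (x ᵥ* (g⁻¹).1) ᵥ* g.1 = x := by
    rw [vecMul_vecMul]
    have e : (g⁻¹).1 * g.1 = 1 := congrArg Subtype.val (inv_mul_cancel g)
    rw [e, vecMul_one]
  rw [h, zero_vecMul] at h1
  exact hx h1.symm

/-- the action on the points -/
theorem lps_smul (g : FormGroup σ J) {X : SGr σ J 1} {x : n → k} (hx : x ≠ 0) (h : x ∈ X.S) :
    lps (g • X) = pj k n ⟨ta g.1 *ᵥ x, ta_ne g.1 hx⟩ :=
  lp_eq (ta_ne g.1 hx) (ta_mem g h)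

theorem mulVec_le {C : ℝ} (hC : 0 ≤ C) {g : Matrix n n k} (h : ∀ i j, ‖g i j‖ ≤ C) (x : n → k) :
    ‖g *ᵥ x‖ ≤ Fintype.card n * C * ‖x‖ := by
  refine (pi_norm_le_iff_of_nonneg (by positivity)).2 fun i => ?_
  calc ‖(g *ᵥ x) i‖ = ‖∑ j, g i j * x j‖ := rfl
    _ ≤ ∑ _j : n, C * ‖x‖ := by
        refine norm_sum_le_of_le _ fun j _ => ?_
        rw [norm_mul]
        exact mul_le_mul (h _ _) (norm_le_pi_norm x j) (norm_nonneg _) hC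
    _ = Fintype.card n * (C * ‖x‖) := by simp
    _ = _ := by ring

end mats

section act

variable {S Y : Type} [Group S] [MulAction S Y] [TopologicalSpace Y] [CompactSpace Y]
  [ContinuousConstSMul S Y]

theorem norm_act_le (g : S) (f : C(Y, ℂ)) : ‖act g f‖ ≤ ‖f‖ :=
  (ContinuousMap.norm_le _ (norm_nonneg _)).2 fun x => f.norm_coe_le_norm _

theorem act_apply (g : S) (f : C(Y, ℂ)) (x : Y) : act g⁻¹ f x = f (g • x) := by
  change f ((g⁻¹)⁻¹ • x) = _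
  rw [inv_inv]

theorem tsupport_act' (g : S) (f : C(Y, ℂ)) {x : Y} (hx : x ∈ tsupport ⇑(act g⁻¹ f)) :
    g • x ∈ tsupport ⇑f := by
  have h1 : Function.support ⇑(act g⁻¹ f) ⊆ (fun x => g • x) ⁻¹' tsupport ⇑f := by
    intro y hy
    have : f (g • y) ≠ 0 := by rw [← act_apply]; exact hy
    exact subset_tsupport _ this
  exact closure_minimal h1 ((isClosed_tsupport _).preimage (continuous_const_smul g)) hx

end act

section shell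

variable {k : Type} [NontriviallyNormedField k] [ProperSpace k] {ω : Type} [Fintype ω]
  [DecidableEq ω] {σ : k →+* k} {ε : k} {J₀ : Matrix ω ω k}

/-- **One shell.** -/
theorem shell3 [MeasurableSpace k] [BorelSpace k] [Fact (Continuous σ)] (hD : Dat σ ε J₀)
    (cls : Cells k) (hs : SecStmt k) (ho : OpfStmt)
    {Γ K : Type} [NormedAddCommGroup K] [InnerProductSpace ℂ K] [CompleteSpace K]
    (q : Γ → FormGroup σ (hyp 2 ε J₀))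
    (hud : ∀ C : ℝ, ∃ N : ℕ, ∀ T : Finset Γ,
      (∀ γ ∈ T, ∀ γ' ∈ T, nmM (ta (q γ' * (q γ)⁻¹).1) ≤ C) → T.card ≤ N)
    (E P : C(SGr σ (hyp 2 ε J₀) 1, ℂ) →⋆ₐ[ℂ] (K →L[ℂ] K))
    (L M : C(SGr σ (hyp 2 ε J₀) 2, ℂ) →⋆ₐ[ℂ] (K →L[ℂ] K)) (hEL : H796.PL Inc E L)
    (hEM : H796.PL Inc E M) (hPM : H796.PL Inc P M) (R : ℝ) (A : Set (SGr σ (hyp 2 ε J₀) 2))
    (h : C(SGr σ (hyp 2 ε J₀) 2, ℂ)) (f : C(SGr σ (hyp 2 ε J₀) 1, ℂ))
    (hf' : f ∈ TDs σ (hyp 2 ε J₀))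
    (hA : ∀ X ∈ closure A, ∀ X' ∈ tsupport h, ∀ z : SGr σ (hyp 2 ε J₀) 1, Inc z X →
      ¬ Inc z X') :
    ∃ T > 0, ∃ (C : ℝ), 0 ≤ C ∧ ∀ (s : ℕ) (S : Finset Γ),
      (∀ γ ∈ S, NWr 2 R (ta (q γ).1) ∧ AttS T A (ta (q γ).1) ∧
        Real.exp s ≤ nmM (ta (q γ).1) ∧ nmM (ta (q γ).1) ≤ Real.exp (s + 1)) →
      ∀ ξ : K, ∑ γ ∈ S, ‖L (act (q γ)⁻¹ h) (P (act (q γ)⁻¹ f) ξ)‖ ^ 2 ≤
        C * (1 + s) ^ 4 * ‖ξ‖ ^ 2 := by
  classical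
  by_cases hne : (tsupport (h : SGr σ (hyp 2 ε J₀) 2 → ℂ)).Nonempty
  swap
  · -- the function is zero
    have h0 : h = 0 := by
      ext x
      by_contra hx
      exact hne ⟨x, subset_tsupport _ hx⟩
    refine ⟨1, one_pos, 0, le_rfl, fun s S _ ξ => ?_⟩
    refine (Finset.sum_nonpos fun γ _ => ?_).trans (by simp)
    have e : act (q γ)⁻¹ h = 0 := by
      ext x
      rw [act_apply, h0]
      rfl
    rw [e, map_zero]
    simp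
  obtain ⟨Y₀, hY₀⟩ := hne
  haveI : Nonempty (Ix ω) := ⟨.inl (.inl 0)⟩
  obtain ⟨φF, ⟨φ, hφ, hGφ⟩, rfl⟩ := hf'
  -- measurable structures
  letI m1 : MeasurableSpace (SGr σ (hyp 2 ε J₀) 1) := borel _
  haveI b1 : BorelSpace (SGr σ (hyp 2 ε J₀) 1) := ⟨rfl⟩
  letI m2 : MeasurableSpace (SGr σ (hyp 2 ε J₀) 2) := borel _
  haveI b2 : BorelSpace (SGr σ (hyp 2 ε J₀) 2) := ⟨rfl⟩
  -- sections
  obtain ⟨s1, hs1m, hs1n, hs1S, hs1⟩ := exists_sec1 (σ := σ) (J := hyp 2 ε J₀) hs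
  obtain ⟨p2, hp2m, hp2n, hp2a, hp2w, hp2d⟩ := exists_sec2 (σ := σ) (J := hyp 2 ε J₀) hs
  -- frames
  obtain ⟨Cs, hSf, hFr⟩ := hD.fr
  have hCs := hSf.one
  -- geometry
  obtain ⟨T, hT, Cl, hCl, hloc⟩ := hD.loc A _ (isClosed_tsupport (h : _ → ℂ)) hA R
  set e1 : ℝ := Real.exp 1 with he1
  have he11 : 1 ≤ e1 := Real.one_le_exp zero_le_one
  have he10 : 0 < e1 := by linarith
  have hCl0 : 0 < Cl := by linarith
  set C₀ : ℝ := max Cs (e1 * Cl) with hC₀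
  have hC₀s : Cs ≤ C₀ := le_max_left _ _
  have hC₀l : e1 * Cl ≤ C₀ := le_max_right _ _
  have hC₀1 : 1 ≤ C₀ := hCs.trans hC₀s
  obtain ⟨C', hC'1, hC'⟩ := hD.nf C₀
  have hC'0 : 0 < C' := by linarith
  set nn : ℝ := ((Fintype.card (Ix ω) : ℕ) : ℝ) with hnn
  have hnn1 : 1 ≤ nn := by
    have : 0 < Fintype.card (Ix ω) := Fintype.card_pos
    rw [hnn]; exact_mod_cast this
  set C₁ : ℝ := C₀ + C' + nn * C' ^ 2 * (e1 * Cl) with hC₁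
  have hq0 : 0 ≤ nn * C' ^ 2 * (e1 * Cl) := by positivity
  have hC₁0 : C₀ ≤ C₁ := by linarith
  have hC₁' : C' ≤ C₁ := by linarith
  have hC₁q : nn * C' ^ 2 * (e1 * Cl) ≤ C₁ := by linarith
  have hC₁1 : 1 ≤ C₁ := hC₀1.trans hC₁0
  obtain ⟨N, hN⟩ := hD.shell hud (max e1 Cl)
  obtain ⟨CK, hCK0, hCK⟩ := H464.QF.kb3 (K := K) (ω := ω) cls (hφ K) hSf C₁ hC₁1
  set Nc : ℝ := Real.sqrt (N * ‖h‖ ^ 2) with hNc
  have hNc0 : 0 ≤ Nc := Real.sqrt_nonneg _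
  refine ⟨T, hT, CK ^ 2 * 16 * Nc ^ 2, by positivity, ?_⟩
  intro s S hS ξ
  set Mx : ℝ := Real.exp (s + 1) with hMx
  have hMx0 : 0 < Mx := Real.exp_pos _
  have hMx1 : 1 ≤ Mx := Real.one_le_exp (by positivity)
  set r : ℝ := Mx⁻¹ with hr
  have hr0 : 0 < r := by positivity
  have hr1 : r ≤ 1 := inv_le_one_of_one_le₀ hMx1
  have hMxe : Mx = e1 * Real.exp s := by rw [hMx, Real.exp_add, mul_comm]
  have hMn : ∀ γ ∈ S, Mx ≤ e1 * nmM (ta (q γ).1) := fun γ hγ => by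
    rw [hMxe]; exact mul_le_mul_of_nonneg_left (hS γ hγ).2.2.1 he10.le
  -- contraction on the lines of the support
  have hcon : ∀ γ ∈ S, ∀ ν : SGr σ (hyp 2 ε J₀) 2, q γ • ν ∈ tsupport (h : _ → ℂ) → ∀ z ∈ ν.S,
      nmM (ta (q γ).1) * ‖ta (q γ).1 *ᵥ z‖ ≤ Cl * ‖z‖ := fun γ hγ ν hν z hz =>
    hloc (q γ) (hS γ hγ).1 (hS γ hγ).2.1 ν hν z hz
  -- normal forms
  have hnf' : ∀ γ : Γ, ∃ (κ κ' : Matrix (Ix ω) (Ix ω) k) (c t : k)
      (B B' : Matrix (Ix ω) (Ix ω) k), γ ∈ S →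
      H464.QF.Fr (hf σ (hyp 2 ε J₀)) Cs κ κ' ∧
      (∀ x : Ix ω → k, ta (q γ).1 *ᵥ x = c • (B *ᵥ Dt t (κ *ᵥ x))) ∧
      B' * B = 1 ∧ (∀ a b, ‖B a b‖ ≤ C') ∧ (∀ a b, ‖B' a b‖ ≤ C') ∧ c ≠ 0 ∧ Mx ≤ C' * ‖c‖ ∧
      1 ≤ C' * ‖t‖ * Mx ∧ ‖t‖ * Mx ≤ C' := by
    intro γ
    by_cases hγ : γ ∈ S
    · obtain ⟨κ, κ', hfr, hκ⟩ := hFr ((q γ)⁻¹ • Y₀)
      have hfr' : H464.QF.Fr (hf σ (hyp 2 ε J₀)) C₀ κ κ' :=
        ⟨hfr.l, hfr.r, fun i j => (hfr.le i j).trans hC₀s,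
          fun i j => (hfr.le' i j).trans hC₀s, hfr.iso⟩
      obtain ⟨c, t, B, B', h1, h2, h3, h4, h5, h6, h7, h8, h9, h10, h11⟩ :=
        hC' κ κ' (ta (q γ).1) Mx hMx1 hfr' (ta_iso (q γ))
          (fun i j => ((le_nmM _ i j).trans (hS γ hγ).2.2.2).trans
            (le_mul_of_one_le_left hMx0.le hC₀1))
          (fun x hx => by
            have h12 : q γ • ((q γ)⁻¹ • Y₀) ∈ tsupport (h : _ → ℂ) := by
              rw [smul_inv_smul]; exact hY₀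
            have h13 := hcon γ hγ _ h12 x ((hκ x).2 hx)
            calc Mx * ‖ta (q γ).1 *ᵥ x‖ ≤ (e1 * nmM (ta (q γ).1)) * ‖ta (q γ).1 *ᵥ x‖ :=
                  mul_le_mul_of_nonneg_right (hMn γ hγ) (norm_nonneg _)
              _ = e1 * (nmM (ta (q γ).1) * ‖ta (q γ).1 *ᵥ x‖) := by ring
              _ ≤ e1 * (Cl * ‖x‖) := mul_le_mul_of_nonneg_left h13 he10.le
              _ = (e1 * Cl) * ‖x‖ := by ring
              _ ≤ _ := mul_le_mul_of_nonneg_right hC₀l (norm_nonneg _))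
      exact ⟨κ, κ', c, t, B, B', fun _ => ⟨hfr, h7, h8, h10, h11, h1, h2, h5, h6⟩⟩
    · exact ⟨0, 0, 0, 0, 0, 0, fun h => absurd h hγ⟩
  choose κ κ' c t B B' hnf' using hnf'
  -- capacity
  have hcapS : Cap S (fun γ => L (act (q γ)⁻¹ h)) Nc := by
    intro v
    rw [hNc, Real.sq_sqrt (by positivity)]
    refine H218.sum_sq_le L S (fun γ => act (q γ)⁻¹ h) (by positivity) (fun x => ?_) v
    have hc : (S.filter fun γ => q γ • x ∈ tsupport (h : _ → ℂ)).card ≤ N := by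
      refine hN _ (fun γ hγ γ' hγ' => ?_) x fun γ hγ z hz => ?_
      · obtain ⟨h1, h2⟩ := Finset.mem_filter.1 hγ
        obtain ⟨h1', h2'⟩ := Finset.mem_filter.1 hγ'
        calc nmM (ta (q γ).1) ≤ Mx := (hS γ h1).2.2.2
          _ ≤ e1 * nmM (ta (q γ').1) := hMn γ' h1'
          _ ≤ _ := mul_le_mul_of_nonneg_right (le_max_left _ _) (nmM_nonneg _)
      · obtain ⟨h1, h2⟩ := Finset.mem_filter.1 hγ
        exact (hcon γ h1 x h2 z hz).trans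
          (mul_le_mul_of_nonneg_right (le_max_right _ _) (norm_nonneg _))
    have hsum : ∑ γ ∈ S, ‖(act (q γ)⁻¹ h) x‖ ^ 2 ≤
        ∑ γ ∈ S.filter (fun γ => q γ • x ∈ tsupport (h : _ → ℂ)), ‖h‖ ^ 2 := by
      rw [Finset.sum_filter]
      refine Finset.sum_le_sum fun γ hγ => ?_
      rw [act_apply]
      split_ifs with hc
      · exact pow_le_pow_left₀ (norm_nonneg _) (h.norm_coe_le_norm _) 2
      · rw [image_eq_zero_of_notMem_tsupport hc, norm_zero, zero_pow two_ne_zero]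
    refine hsum.trans ?_
    rw [Finset.sum_const, nsmul_eq_mul]
    have h5 : ((S.filter fun γ => q γ • x ∈ tsupport (h : _ → ℂ)).card : ℝ) ≤ N := by
      exact_mod_cast hc
    gcongr
  -- the operators
  have hI1 : IsClosed {x : SGr σ (hyp 2 ε J₀) 1 × SGr σ (hyp 2 ε J₀) 2 | Inc x.1 x.2} :=
    inc_closed
  have hCI : ∀ (x : C(SGr σ (hyp 2 ε J₀) 1, ℂ) →⋆ₐ[ℂ] (K →L[ℂ] K))
      (y : C(SGr σ (hyp 2 ε J₀) 2, ℂ) →⋆ₐ[ℂ] (K →L[ℂ] K)),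
      H796.PL Inc x y → CI Inc (H466.pv x) (H466.pv y) := fun x y h =>
    H604.pv_CI x y hI1 (fun f g => h.com f g) fun f g hfg => h.inc f g hfg
  -- points on the lines of the support are contracted
  have hsml : ∀ γ ∈ S, ∀ x : SGr σ (hyp 2 ε J₀) 1, ∀ ν : SGr σ (hyp 2 ε J₀) 2,
      ν ∈ tsupport ⇑(act (q γ)⁻¹ h) → Inc x ν →
      ∀ b, ‖(κ γ *ᵥ s1 x) (.inl (.inr b))‖ ≤ C₁ * r ^ 2 := by
    intro γ hγ x ν hν hxν b
    obtain ⟨-, h2, h3, h4, h5, h6, h7, h8, h9⟩ := hnf' γ hγ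
    have hν' : q γ • ν ∈ tsupport (h : _ → ℂ) := tsupport_act' (q γ) h hν
    have k1 := hcon γ hγ ν hν' (s1 x) (hxν (hs1S x))
    have k2 : nmM (ta (q γ).1) * ‖ta (q γ).1 *ᵥ s1 x‖ ≤ Cl :=
      k1.trans (mul_le_of_le_one_right hCl0.le (hs1n _).1)
    set w := Dt (t γ) (κ γ *ᵥ s1 x) with hw
    have k4 : ‖w‖ ≤ nn * C' * ‖B γ *ᵥ w‖ := by
      have e : w = B' γ *ᵥ (B γ *ᵥ w) := by
        rw [Matrix.mulVec_mulVec, h3, Matrix.one_mulVec]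
      have := mulVec_le hC'0.le h5 (B γ *ᵥ w)
      rwa [← e] at this
    have k5 : ‖ta (q γ).1 *ᵥ s1 x‖ = ‖c γ‖ * ‖B γ *ᵥ w‖ := by
      rw [h2, norm_smul]
    have k6 : Mx ^ 2 * ‖w‖ ≤ C₁ := by
      have l1 : 0 ≤ ‖B γ *ᵥ w‖ := norm_nonneg _
      calc Mx ^ 2 * ‖w‖ ≤ Mx ^ 2 * (nn * C' * ‖B γ *ᵥ w‖) := by gcongr
        _ = nn * C' * (Mx * (Mx * ‖B γ *ᵥ w‖)) := by ring
        _ ≤ nn * C' * ((e1 * nmM (ta (q γ).1)) * ((C' * ‖c γ‖) * ‖B γ *ᵥ w‖)) := by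
            have := hMn γ hγ
            have l2 : 0 ≤ e1 * nmM (ta (q γ).1) := hMx0.le.trans this
            gcongr
        _ = nn * C' ^ 2 * e1 * (nmM (ta (q γ).1) * (‖c γ‖ * ‖B γ *ᵥ w‖)) := by ring
        _ ≤ nn * C' ^ 2 * e1 * Cl := by rw [← k5]; gcongr
        _ = nn * C' ^ 2 * (e1 * Cl) := by ring
        _ ≤ C₁ := hC₁q
    have k3 : ‖(κ γ *ᵥ s1 x) (.inl (.inr b))‖ ≤ ‖w‖ := by
      have e : w (.inl (.inr b)) = (κ γ *ᵥ s1 x) (.inl (.inr b)) := by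
        rw [hw]
        change t γ ^ 0 * _ = _
        rw [pow_zero, one_mul]
      rw [← e]
      exact norm_le_pi_norm w _
    refine k3.trans ?_
    rw [hr, inv_pow, ← div_eq_mul_inv, le_div_iff₀ (by positivity), mul_comm]
    exact k6
  -- swapped incidences
  have hI2 : IsClosed {x : SGr σ (hyp 2 ε J₀) 2 × SGr σ (hyp 2 ε J₀) 1 | Inc x.2 x.1} :=
    hI1.preimage continuous_swap
  have hCI' : ∀ (x : C(SGr σ (hyp 2 ε J₀) 1, ℂ) →⋆ₐ[ℂ] (K →L[ℂ] K))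
      (y : C(SGr σ (hyp 2 ε J₀) 2, ℂ) →⋆ₐ[ℂ] (K →L[ℂ] K)),
      H796.PL Inc x y → CI (fun Y X => Inc X Y) (H466.pv y) (H466.pv x) := fun x y h =>
    ⟨fun A N hA hN => ((hCI x y h).comm N A hN hA).symm, fun A N hA hN hno => by
      rw [← (hCI x y h).comm N A hN hA]
      exact (hCI x y h).inc N A hN hA fun a ha b hb hab => hno b hb a ha hab⟩
  have hcap := hCK (SGr σ (hyp 2 ε J₀) 1) (SGr σ (hyp 2 ε J₀) 2) s1 p2 hs1m hp2m hs1n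
    (fun y => ⟨hp2n y, hp2a y, hp2d y, fun x x' hx hx' =>
      y.sing _ ((hp2w y x).2 hx) _ ((hp2w y x').2 hx')⟩)
    Inc (fun x y hxy => (hp2w y _).1 (hxy (hs1S x)))
    (H466.pv E) (H466.pv P) (H466.pv M) (H604.pv_Pv E) (H604.pv_Pv P) (H604.pv_Pv M)
    Γ S κ κ' t B B' r hr0 hr1
    (fun γ hγ => (hnf' γ hγ).1)
    (fun γ hγ => by
      obtain ⟨-, -, -, -, -, -, -, h8, h9⟩ := hnf' γ hγ
      constructor
      · rw [hr, inv_le_iff_one_le_mul₀ hMx0]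
        exact h8.trans (mul_le_mul_of_nonneg_right
          (mul_le_mul_of_nonneg_right hC₁' (norm_nonneg _)) hMx0.le)
      · rw [hr, ← div_eq_mul_inv, le_div_iff₀ hMx0]
        exact h9.trans hC₁')
    (fun γ hγ => (hnf' γ hγ).2.2.1)
    (fun γ hγ a b => ((hnf' γ hγ).2.2.2.1 a b).trans hC₁')
    (fun γ hγ a b => ((hnf' γ hγ).2.2.2.2.1 a b).trans hC₁')
    (fun γ => L (act (q γ)⁻¹ h)) (fun γ => P (act (q γ)⁻¹ (rst σ (hyp 2 ε J₀) φF)))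
    (fun γ x => (act (q γ)⁻¹ (rst σ (hyp 2 ε J₀) φF)) x) Nc hNc0
    hcapS
    (fun γ hγ x => by
      obtain ⟨h', e'⟩ := hs1 x
      rw [act_apply, rst_apply, lps_smul (q γ) h' (hs1S x)]
      refine (hGφ _ (ta_ne (q γ).1 h')).trans ?_
      rw [(hnf' γ hγ).2.1, (hφ K).1 _ _ (hnf' γ hγ).2.2.2.2.2.1])
    (fun γ _ => (ContinuousMap.continuous _).measurable)
    (fun γ _ => ho K _ P _)
    (fun γ hγ D D' T hDm hDm' hTm hno => by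
      have hNm : IsClosed (tsupport ⇑(act (q γ)⁻¹ h)) := isClosed_tsupport _
      exact H217.PK.chainB (Inc := fun (Y : SGr σ (hyp 2 ε J₀) 2)
        (X : SGr σ (hyp 2 ε J₀) 1) => Inc X Y) hI2 L M P E (hCI' E L hEL) (hCI' E M hEM)
        (hCI' P M hPM) hNm hTm hDm hDm'
        (H466.phi_pv_supp L hNm.measurableSet fun x hx => image_eq_zero_of_notMem_tsupport hx)
        (fun D _ => H466.pv_commute E (fun g => (hEL.com g _).symm) D)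
        (fun D _ => H466.pv_commute M (fun g => hPM.com _ g) D)
        (fun z hz x hx ν hν y hy h1 h2 h3 =>
          hno z hz x hx y hy h2 h3 (hsml γ hγ z ν hν h1))) ξ
  have hlog : 1 + Real.log (1 / r) ≤ 2 * (1 + (s : ℝ)) := by
    have : Real.log (1 / r) = s + 1 := by
      rw [hr, one_div, _root_.inv_inv, hMx, Real.log_exp]
    rw [this]
    have : (0 : ℝ) ≤ s := Nat.cast_nonneg s
    linarith
  have hlog0 : 0 ≤ 1 + Real.log (1 / r) := by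
    have : 0 ≤ Real.log (1 / r) := Real.log_nonneg (by rw [le_div_iff₀ hr0]; linarith)
    linarith
  have h5 : (CK * (1 + Real.log (1 / r)) ^ 2 * Nc) ^ 2 ≤ CK ^ 2 * 16 * Nc ^ 2 * (1 + (s : ℝ)) ^ 4 := by
    calc (CK * (1 + Real.log (1 / r)) ^ 2 * Nc) ^ 2
        ≤ (CK * (2 * (1 + (s : ℝ))) ^ 2 * Nc) ^ 2 := by gcongr
      _ = _ := by ring
  exact hcap.trans (mul_le_mul_of_nonneg_right h5 (sq_nonneg _))

end shell

end Vale.Agent.P092.H337.C3
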