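import Vale.Agent.P092.H337.C3b
import Vale.Agent.P092.H914.Fin0

/-!
P092 (helper337), TEAM P, Track 3: COUNT_2 for forms of Witt index 2: summation over the shells.
-/

set_option linter.all false

open scoped InnerProductSpace ENNReal LinearAlgebra.Projectivization ZeroAtInfty
open Matrix Module Set Topology TopologicalSpace Filter MeasureTheory ContinuousLinearMap

namespace Vale.Agent.P092.H337.C3

open Vale.Agent.P092.H303 (FormGroup Idx hyp)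
open Vale.Agent.P092.H714.Cl (hf Frm hf_smul_left hf_smul_right)
open Vale.Agent.P092.H370.Po
open Vale.Agent.P092.H914 (TD SecStmt OpfStmt secStmt opfStmt td_dense exists_cells loc_or)
open Vale.Agent.P092.H589.K2 (Nrm Tame Opf Cells)
open Vale.Agent.P092.H464.QF (Ix wt Dt Sf Ln)
open Vale.Agent.P092.CL (ta nmM NWr AttS act)

section shells

variable {Γ K : Type} [NormedAddCommGroup K]

lemma sum_biUnion_le' {α β : Type*} [DecidableEq β] (I : Finset α) (t : α → Finset β)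
    (f : β → ℝ) (hf : ∀ b, 0 ≤ f b) : ∑ b ∈ I.biUnion t, f b ≤ ∑ a ∈ I, ∑ b ∈ t a, f b := by
  classical
  induction I using Finset.induction_on with
  | empty => simp
  | insert a s ha ih =>
    rw [Finset.biUnion_insert, Finset.sum_insert ha]
    have := Finset.sum_union_inter (s₁ := t a) (s₂ := s.biUnion t) (f := f)
    have h2 : 0 ≤ ∑ b ∈ t a ∩ s.biUnion t, f b := Finset.sum_nonneg fun b _ => hf b
    linarith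

/-- **Summation over shells**, any size. -/
theorem sum_shells (sz : Γ → ℝ) (Φ : Γ → K → ℝ) (hΦ : ∀ γ ξ, 0 ≤ Φ γ ξ) (Q : Γ → Prop) (M₀ : ℕ)
    {B : ℝ} (hB0 : 0 ≤ B) (hB : ∀ γ, Q γ → ∀ ξ, Φ γ ξ ≤ B * ‖ξ‖ ^ 2)
    (h0 : ∀ S : Finset Γ, (∀ γ ∈ S, Q γ ∧ sz γ ≤ 1) → S.card ≤ M₀)
    {C : ℝ} (hC : 0 ≤ C) (d : ℕ)
    (h1 : ∀ (s : ℕ) (S : Finset Γ), (∀ γ ∈ S, Q γ ∧ Real.exp s ≤ sz γ ∧
      sz γ ≤ Real.exp (s + 1)) → ∀ ξ, ∑ γ ∈ S, Φ γ ξ ≤ C * (1 + s) ^ d * ‖ξ‖ ^ 2) :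
    ∃ C' : ℝ, 0 ≤ C' ∧ ∀ J : ℝ, 0 ≤ J → ∀ S : Finset Γ,
      (∀ γ ∈ S, Q γ ∧ Real.log (sz γ) ≤ J) →
      ∀ ξ, ∑ γ ∈ S, Φ γ ξ ≤ C' * (1 + J) ^ (d + 1) * ‖ξ‖ ^ 2 := by
  classical
  refine ⟨M₀ * B + C, by positivity, fun J hJ S hS ξ => ?_⟩
  set S₀ := S.filter fun γ => sz γ ≤ 1 with hS0
  set cell : ℕ → Finset Γ := fun s =>
    S.filter fun γ => Real.exp s ≤ sz γ ∧ sz γ ≤ Real.exp (s + 1) with hcell
  set I := Finset.range (⌊J⌋₊ + 1) with hI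
  have hcov : S ⊆ S₀ ∪ I.biUnion cell := by
    intro γ hγ
    rw [Finset.mem_union]
    by_cases h2 : sz γ ≤ 1
    · exact Or.inl (Finset.mem_filter.2 ⟨hγ, h2⟩)
    · right
      rw [not_le] at h2
      have h3 : 0 < sz γ := one_pos.trans h2
      have h5 : 0 ≤ Real.log (sz γ) := Real.log_nonneg h2.le
      refine Finset.mem_biUnion.2 ⟨⌊Real.log (sz γ)⌋₊, ?_, Finset.mem_filter.2 ⟨hγ, ?_, ?_⟩⟩
      · rw [hI, Finset.mem_range, Nat.lt_succ_iff]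
        exact Nat.floor_le_floor (hS γ hγ).2
      · rw [← Real.le_log_iff_exp_le h3]
        exact Nat.floor_le h5
      · rw [← Real.log_le_iff_le_exp h3]
        exact (Nat.lt_floor_add_one _).le
  have hξ : 0 ≤ ‖ξ‖ ^ 2 := by positivity
  have e0 : ∑ γ ∈ S₀, Φ γ ξ ≤ M₀ * B * ‖ξ‖ ^ 2 := by
    have h2 : ∑ γ ∈ S₀, Φ γ ξ ≤ ∑ γ ∈ S₀, B * ‖ξ‖ ^ 2 :=
      Finset.sum_le_sum fun γ hγ => hB γ (hS γ (Finset.mem_filter.1 hγ).1).1 ξ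
    refine h2.trans ?_
    rw [Finset.sum_const, nsmul_eq_mul]
    have h3 : (S₀.card : ℝ) ≤ M₀ := by
      exact_mod_cast h0 S₀ fun γ hγ =>
        ⟨(hS γ (Finset.mem_filter.1 hγ).1).1, (Finset.mem_filter.1 hγ).2⟩
    calc (S₀.card : ℝ) * (B * ‖ξ‖ ^ 2) ≤ M₀ * (B * ‖ξ‖ ^ 2) := by gcongr
      _ = _ := by ring
  have e1 : ∀ s ∈ I, ∑ γ ∈ cell s, Φ γ ξ ≤ C * (1 + J) ^ d * ‖ξ‖ ^ 2 := by
    intro s hs
    rw [hI, Finset.mem_range, Nat.lt_succ_iff] at hs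
    have h2 := h1 s (cell s) (fun γ hγ => by
      obtain ⟨h2, h3⟩ := Finset.mem_filter.1 hγ
      exact ⟨(hS γ h2).1, h3⟩) ξ
    have h3 : (s : ℝ) ≤ J := (Nat.le_floor_iff hJ).1 hs
    refine h2.trans ?_
    gcongr
  have e2 : ∑ γ ∈ I.biUnion cell, Φ γ ξ ≤ (1 + J) * (C * (1 + J) ^ d * ‖ξ‖ ^ 2) := by
    refine (sum_biUnion_le' _ _ _ fun γ => hΦ γ ξ).trans ?_
    refine (Finset.sum_le_sum e1).trans ?_
    rw [Finset.sum_const, nsmul_eq_mul]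
    have h4 : (I.card : ℝ) ≤ 1 + J := by
      rw [hI, Finset.card_range]
      push_cast
      linarith [Nat.floor_le hJ]
    gcongr
  have e3 : ∑ γ ∈ S, Φ γ ξ ≤ ∑ γ ∈ S₀, Φ γ ξ + ∑ γ ∈ I.biUnion cell, Φ γ ξ := by
    refine (Finset.sum_le_sum_of_subset_of_nonneg hcov fun γ _ _ => hΦ γ ξ).trans ?_
    have := Finset.sum_union_inter (s₁ := S₀) (s₂ := I.biUnion cell) (f := fun γ => Φ γ ξ)
    have h2 : 0 ≤ ∑ γ ∈ S₀ ∩ I.biUnion cell, Φ γ ξ := Finset.sum_nonneg fun γ _ => hΦ γ ξ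
    linarith
  have e4 : (1 : ℝ) ≤ (1 + J) ^ (d + 1) := one_le_pow₀ (by linarith)
  have e5 : M₀ * B * ‖ξ‖ ^ 2 ≤ M₀ * B * ‖ξ‖ ^ 2 * (1 + J) ^ (d + 1) :=
    le_mul_of_one_le_right (by positivity) e4
  calc _ ≤ _ := e3
    _ ≤ M₀ * B * ‖ξ‖ ^ 2 + (1 + J) * (C * (1 + J) ^ d * ‖ξ‖ ^ 2) := add_le_add e0 e2
    _ ≤ M₀ * B * ‖ξ‖ ^ 2 * (1 + J) ^ (d + 1) + (1 + J) * (C * (1 + J) ^ d * ‖ξ‖ ^ 2) := by
        linarith
    _ = _ := by ring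

end shells

section count

variable {k : Type} [NontriviallyNormedField k] [ProperSpace k] {ω : Type} [Fintype ω]
  [DecidableEq ω] {σ : k →+* k} {ε : k} {J₀ : Matrix ω ω k}

/-- **COUNT_2** -/
theorem count3 [MeasurableSpace k] [BorelSpace k] [Fact (Continuous σ)] (hD : Dat σ ε J₀)
    (cls : Cells k) (hs : SecStmt k) (ho : OpfStmt)
    {Γ K : Type} [NormedAddCommGroup K] [InnerProductSpace ℂ K] [CompleteSpace K]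
    (q : Γ → FormGroup σ (hyp 2 ε J₀))
    (hud : ∀ C : ℝ, ∃ N : ℕ, ∀ T : Finset Γ,
      (∀ γ ∈ T, ∀ γ' ∈ T, nmM (ta (q γ' * (q γ)⁻¹).1) ≤ C) → T.card ≤ N)
    (E P : C(SGr σ (hyp 2 ε J₀) 1, ℂ) →⋆ₐ[ℂ] (K →L[ℂ] K))
    (L M : C(SGr σ (hyp 2 ε J₀) 2, ℂ) →⋆ₐ[ℂ] (K →L[ℂ] K)) (hEL : H796.PL Inc E L)
    (hEM : H796.PL Inc E M) (hPM : H796.PL Inc P M) (R : ℝ) (A : Set (SGr σ (hyp 2 ε J₀) 2))
    (h : C(SGr σ (hyp 2 ε J₀) 2, ℂ)) (f : C(SGr σ (hyp 2 ε J₀) 1, ℂ))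
    (hf' : f ∈ TDs σ (hyp 2 ε J₀))
    (hA : ∀ X ∈ closure A, ∀ X' ∈ tsupport h, ∀ z : SGr σ (hyp 2 ε J₀) 1, Inc z X →
      ¬ Inc z X') :
    ∃ T > 0, ∃ (C : ℝ) (d : ℕ), ∀ J : ℝ, 0 ≤ J → ∀ S : Finset Γ,
      (∀ γ ∈ S, (NWr 2 R (ta (q γ).1) ∧ AttS T A (ta (q γ).1)) ∧
        Real.log (nmM (ta (q γ).1)) ≤ J) →
      ∀ ξ : K, ∑ γ ∈ S, ‖L (act (q γ)⁻¹ h) (P (act (q γ)⁻¹ f) ξ)‖ ^ 2 ≤
        C * (1 + J) ^ d * ‖ξ‖ ^ 2 := by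
  classical
  obtain ⟨T, hT, C, hC, hsh⟩ := shell3 hD cls hs ho q hud E P L M hEL hEM hPM R A h f hf' hA
  obtain ⟨M₀, hM₀⟩ := hD.ball hud 1
  obtain ⟨C', hC', hsum⟩ := sum_shells (fun γ => nmM (ta (q γ).1))
    (fun γ (ξ : K) => ‖L (act (q γ)⁻¹ h) (P (act (q γ)⁻¹ f) ξ)‖ ^ 2)
    (fun γ ξ => sq_nonneg _) (fun γ => NWr 2 R (ta (q γ).1) ∧ AttS T A (ta (q γ).1))
    M₀ (B := (‖h‖ * ‖f‖) ^ 2) (sq_nonneg _)
    (by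
      intro γ _ ξ
      rw [← mul_pow]
      refine pow_le_pow_left₀ (norm_nonneg _) ?_ 2
      have h1 : ‖L (act (q γ)⁻¹ h)‖ ≤ ‖h‖ :=
        (NonUnitalStarAlgHom.norm_apply_le L _).trans (norm_act_le _ _)
      have h2 : ‖P (act (q γ)⁻¹ f)‖ ≤ ‖f‖ :=
        (NonUnitalStarAlgHom.norm_apply_le P _).trans (norm_act_le _ _)
      calc _ ≤ ‖L (act (q γ)⁻¹ h)‖ * ‖P (act (q γ)⁻¹ f) ξ‖ :=
            ContinuousLinearMap.le_opNorm _ _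
        _ ≤ ‖h‖ * (‖f‖ * ‖ξ‖) := by
            refine mul_le_mul h1 ?_ (norm_nonneg _) (norm_nonneg _)
            exact (ContinuousLinearMap.le_opNorm _ _).trans
              (mul_le_mul_of_nonneg_right h2 (norm_nonneg _))
        _ = _ := by ring)
    (fun S hS => hM₀ S fun γ hγ => (hS γ hγ).2)
    hC 4
    (by
      intro s S hS ξ
      exact hsh s S (fun γ hγ => by
        obtain ⟨⟨h1, h2⟩, h4, h5⟩ := hS γ hγ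
        exact ⟨h1, h2, h4, h5⟩) ξ)
  refine ⟨T, hT, C', 4 + 1, fun J hJ S hS ξ => ?_⟩
  exact hsum J hJ S (fun γ hγ => ⟨(hS γ hγ).1, (hS γ hγ).2⟩) ξ

/-- **COUNT_2**, every local field, raw letters -/
theorem count3' [MeasurableSpace k] [BorelSpace k] [Fact (Continuous σ)] (hk : H933.LocK k)
    (hD : Dat σ ε J₀) {Γ K : Type} [NormedAddCommGroup K] [InnerProductSpace ℂ K]
    [CompleteSpace K] (q : Γ → FormGroup σ (hyp 2 ε J₀))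
    (hud : ∀ C : ℝ, ∃ N : ℕ, ∀ T : Finset Γ,
      (∀ γ ∈ T, ∀ γ' ∈ T, nmM (ta (q γ' * (q γ)⁻¹).1) ≤ C) → T.card ≤ N)
    (E P : C(SGr σ (hyp 2 ε J₀) 1, ℂ) →⋆ₐ[ℂ] (K →L[ℂ] K))
    (L M : C(SGr σ (hyp 2 ε J₀) 2, ℂ) →⋆ₐ[ℂ] (K →L[ℂ] K)) (hEL : H796.PL Inc E L)
    (hEM : H796.PL Inc E M) (hPM : H796.PL Inc P M) (R : ℝ) (A : Set (SGr σ (hyp 2 ε J₀) 2))
    (h : C(SGr σ (hyp 2 ε J₀) 2, ℂ)) (f : C(SGr σ (hyp 2 ε J₀) 1, ℂ))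
    (hf' : f ∈ TDs σ (hyp 2 ε J₀))
    (hA : ∀ X ∈ closure A, ∀ X' ∈ tsupport h, ∀ z : SGr σ (hyp 2 ε J₀) 1, Inc z X →
      ¬ Inc z X') :
    ∃ T > 0, ∃ (C : ℝ) (d : ℕ), ∀ J : ℝ, 0 ≤ J → ∀ S : Finset Γ,
      (∀ γ ∈ S, (NWr 2 R (ta (q γ).1) ∧ AttS T A (ta (q γ).1)) ∧
        Real.log (nmM (ta (q γ).1)) ≤ J) →
      ∀ ξ : K, ∑ γ ∈ S, ‖L (act (q γ)⁻¹ h) (P (act (q γ)⁻¹ f) ξ)‖ ^ 2 ≤
        C * (1 + J) ^ d * ‖ξ‖ ^ 2 := by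
  obtain ⟨cls⟩ := exists_cells (loc_or hk)
  exact count3 hD cls (secStmt k) opfStmt q hud E P L M hEL hEM hPM R A h f hf' hA

/-- the tame functions are total -/
theorem tds_dense' [Fact (Continuous σ)] (hk : H933.LocK k) :
    closure (Submodule.span ℂ (TDs σ (hyp 2 ε J₀)) :
      Set C(SGr σ (hyp 2 ε J₀) 1, ℂ)) = Set.univ :=
  tds_dense Fact.out (td_dense (loc_or hk) _)

end count

end Vale.Agent.P092.H337.C3
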