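import Vale.Agent.P092.H337.DomG
import Vale.Agent.P092.H107.Dual
import Vale.Agent.P092.H111.SepC

/-!
P092, Team D, block [D0-GEOF] (helper337): the geometry `GeoF` of the wall limits for discrete
subgroups of `SL_3(ℝ)`, points and lines.
-/

namespace Vale.Agent.P092.H337

open Matrix Topology
open scoped LinearAlgebra.Projectivization
open Vale.Agent.P092.H944 Vale.Agent.P092.H820
open Vale.Agent.P092.SD (G3 PP nm NW tau)
open Vale.Agent.P092.H859.CL (BB FF cn SepP GeoF)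
open Vale.Agent.P092.H111 (FLS)

theorem att_of_fls {M : Matrix (Fin 3) (Fin 3) ℝ} {p : PP ℝ} (h : FLS M p) : Att (1 / 3) M p := by
  obtain ⟨k, l, a, hk, hS, rfl⟩ := h
  have := att_svd hS (z := 0) rfl hk
  exact_mod_cast this

/-- Attracting points: the line of the first column of the left frame. -/
noncomputable def bpA (h : G3 ℝ) : PP ℝ :=
  Projectivization.mk ℝ (fun i => kA h.1 i 0) (H111.fls_kA (by rw [h.2]; exact one_ne_zero)).choose

theorem fls_bpA (h : G3 ℝ) : FLS h.1 (bpA h) :=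
  (H111.fls_kA (by rw [h.2]; exact one_ne_zero)).choose_spec

section group

variable {Γ : Type} [Group Γ] (q : Γ →* G3 ℝ)

theorem isBp_of_fls {bp : Γ → PP ℝ} (h : ∀ x, FLS (q x).1 (bp x)) : IsBp q (1 / 3) bp :=
  fun x => att_of_fls (h x)

/-- **[D0-GEOF]**, any choice of first left singular lines. -/
theorem geoF' (fin : ∀ R, {γ | hs (q γ).1 ≤ R}.Finite) {bp : Γ → PP ℝ}
    (h : ∀ x, FLS (q x).1 (bp x)) :
    @GeoF Γ (PP ℝ) _ _ (MulAction.compHom (PP ℝ) q) (fun γ => gap 0 (q γ).1)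
      (fun γ => gap 1 (q γ).1) bp :=
  geoF q fin (by norm_num) (isBp_of_fls q h) fun _ _ hA hA' hd => H111.sepQ fin h hA hA' hd

/-- **[D0-GEOF]** for the points. -/
theorem geoF_pt (fin : ∀ R, {γ | hs (q γ).1 ≤ R}.Finite) :
    @GeoF Γ (PP ℝ) _ _ (MulAction.compHom (PP ℝ) q) (fun γ => gap 0 (q γ).1)
      (fun γ => gap 1 (q γ).1) (fun γ => bpA (q γ)) :=
  geoF' q fin fun x => fls_bpA (q x)

/-- **[D0-GEOF]** for the lines: the gaps are exchanged. -/
theorem geoF_ln (fin : ∀ R, {γ | hs (q γ).1 ≤ R}.Finite) :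
    @GeoF Γ (PP ℝ) _ _ (MulAction.compHom (PP ℝ) ((tau ℝ).comp q)) (fun γ => gap 1 (q γ).1)
      (fun γ => gap 0 (q γ).1) (fun γ => bpA (tau ℝ (q γ))) := by
  have h := geoF_pt ((tau ℝ).comp q) (H107.fin_tau fin)
  have e0 : (fun γ => gap 0 (((tau ℝ).comp q) γ).1) = fun γ => gap 1 (q γ).1 :=
    funext fun γ => H107.gap0_tau (q γ)
  have e1 : (fun γ => gap 1 (((tau ℝ).comp q) γ).1) = fun γ => gap 0 (q γ).1 :=
    funext fun γ => H107.gap1_tau (q γ)
  rw [e0, e1] at h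
  exact h

/-- **[D0-DOMG]** for the points, with the chosen attracting points. -/
theorem cone_sub_pt (r : ℝ) :
    ∃ R, ∀ T > 0, ∃ T' : ℝ, ∀ A : Set (PP ℝ),
      cn (fun γ => gap 0 (q γ).1) (fun γ => gap 1 (q γ).1) (fun γ => bpA (q γ)) A ⊆
        {γ | NW R (q γ) ∧ SD.Att T A (q γ)} ∪
          (FF (fun γ => gap 0 (q γ).1) (fun γ => gap 1 (q γ).1) T' ∪
            BB (fun γ => gap 0 (q γ).1) (fun γ => gap 1 (q γ).1) r) :=
  cone_sub q (by norm_num) (isBp_of_fls q fun x => fls_bpA (q x)) r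

/-- **[D0-DOMG]** for the lines. -/
theorem cone_sub_ln (r : ℝ) :
    ∃ R, ∀ T > 0, ∃ T' : ℝ, ∀ A : Set (PP ℝ),
      cn (fun γ => gap 1 (q γ).1) (fun γ => gap 0 (q γ).1) (fun γ => bpA (tau ℝ (q γ))) A ⊆
        {γ | NW R (((tau ℝ).comp q) γ) ∧ SD.Att T A (((tau ℝ).comp q) γ)} ∪
          (FF (fun γ => gap 1 (q γ).1) (fun γ => gap 0 (q γ).1) T' ∪
            BB (fun γ => gap 1 (q γ).1) (fun γ => gap 0 (q γ).1) r) := by
  have h := cone_sub_pt ((tau ℝ).comp q) r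
  have e0 : (fun γ => gap 0 (((tau ℝ).comp q) γ).1) = fun γ => gap 1 (q γ).1 :=
    funext fun γ => H107.gap0_tau (q γ)
  have e1 : (fun γ => gap 1 (((tau ℝ).comp q) γ).1) = fun γ => gap 0 (q γ).1 :=
    funext fun γ => H107.gap1_tau (q γ)
  rw [e0, e1] at h
  exact h

end group

end Vale.Agent.P092.H337
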