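import Vale.Agent.P092.H337.Fr2

/-!
P092 (helper337), TRACK H, row [H-CNT], part 1: a form with bounds, frames of four isotropic
vectors, and the normal form of the members.
-/

set_option linter.all false

open Matrix Module Set Topology Filter

namespace Vale.Agent.P092.H337.HA

open Vale.Agent.P092.H714.Cl
open Vale.Agent.P092.H337

variable {n : Type} [Fintype n] [DecidableEq n] {k : Type} [NontriviallyNormedField k]
  {σ : k →+* k} {ε : k} {J : Matrix n n k} {β : ℝ}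

/-- the minors of two vectors -/
def mn (x y : n → k) (i j : n) : k := x i * y j - x j * y i

theorem hf_sub_left (x y z : n → k) : hf σ J (x - y) z = hf σ J x z - hf σ J y z := by
  have := hf_add_left σ J (x - y) y z
  rw [sub_add_cancel] at this
  rw [this]; ring

theorem hf_sub_right (x y z : n → k) : hf σ J x (y - z) = hf σ J x y - hf σ J x z := by
  have := hf_add_right σ J x (y - z) z
  rw [sub_add_cancel] at this
  rw [this]; ring

/-- a form with bounds -/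
structure HB (σ : k →+* k) (ε : k) (J : Matrix n n k) (β : ℝ) : Prop where
  F : Frm σ ε J
  sg : ∀ x, ‖σ x‖ = ‖x‖
  ep : ‖ε‖ = 1
  one : 1 ≤ β
  le : ∀ x y, ‖hf σ J x y‖ ≤ β * (‖x‖ * ‖y‖)
  con : ∀ (y z w : n → k) (B : ℝ), 0 ≤ B → (∀ i j, ‖mn y z i j‖ ≤ B) →
    ‖hf σ J y w • z - hf σ J z w • y‖ ≤ β * (‖w‖ * B)
  nd' : ∀ (v : n → k) (c : ℝ), 0 ≤ c → (∀ j, ‖hf σ J v (Pi.single j 1)‖ ≤ c) → ‖v‖ ≤ β * c

omit [DecidableEq n] in
theorem single_le [DecidableEq n] (j : n) : ‖(Pi.single j (1 : k) : n → k)‖ ≤ 1 := by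
  rw [pi_norm_le_iff_of_nonneg zero_le_one]
  intro i
  by_cases hi : i = j
  · subst hi; simp
  · simp [Pi.single_eq_of_ne hi]

theorem HB.nd (H : HB σ ε J β) (v : n → k) (c : ℝ) (hc : 0 ≤ c)
    (h : ∀ y, ‖hf σ J v y‖ ≤ c * ‖y‖) : ‖v‖ ≤ β * c :=
  H.nd' v c hc fun j => (h _).trans (by nlinarith [single_le (k := k) j])

theorem exists_hb [CompleteSpace k] (hF : Frm σ ε J) (hσ : Continuous σ) :
    ∃ β : ℝ, HB σ ε J β := by
  have hs := Fr.norm_sig hF.inv hσ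
  set S : ℝ := ∑ a, ∑ b, ‖J a b‖ with hS
  have hS0 : 0 ≤ S := Finset.sum_nonneg fun _ _ => Finset.sum_nonneg fun _ _ => norm_nonneg _
  let L : (n → k) →ₗ[k] (n → k) :=
    { toFun := fun v j => hf σ J v (Pi.single j 1)
      map_add' := fun x y => funext fun j => hf_add_left σ J x y _
      map_smul' := fun a x => funext fun j => hf_smul_left σ J a x _ }
  have hL : LinearMap.ker L = ⊥ := by
    rw [LinearMap.ker_eq_bot']
    intro v hv
    by_contra hne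
    obtain ⟨y, hy⟩ := hF.nondeg v hne
    refine hy ?_
    have e : y = ∑ j, y j • (Pi.single j (1 : k) : n → k) := by
      funext i
      simp [Finset.sum_apply, Pi.single_apply]
    have h1 : ∀ s : Finset n, hf σ J v (∑ j ∈ s, y j • (Pi.single j (1 : k) : n → k)) = 0 := by
      intro s
      induction s using Finset.induction_on with
      | empty => rw [Finset.sum_empty, hf_zero_right]
      | insert a s ha ih =>
        have h2 : hf σ J v (Pi.single a 1) = 0 := congrFun hv a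
        rw [Finset.sum_insert ha, hf_add_right, ih, hf_smul_right, h2, mul_zero, add_zero]
    rw [e]
    exact h1 _
  obtain ⟨K, hK0, hK⟩ := LinearMap.exists_antilipschitzWith L hL
  refine ⟨1 + S + K, hF, hs, Fr.norm_eps hF.eps, ?_, fun x y => ?_, fun y z w B hB0 hB => ?_,
    fun v c hc h => ?_⟩
  · have : (0 : ℝ) ≤ K := K.2
    linarith
  · have h := Fr.hf_le_entries (J₀ := J) hs (norm_nonneg x) (norm_nonneg y) (norm_le_pi_norm x)
      (norm_le_pi_norm y)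
    refine h.trans (mul_le_mul_of_nonneg_right ?_ (by positivity))
    have : (0 : ℝ) ≤ K := K.2
    linarith
  · have hK0' : (0 : ℝ) ≤ K := K.2
    rw [pi_norm_le_iff_of_nonneg (by positivity)]
    intro i
    have e : (hf σ J y w • z - hf σ J z w • y) i =
        ∑ a, mn y z a i * ((J *ᵥ fun i => σ (w i)) a) := by
      simp only [Pi.sub_apply, Pi.smul_apply, smul_eq_mul, hf, dotProduct, Finset.sum_mul, mn]
      rw [← Finset.sum_sub_distrib]
      refine Finset.sum_congr rfl fun a _ => ?_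
      ring
    rw [e]
    have h1 : ∀ a, ‖(J *ᵥ fun i => σ (w i)) a‖ ≤ ∑ b, ‖J a b‖ * ‖w‖ := by
      intro a
      simp only [mulVec, dotProduct]
      refine (norm_sum_le _ _).trans (Finset.sum_le_sum fun b _ => ?_)
      rw [norm_mul, hs]
      exact mul_le_mul_of_nonneg_left (norm_le_pi_norm w b) (norm_nonneg _)
    calc ‖∑ a, mn y z a i * ((J *ᵥ fun i => σ (w i)) a)‖
        ≤ ∑ a, B * ∑ b, ‖J a b‖ * ‖w‖ := by
          refine (norm_sum_le _ _).trans (Finset.sum_le_sum fun a _ => ?_)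
          rw [norm_mul]
          exact mul_le_mul (hB a i) (h1 a) (norm_nonneg _) hB0
      _ = S * (‖w‖ * B) := by
          rw [hS, Finset.sum_mul]
          refine Finset.sum_congr rfl fun a _ => ?_
          rw [← Finset.sum_mul]; ring
      _ ≤ (1 + S + K) * (‖w‖ * B) := mul_le_mul_of_nonneg_right (by linarith) (by positivity)
  · have hK0' : (0 : ℝ) ≤ K := K.2
    have h1 : ‖v‖ ≤ K * ‖L v‖ := by
      have := hK.le_mul_dist v 0
      rwa [map_zero, dist_zero_right, dist_zero_right] at this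
    have h2 : ‖L v‖ ≤ c := by
      rw [pi_norm_le_iff_of_nonneg hc]
      exact fun j => h j
    calc ‖v‖ ≤ K * ‖L v‖ := h1
      _ ≤ K * c := mul_le_mul_of_nonneg_left h2 hK0'
      _ ≤ (1 + S + K) * c := mul_le_mul_of_nonneg_right (by linarith) hc

/-- a frame: two hyperbolic pairs -/
structure Fq (σ : k →+* k) (J : Matrix n n k) (u0 u1 u2 u3 : n → k) : Prop where
  h00 : hf σ J u0 u0 = 0
  h11 : hf σ J u1 u1 = 0
  h22 : hf σ J u2 u2 = 0
  h33 : hf σ J u3 u3 = 0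
  h01 : hf σ J u0 u1 = 0
  h02 : hf σ J u0 u2 = 0
  h03 : hf σ J u0 u3 = 1
  h12 : hf σ J u1 u2 = 1
  h13 : hf σ J u1 u3 = 0
  h23 : hf σ J u2 u3 = 0

namespace Fq

variable {u0 u1 u2 u3 : n → k}

theorem h10 (h : Fq σ J u0 u1 u2 u3) (H : HB σ ε J β) : hf σ J u1 u0 = 0 := by
  rw [H.F.herm u0 u1, h.h01, map_zero, mul_zero]
theorem h20 (h : Fq σ J u0 u1 u2 u3) (H : HB σ ε J β) : hf σ J u2 u0 = 0 := by
  rw [H.F.herm u0 u2, h.h02, map_zero, mul_zero]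
theorem h30 (h : Fq σ J u0 u1 u2 u3) (H : HB σ ε J β) : hf σ J u3 u0 = ε := by
  rw [H.F.herm u0 u3, h.h03, map_one, mul_one]
theorem h21 (h : Fq σ J u0 u1 u2 u3) (H : HB σ ε J β) : hf σ J u2 u1 = ε := by
  rw [H.F.herm u1 u2, h.h12, map_one, mul_one]
theorem h31 (h : Fq σ J u0 u1 u2 u3) (H : HB σ ε J β) : hf σ J u3 u1 = 0 := by
  rw [H.F.herm u1 u3, h.h13, map_zero, mul_zero]
theorem h32 (h : Fq σ J u0 u1 u2 u3) (H : HB σ ε J β) : hf σ J u3 u2 = 0 := by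
  rw [H.F.herm u2 u3, h.h23, map_zero, mul_zero]

theorem map {m : Matrix n n k} (hm : ∀ a b, hf σ J (m *ᵥ a) (m *ᵥ b) = hf σ J a b)
    (h : Fq σ J u0 u1 u2 u3) : Fq σ J (m *ᵥ u0) (m *ᵥ u1) (m *ᵥ u2) (m *ᵥ u3) := by
  refine ⟨?_, ?_, ?_, ?_, ?_, ?_, ?_, ?_, ?_, ?_⟩ <;> rw [hm]
  exacts [h.h00, h.h11, h.h22, h.h33, h.h01, h.h02, h.h03, h.h12, h.h13, h.h23]

end Fq

omit [DecidableEq n] in
theorem exists_piv_idx {x : n → k} (hx : x ≠ 0) : ∃ i, ‖x i‖ = ‖x‖ := by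
  haveI : Nonempty n := by
    by_contra hemp
    rw [not_nonempty_iff] at hemp
    exact hx (Subsingleton.elim _ _)
  obtain ⟨i, -, hi⟩ := Finset.exists_mem_eq_sup' (Finset.univ_nonempty (α := n))
    (fun i => ‖x i‖₊)
  refine ⟨i, ?_⟩
  have h2 : ‖x‖ ≤ ‖x i‖ := by
    rw [pi_norm_le_iff_of_nonneg (norm_nonneg _)]
    intro j
    have h3 : ‖x j‖₊ ≤ ‖x i‖₊ := hi ▸ Finset.le_sup' (fun i => ‖x i‖₊) (Finset.mem_univ j)
    exact h3
  exact le_antisymm (norm_le_pi_norm x i) h2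

omit [DecidableEq n] in
/-- pivots -/
theorem piv {x y : n → k} (hx : x ≠ 0) {B : ℝ} (hB : 0 ≤ B) (h : ∀ i j, ‖mn x y i j‖ ≤ B) :
    ∃ p : k, ‖y - p • x‖ * ‖x‖ ≤ B := by
  obtain ⟨i, hi⟩ := exists_piv_idx hx
  have hp : 0 < ‖x‖ := norm_pos_iff.2 hx
  have hxi : x i ≠ 0 := by rw [← norm_pos_iff, hi]; exact hp
  refine ⟨y i / x i, ?_⟩
  rw [← le_div_iff₀ hp, pi_norm_le_iff_of_nonneg (by positivity)]
  intro j
  rw [le_div_iff₀ hp, ← hi, ← norm_mul]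
  have e : (y - (y i / x i) • x) j * x i = mn x y i j := by
    simp only [Pi.sub_apply, Pi.smul_apply, smul_eq_mul, mn]
    field_simp
  rw [e]
  exact h i j

/-- the members: the constraints of a generic pair of points -/
structure MemG (σ : k →+* k) (J : Matrix n n k) (C : ℝ) (x x' : n → k) (m : Matrix n n k) :
    Prop where
  iso : ∀ a b, hf σ J (m *ᵥ a) (m *ᵥ b) = hf σ J a b
  c1 : ‖m *ᵥ x‖ ≤ C
  c4 : ‖m *ᵥ x'‖ ≤ C
  c2 : ∀ v, hf σ J x v = 0 → ∀ i j, ‖mn (m *ᵥ x) (m *ᵥ v) i j‖ ≤ C * ‖v‖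
  c3 : ∀ v, hf σ J x' v = 0 → ∀ i j, ‖mn (m *ᵥ x') (m *ᵥ v) i j‖ ≤ C * ‖v‖

/-- the normal form -/
structure NF (σ : k →+* k) (ε : k) (C : ℝ) (U0 U1 U2 U3 : n → k) (ω q : k) : Prop where
  n1 : ‖U1‖ ≤ C * ‖U0‖
  n2 : ‖U2 - q • U0‖ * ‖U0‖ ≤ C
  n3 : ‖U3 + (ε * σ q) • U1‖ * ‖U0‖ ≤ C
  w : ‖ω‖ ≤ C * ‖U0‖
  qw : ‖q‖ * (‖ω‖ * ‖U0‖) ≤ C

/-- **the core**: a normal form of the members -/
theorem core (H : HB σ ε J β) {C U : ℝ} (hC : 1 ≤ C) (hU : 1 ≤ U) :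
    ∃ C' : ℝ, 1 ≤ C' ∧ ∀ (u0 u1 u2 u3 : n → k) (ω : k) (m : Matrix n n k),
      Fq σ J u0 u1 u2 u3 → ‖u1‖ ≤ U → ‖u2‖ ≤ U → ‖u3‖ ≤ U →
      MemG σ J C u0 (u1 + ω • u3) m →
      ∃ q : k, NF σ ε C' (m *ᵥ u0) (m *ᵥ u1) (m *ᵥ u2) (m *ᵥ u3) ω q := by
  have hb := H.one
  set B : ℝ := C * U with hB
  have hB1 : 1 ≤ B := by nlinarith
  have hB0 : 0 ≤ B := by linarith
  have hC0 : 0 ≤ C := by linarith
  have hb0 : 0 ≤ β := by linarith
  set E3 : ℝ := β * B * B with hE3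
  have hE30 : 0 ≤ E3 := by positivity
  set C' : ℝ := 1 + β * B + β * C + E3 + (B + β * B * E3) + (β * B * (C + β * C * E3) + C)
    with hC'
  have p1 : 0 ≤ β * B := by positivity
  have p2 : 0 ≤ β * C := by positivity
  have p3 : 0 ≤ β * B * E3 := by positivity
  have p4 : 0 ≤ β * B * (C + β * C * E3) := by positivity
  refine ⟨C', by linarith, ?_⟩
  intro u0 u1 u2 u3 ω m hu hu1 hu2 hu3 hm
  have hV := hu.map hm.iso
  have l1 : ∀ i j, ‖mn (m *ᵥ u0) (m *ᵥ u2) i j‖ ≤ B := fun i j =>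
    (hm.c2 u2 hu.h02 i j).trans (mul_le_mul_of_nonneg_left hu2 hC0)
  have l2 : ∀ i j, ‖mn (m *ᵥ u1) (m *ᵥ u3) i j‖ ≤ B := by
    intro i j
    have h1 : hf σ J (u1 + ω • u3) u3 = 0 := by
      rw [hf_add_left, hf_smul_left, hu.h13, hu.h33]; ring
    have h2 := (hm.c3 u3 h1 i j).trans (mul_le_mul_of_nonneg_left hu3 hC0)
    have e : mn (m *ᵥ (u1 + ω • u3)) (m *ᵥ u3) i j = mn (m *ᵥ u1) (m *ᵥ u3) i j := by
      rw [mulVec_add, mulVec_smul]
      simp only [mn, Pi.add_apply, Pi.smul_apply, smul_eq_mul]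
      ring
    rwa [e] at h2
  have c4 : ‖m *ᵥ u1 + ω • m *ᵥ u3‖ ≤ C := by
    have := hm.c4
    rwa [mulVec_add, mulVec_smul] at this
  have c1 := hm.c1
  clear hm hu
  generalize m *ᵥ u0 = U0 at *
  generalize m *ᵥ u1 = U1 at *
  generalize m *ᵥ u2 = U2 at *
  generalize m *ᵥ u3 = U3 at *
  have hU0 : U0 ≠ 0 := by
    intro h
    have := hV.h03
    rw [h, hf_zero_left] at this
    exact zero_ne_one this
  have hs : 0 < ‖U0‖ := norm_pos_iff.2 hU0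
  -- n1
  have n1 : ‖U1‖ ≤ β * (‖U0‖ * B) := by
    have h := H.con U3 U1 U0 B hB0 (fun i j => by
      have := l2 i j
      rw [← norm_neg] at this
      have e : -mn U1 U3 i j = mn U3 U1 i j := by simp only [mn]; ring
      rwa [e] at this)
    rw [hV.h30 H, hV.h10 H, zero_smul, sub_zero, norm_smul, H.ep, one_mul] at h
    exact h
  have n1' : ‖U0‖ ≤ β * (‖U1‖ * B) := by
    have h := H.con U0 U2 U1 B hB0 l1
    rw [hV.h01, hV.h21 H, zero_smul, zero_sub, norm_neg, norm_smul, H.ep, one_mul] at h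
    exact h
  have hs1 : 0 < ‖U1‖ := by
    rcases (norm_nonneg U1).eq_or_lt with h | h
    · rw [← h, zero_mul, mul_zero] at n1'
      linarith
    · exact h
  have hU1 : U1 ≠ 0 := norm_pos_iff.1 hs1
  obtain ⟨p, hp⟩ := piv hU0 hB0 l1
  obtain ⟨q3, hq3⟩ := piv hU1 hB0 l2
  have hw : ‖ω‖ ≤ β * (‖U0‖ * C) := by
    have h := H.le U0 (U1 + ω • U3)
    rw [hf_add_right, hf_smul_right, hV.h01, hV.h03, zero_add, mul_one, H.sg] at h
    refine h.trans (mul_le_mul_of_nonneg_left ?_ hb0)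
    exact mul_le_mul_of_nonneg_left c4 hs.le
  -- e3
  have he3 : ‖U3 - q3 • U1‖ * ‖U0‖ ≤ E3 := by
    calc ‖U3 - q3 • U1‖ * ‖U0‖ ≤ ‖U3 - q3 • U1‖ * (β * (‖U1‖ * B)) :=
          mul_le_mul_of_nonneg_left n1' (norm_nonneg _)
      _ = β * B * (‖U3 - q3 • U1‖ * ‖U1‖) := by ring
      _ ≤ β * B * B := mul_le_mul_of_nonneg_left hq3 p1
  have rel : p + ε * σ q3 = -hf σ J (U2 - p • U0) (U3 - q3 • U1) := by
    simp only [hf_sub_left, hf_sub_right, hf_smul_left, hf_smul_right]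
    rw [hV.h23, hV.h21 H, hV.h03, hV.h01]
    ring
  set q : k := -(ε * σ q3) with hq
  have eq1 : ε * σ q = -q3 := by
    rw [hq, map_neg, map_mul, H.F.seps, H.F.inv]
    linear_combination (-q3) * H.F.eps
  have hqn : ‖q‖ = ‖q3‖ := by rw [hq, norm_neg, norm_mul, H.ep, H.sg, one_mul]
  refine ⟨q, ?_, ?_, ?_, ?_, ?_⟩
  · refine n1.trans ?_
    have : β * (‖U0‖ * B) = β * B * ‖U0‖ := by ring
    rw [this]
    exact mul_le_mul_of_nonneg_right (by linarith) hs.le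
  · have e : U2 - q • U0 = (U2 - p • U0) + (p - q) • U0 := by module
    have e2 : p - q = -hf σ J (U2 - p • U0) (U3 - q3 • U1) := by rw [← rel, hq]; ring
    have h1 : ‖p - q‖ ≤ β * (‖U2 - p • U0‖ * ‖U3 - q3 • U1‖) := by
      rw [e2, norm_neg]; exact H.le _ _
    have h2 : ‖U2 - q • U0‖ ≤ ‖U2 - p • U0‖ + ‖p - q‖ * ‖U0‖ := by
      rw [e]
      refine (norm_add_le _ _).trans ?_
      rw [norm_smul]
    calc ‖U2 - q • U0‖ * ‖U0‖ ≤ (‖U2 - p • U0‖ + ‖p - q‖ * ‖U0‖) * ‖U0‖ :=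
          mul_le_mul_of_nonneg_right h2 hs.le
      _ ≤ (‖U2 - p • U0‖ + (β * (‖U2 - p • U0‖ * ‖U3 - q3 • U1‖)) * ‖U0‖) * ‖U0‖ := by
          gcongr
      _ = ‖U2 - p • U0‖ * ‖U0‖ + β * ((‖U2 - p • U0‖ * ‖U0‖) * (‖U3 - q3 • U1‖ * ‖U0‖)) := by
          ring
      _ ≤ B + β * (B * E3) := by
          gcongr
      _ ≤ C' := by rw [hC']; nlinarith
  · rw [eq1, neg_smul, ← sub_eq_add_neg]
    linarith
  · refine hw.trans ?_
    have : β * (‖U0‖ * C) = β * C * ‖U0‖ := by ring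
    rw [this]
    exact mul_le_mul_of_nonneg_right (by linarith) hs.le
  · rw [hqn]
    have e : (1 + ω * q3) • U1 = (U1 + ω • U3) - ω • (U3 - q3 • U1) := by module
    have h1 : ‖1 + ω * q3‖ * ‖U1‖ ≤ C + β * C * E3 := by
      rw [← norm_smul, e]
      refine (norm_sub_le _ _).trans (add_le_add c4 ?_)
      rw [norm_smul]
      calc ‖ω‖ * ‖U3 - q3 • U1‖ ≤ β * (‖U0‖ * C) * ‖U3 - q3 • U1‖ :=
            mul_le_mul_of_nonneg_right hw (norm_nonneg _)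
        _ = β * C * (‖U3 - q3 • U1‖ * ‖U0‖) := by ring
        _ ≤ β * C * E3 := mul_le_mul_of_nonneg_left he3 p2
    have h2 : ‖1 + ω * q3‖ * ‖U0‖ ≤ β * B * (C + β * C * E3) := by
      calc ‖1 + ω * q3‖ * ‖U0‖ ≤ ‖1 + ω * q3‖ * (β * (‖U1‖ * B)) :=
            mul_le_mul_of_nonneg_left n1' (norm_nonneg _)
        _ = β * B * (‖1 + ω * q3‖ * ‖U1‖) := by ring
        _ ≤ _ := mul_le_mul_of_nonneg_left h1 p1
    have h3 : ‖ω * q3‖ ≤ ‖1 + ω * q3‖ + 1 := by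
      have : ω * q3 = (1 + ω * q3) - 1 := by ring
      calc ‖ω * q3‖ = ‖(1 + ω * q3) - 1‖ := by rw [← this]
        _ ≤ ‖1 + ω * q3‖ + ‖(1 : k)‖ := norm_sub_le _ _
        _ = _ := by rw [norm_one]
    calc ‖q3‖ * (‖ω‖ * ‖U0‖) = ‖ω * q3‖ * ‖U0‖ := by rw [norm_mul]; ring
      _ ≤ (‖1 + ω * q3‖ + 1) * ‖U0‖ := mul_le_mul_of_nonneg_right h3 hs.le
      _ = ‖1 + ω * q3‖ * ‖U0‖ + ‖U0‖ := by ring
      _ ≤ β * B * (C + β * C * E3) + C := add_le_add h2 c1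
      _ ≤ C' := by linarith

end Vale.Agent.P092.H337.HA
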