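import Vale.Agent.P092.H337.HA1

/-!
P092 (helper337), TRACK H, row [H-CNT], part 2: the complement of a frame and the quotients.
-/

set_option linter.all false

open Matrix Module Set Topology Filter

namespace Vale.Agent.P092.H337.HA

open Vale.Agent.P092.H714.Cl
open Vale.Agent.P092.H337

variable {n : Type} [Fintype n] [DecidableEq n] {k : Type} [NontriviallyNormedField k]
  {σ : k →+* k} {ε : k} {J : Matrix n n k} {β : ℝ}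

/-- the component orthogonal to a frame -/
def pj (σ : k →+* k) (ε : k) (J : Matrix n n k) (u0 u1 u2 u3 y : n → k) : n → k :=
  y - hf σ J y u3 • u0 - hf σ J y u2 • u1 - (ε * hf σ J y u1) • u2 - (ε * hf σ J y u0) • u3

section pj

variable {u0 u1 u2 u3 : n → k}

theorem pj0 (H : HB σ ε J β) (h : Fq σ J u0 u1 u2 u3) (y : n → k) :
    hf σ J (pj σ ε J u0 u1 u2 u3 y) u0 = 0 := by
  simp only [pj, hf_sub_left, hf_smul_left]
  rw [h.h00, h.h10 H, h.h20 H, h.h30 H]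
  linear_combination (-hf σ J y u0) * H.F.eps

theorem pj1 (H : HB σ ε J β) (h : Fq σ J u0 u1 u2 u3) (y : n → k) :
    hf σ J (pj σ ε J u0 u1 u2 u3 y) u1 = 0 := by
  simp only [pj, hf_sub_left, hf_smul_left]
  rw [h.h01, h.h11, h.h21 H, h.h31 H]
  linear_combination (-hf σ J y u1) * H.F.eps

theorem pj2 (H : HB σ ε J β) (h : Fq σ J u0 u1 u2 u3) (y : n → k) :
    hf σ J (pj σ ε J u0 u1 u2 u3 y) u2 = 0 := by
  simp only [pj, hf_sub_left, hf_smul_left]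
  rw [h.h02, h.h12, h.h22, h.h32 H]
  ring

theorem pj3 (H : HB σ ε J β) (h : Fq σ J u0 u1 u2 u3) (y : n → k) :
    hf σ J (pj σ ε J u0 u1 u2 u3 y) u3 = 0 := by
  simp only [pj, hf_sub_left, hf_smul_left]
  rw [h.h03, h.h13, h.h23, h.h33]
  ring

/-- vectors orthogonal to the frame see only the component -/
theorem hf_pj_right (H : HB σ ε J β) {v : n → k} (h0 : hf σ J v u0 = 0) (h1 : hf σ J v u1 = 0)
    (h2 : hf σ J v u2 = 0) (h3 : hf σ J v u3 = 0) (y : n → k) :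
    hf σ J v (pj σ ε J u0 u1 u2 u3 y) = hf σ J v y := by
  simp only [pj, hf_sub_right, hf_smul_right]
  rw [h0, h1, h2, h3]
  ring

theorem hf_pj_pj (H : HB σ ε J β) (h : Fq σ J u0 u1 u2 u3) (y : n → k) :
    hf σ J (pj σ ε J u0 u1 u2 u3 y) (pj σ ε J u0 u1 u2 u3 y) = hf σ J y y -
      (ε * (hf σ J y u3 * σ (hf σ J y u0)) + ε * (hf σ J y u2 * σ (hf σ J y u1)) +
        hf σ J y u1 * σ (hf σ J y u2) + hf σ J y u0 * σ (hf σ J y u3)) := by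
  rw [hf_pj_right H (pj0 H h y) (pj1 H h y) (pj2 H h y) (pj3 H h y)]
  have e : ∀ u, hf σ J u y = ε * σ (hf σ J y u) := fun u => H.F.herm y u
  simp only [pj, hf_sub_left, hf_smul_left]
  rw [e u0, e u1, e u2, e u3]
  linear_combination (-(hf σ J y u1 * σ (hf σ J y u2)) - hf σ J y u0 * σ (hf σ J y u3)) * H.F.eps

/-- the norm of the component in the normal form -/
theorem hf_pj_le (H : HB σ ε J β) {C : ℝ} (hC : 1 ≤ C) (h : Fq σ J u0 u1 u2 u3) {ω q : k}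
    (hN : NF σ ε C u0 u1 u2 u3 ω q) (y : n → k) :
    ‖hf σ J (pj σ ε J u0 u1 u2 u3 y) (pj σ ε J u0 u1 u2 u3 y)‖ ≤
      (β + 4 * (β * C) * (β * C)) * ‖y‖ ^ 2 := by
  have hb := H.one
  have hb0 : 0 ≤ β := by linarith
  have hC0 : 0 ≤ C := by linarith
  set e2 := u2 - q • u0 with he2
  set e3 := u3 + (ε * σ q) • u1 with he3
  set a0 := hf σ J y u0 with ha0
  set a1 := hf σ J y u1 with ha1
  set b2 := hf σ J y e2 with hb2
  set b3 := hf σ J y e3 with hb3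
  have i2 : hf σ J y u2 = σ q * a0 + b2 := by
    rw [hb2, he2, hf_sub_right, hf_smul_right]; ring
  have i3 : hf σ J y u3 = -(ε * q) * a1 + b3 := by
    rw [hb3, he3, hf_add_right, hf_smul_right, map_mul, H.F.seps, H.F.inv]; ring
  have key : hf σ J (pj σ ε J u0 u1 u2 u3 y) (pj σ ε J u0 u1 u2 u3 y) = hf σ J y y -
      (ε * (b3 * σ a0) + ε * (b2 * σ a1) + a1 * σ b2 + a0 * σ b3) := by
    rw [hf_pj_pj H h, i2, i3, ← ha0, ← ha1]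
    simp only [map_add, map_mul, map_neg, H.F.seps, H.F.inv]
    linear_combination (q * a1 * σ a0) * H.F.eps
  have n0 : ‖a0‖ ≤ β * (‖y‖ * ‖u0‖) := H.le _ _
  have n1 : ‖a1‖ ≤ β * (‖y‖ * (C * ‖u0‖)) :=
    (H.le _ _).trans (mul_le_mul_of_nonneg_left
      (mul_le_mul_of_nonneg_left hN.n1 (norm_nonneg _)) hb0)
  have n2 : ‖b2‖ ≤ β * (‖y‖ * ‖e2‖) := H.le _ _
  have n3 : ‖b3‖ ≤ β * (‖y‖ * ‖e3‖) := H.le _ _
  have t1 : ‖b3‖ * ‖a0‖ ≤ (β * C) * (β * C) * ‖y‖ ^ 2 := by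
    calc ‖b3‖ * ‖a0‖ ≤ (β * (‖y‖ * ‖e3‖)) * (β * (‖y‖ * ‖u0‖)) := by gcongr
      _ = β * β * ‖y‖ ^ 2 * (‖e3‖ * ‖u0‖) := by ring
      _ ≤ β * β * ‖y‖ ^ 2 * C := mul_le_mul_of_nonneg_left hN.n3 (by positivity)
      _ ≤ β * β * ‖y‖ ^ 2 * (C * C) := by gcongr; nlinarith
      _ = _ := by ring
  have t2 : ‖b2‖ * ‖a1‖ ≤ (β * C) * (β * C) * ‖y‖ ^ 2 := by
    calc ‖b2‖ * ‖a1‖ ≤ (β * (‖y‖ * ‖e2‖)) * (β * (‖y‖ * (C * ‖u0‖))) := by gcongr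
      _ = β * β * ‖y‖ ^ 2 * C * (‖e2‖ * ‖u0‖) := by ring
      _ ≤ β * β * ‖y‖ ^ 2 * C * C := mul_le_mul_of_nonneg_left hN.n2 (by positivity)
      _ = _ := by ring
  have t0 : ‖hf σ J y y‖ ≤ β * ‖y‖ ^ 2 := by rw [pow_two]; exact H.le _ _
  have z1 : ‖ε * (b3 * σ a0)‖ = ‖b3‖ * ‖a0‖ := by rw [norm_mul, norm_mul, H.ep, H.sg, one_mul]
  have z2 : ‖ε * (b2 * σ a1)‖ = ‖b2‖ * ‖a1‖ := by rw [norm_mul, norm_mul, H.ep, H.sg, one_mul]
  have z3 : ‖a1 * σ b2‖ = ‖b2‖ * ‖a1‖ := by rw [norm_mul, H.sg, mul_comm]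
  have z4 : ‖a0 * σ b3‖ = ‖b3‖ * ‖a0‖ := by rw [norm_mul, H.sg, mul_comm]
  rw [key]
  have s1 := norm_sub_le (hf σ J y y) (ε * (b3 * σ a0) + ε * (b2 * σ a1) + a1 * σ b2 + a0 * σ b3)
  have s2 := norm_add_le (ε * (b3 * σ a0) + ε * (b2 * σ a1) + a1 * σ b2) (a0 * σ b3)
  have s3 := norm_add_le (ε * (b3 * σ a0) + ε * (b2 * σ a1)) (a1 * σ b2)
  have s4 := norm_add_le (ε * (b3 * σ a0)) (ε * (b2 * σ a1))
  nlinarith

end pj

/-- the complement is uniformly anisotropic -/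
def Wd (σ : k →+* k) (J : Matrix n n k) (c : ℝ) (u0 u1 u2 u3 : n → k) : Prop :=
  ∀ f, hf σ J f u0 = 0 → hf σ J f u1 = 0 → hf σ J f u2 = 0 → hf σ J f u3 = 0 →
    c * ‖f‖ ^ 2 ≤ ‖hf σ J f f‖

theorem sq_le_of {a b : ℝ} (hb : 0 ≤ b) (h : a ^ 2 ≤ b ^ 2) : a ≤ b :=
  le_of_abs_le (abs_le_of_sq_le_sq h hb) |>.trans le_rfl

/-- isometries are bijective -/
theorem exists_pre (H : HB σ ε J β) {m : Matrix n n k}
    (hm : ∀ a b, hf σ J (m *ᵥ a) (m *ᵥ b) = hf σ J a b) (y : n → k) : ∃ x, m *ᵥ x = y := by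
  have h1 : Function.Injective (mulVecLin m) := by
    rw [← LinearMap.ker_eq_bot, LinearMap.ker_eq_bot']
    intro v hv
    by_contra hne
    obtain ⟨y, hy⟩ := H.F.nondeg v hne
    refine hy ?_
    rw [← hm]
    have : m *ᵥ v = 0 := hv
    rw [this, hf_zero_left]
  have h2 := LinearMap.injective_iff_surjective.1 h1
  exact h2 y

/-- the component, pulled back -/
theorem exists_comp (H : HB σ ε J β) {C c : ℝ} (hC : 1 ≤ C) (hc : 0 < c) :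
    ∃ C3 : ℝ, 1 ≤ C3 ∧ ∀ (u0 u1 u2 u3 : n → k) (ω q : k) (m : Matrix n n k),
      Fq σ J u0 u1 u2 u3 → Wd σ J c u0 u1 u2 u3 →
      (∀ a b, hf σ J (m *ᵥ a) (m *ᵥ b) = hf σ J a b) →
      NF σ ε C (m *ᵥ u0) (m *ᵥ u1) (m *ᵥ u2) (m *ᵥ u3) ω q →
      (∀ y, ∃ f, m *ᵥ f = pj σ ε J (m *ᵥ u0) (m *ᵥ u1) (m *ᵥ u2) (m *ᵥ u3) y ∧
        hf σ J f u0 = 0 ∧ hf σ J f u1 = 0 ∧ hf σ J f u2 = 0 ∧ hf σ J f u3 = 0 ∧
        ‖f‖ ≤ C3 * ‖y‖) ∧
      ∀ f, hf σ J f u0 = 0 → hf σ J f u1 = 0 → hf σ J f u2 = 0 → hf σ J f u3 = 0 →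
        ‖m *ᵥ f‖ ≤ C3 * ‖f‖ := by
  have hb := H.one
  have hb0 : 0 ≤ β := by linarith
  have hC0 : 0 ≤ C := by linarith
  set C2 : ℝ := β + 4 * (β * C) * (β * C) with hC2
  have hC20 : 0 ≤ C2 := by positivity
  set D : ℝ := 1 + C2 / c with hD
  have hD1 : 1 ≤ D := by have : 0 ≤ C2 / c := by positivity
                         linarith
  refine ⟨β * (β * D) + D, by nlinarith [mul_nonneg hb0 (mul_nonneg hb0 (by linarith : 0 ≤ D))],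
    ?_⟩
  intro u0 u1 u2 u3 ω q m hu hW hm hN
  have hV := hu.map hm
  have hp0 : 0 ≤ β * (β * D) := by positivity
  have A : ∀ y, ∃ f, m *ᵥ f = pj σ ε J (m *ᵥ u0) (m *ᵥ u1) (m *ᵥ u2) (m *ᵥ u3) y ∧
        hf σ J f u0 = 0 ∧ hf σ J f u1 = 0 ∧ hf σ J f u2 = 0 ∧ hf σ J f u3 = 0 ∧
        ‖f‖ ≤ D * ‖y‖ := by
    intro y
    obtain ⟨f, hf'⟩ := exists_pre H hm (pj σ ε J (m *ᵥ u0) (m *ᵥ u1) (m *ᵥ u2) (m *ᵥ u3) y)
    have g0 : hf σ J f u0 = 0 := by rw [← hm, hf']; exact pj0 H hV y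
    have g1 : hf σ J f u1 = 0 := by rw [← hm, hf']; exact pj1 H hV y
    have g2 : hf σ J f u2 = 0 := by rw [← hm, hf']; exact pj2 H hV y
    have g3 : hf σ J f u3 = 0 := by rw [← hm, hf']; exact pj3 H hV y
    refine ⟨f, hf', g0, g1, g2, g3, ?_⟩
    have h1 := hW f g0 g1 g2 g3
    have h2 := hf_pj_le H hC hV hN y
    rw [← hf', hm] at h2
    refine sq_le_of (by positivity) ?_
    have h3 : ‖f‖ ^ 2 ≤ C2 / c * ‖y‖ ^ 2 := by
      rw [div_mul_eq_mul_div, le_div_iff₀ hc]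
      linarith
    have h4 : C2 / c ≤ D ^ 2 := by
      have : 0 ≤ C2 / c := by positivity
      nlinarith
    calc ‖f‖ ^ 2 ≤ C2 / c * ‖y‖ ^ 2 := h3
      _ ≤ D ^ 2 * ‖y‖ ^ 2 := mul_le_mul_of_nonneg_right h4 (sq_nonneg _)
      _ = (D * ‖y‖) ^ 2 := by ring
  refine ⟨fun y => ?_, fun f g0 g1 g2 g3 => ?_⟩
  · obtain ⟨f, hf', g0, g1, g2, g3, hle⟩ := A y
    exact ⟨f, hf', g0, g1, g2, g3, hle.trans
      (mul_le_mul_of_nonneg_right (by linarith) (norm_nonneg _))⟩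
  · have h1 : ‖m *ᵥ f‖ ≤ β * (β * D * ‖f‖) := by
      refine H.nd _ _ (by positivity) fun y => ?_
      obtain ⟨f', hf', -, -, -, -, hle⟩ := A y
      have e1 : hf σ J (m *ᵥ f) y = hf σ J f f' := by
        rw [← hf_pj_right H (v := m *ᵥ f) (u0 := m *ᵥ u0) (u1 := m *ᵥ u1) (u2 := m *ᵥ u2)
          (u3 := m *ᵥ u3) (by rw [hm]; exact g0) (by rw [hm]; exact g1) (by rw [hm]; exact g2)
          (by rw [hm]; exact g3) y, ← hf', hm]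
      rw [e1]
      calc ‖hf σ J f f'‖ ≤ β * (‖f‖ * ‖f'‖) := H.le _ _
        _ ≤ β * (‖f‖ * (D * ‖y‖)) := by gcongr
        _ = _ := by ring
    calc ‖m *ᵥ f‖ ≤ β * (β * D * ‖f‖) := h1
      _ = β * (β * D) * ‖f‖ := by ring
      _ ≤ _ := mul_le_mul_of_nonneg_right (by linarith) (norm_nonneg _)

/-- **the quotients** of two members with close parameters -/
theorem quo (H : HB σ ε J β) {C c : ℝ} (hC : 1 ≤ C) (hc : 0 < c) :
    ∃ C' : ℝ, 1 ≤ C' ∧ ∀ (u0 u1 u2 u3 : n → k) (ω q q' : k) (m m' m'' : Matrix n n k),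
      Fq σ J u0 u1 u2 u3 → Wd σ J c u0 u1 u2 u3 →
      (∀ a b, hf σ J (m *ᵥ a) (m *ᵥ b) = hf σ J a b) →
      (∀ a b, hf σ J (m' *ᵥ a) (m' *ᵥ b) = hf σ J a b) →
      NF σ ε C (m *ᵥ u0) (m *ᵥ u1) (m *ᵥ u2) (m *ᵥ u3) ω q →
      NF σ ε C (m' *ᵥ u0) (m' *ᵥ u1) (m' *ᵥ u2) (m' *ᵥ u3) ω q' →
      m'' * m = m' → ‖m *ᵥ u0‖ ≤ 2 * ‖m' *ᵥ u0‖ → ‖m' *ᵥ u0‖ ≤ 2 * ‖m *ᵥ u0‖ →
      ‖q' - q‖ * (‖m *ᵥ u0‖ * ‖m' *ᵥ u0‖) ≤ 1 → ∀ y, ‖m'' *ᵥ y‖ ≤ C' * ‖y‖ := by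
  have hb := H.one
  have hb0 : 0 ≤ β := by linarith
  have hC0 : 0 ≤ C := by linarith
  obtain ⟨C3, hC3, hcomp⟩ := exists_comp H hC hc
  have hC30 : 0 ≤ C3 := by linarith
  set T : ℝ := β * C + 2 * (β * C * C) with hT
  have hT0 : 0 ≤ T := by positivity
  refine ⟨6 * T + C3 * C3 + 1, by nlinarith [mul_nonneg hC30 hC30], ?_⟩
  intro u0 u1 u2 u3 ω q q' m m' m'' hu hW hm hm' hN hN' hmm hs1 hs2 hq y
  obtain ⟨hA, -⟩ := hcomp u0 u1 u2 u3 ω q m hu hW hm hN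
  obtain ⟨-, hB⟩ := hcomp u0 u1 u2 u3 ω q' m' hu hW hm' hN'
  obtain ⟨f, hf', g0, g1, g2, g3, hle⟩ := hA y
  have hV := hu.map hm
  have hV' := hu.map hm'
  have hfb := (hB f g0 g1 g2 g3).trans (mul_le_mul_of_nonneg_left hle hC30)
  have mm : ∀ v, m'' *ᵥ (m *ᵥ v) = m' *ᵥ v := fun v => by rw [mulVec_mulVec, hmm]
  have hU0 : m *ᵥ u0 ≠ 0 := by
    intro h
    have := hV.h03
    rw [h, hf_zero_left] at this
    exact zero_ne_one this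
  have hU0' : m' *ᵥ u0 ≠ 0 := by
    intro h
    have := hV'.h03
    rw [h, hf_zero_left] at this
    exact zero_ne_one this
  have ex : m'' *ᵥ y = hf σ J y (m *ᵥ u3) • (m' *ᵥ u0) + hf σ J y (m *ᵥ u2) • (m' *ᵥ u1) +
      (ε * hf σ J y (m *ᵥ u1)) • (m' *ᵥ u2) + (ε * hf σ J y (m *ᵥ u0)) • (m' *ᵥ u3) +
      m' *ᵥ f := by
    have e1 : y = hf σ J y (m *ᵥ u3) • (m *ᵥ u0) + hf σ J y (m *ᵥ u2) • (m *ᵥ u1) +
      (ε * hf σ J y (m *ᵥ u1)) • (m *ᵥ u2) + (ε * hf σ J y (m *ᵥ u0)) • (m *ᵥ u3) +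
      m *ᵥ f := by
      rw [hf']; unfold pj; module
    calc m'' *ᵥ y = m'' *ᵥ (hf σ J y (m *ᵥ u3) • (m *ᵥ u0) + hf σ J y (m *ᵥ u2) • (m *ᵥ u1) +
      (ε * hf σ J y (m *ᵥ u1)) • (m *ᵥ u2) + (ε * hf σ J y (m *ᵥ u0)) • (m *ᵥ u3) +
      m *ᵥ f) := by rw [← e1]
      _ = _ := by simp only [mulVec_add, mulVec_smul, mm]
  clear hf' hmm mm hcomp hA hB hm hm' hW hV' hV
  rw [ex]
  generalize m *ᵥ u0 = U0 at *
  generalize m *ᵥ u1 = U1 at *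
  generalize m *ᵥ u2 = U2 at *
  generalize m *ᵥ u3 = U3 at *
  generalize m' *ᵥ u0 = V0 at *
  generalize m' *ᵥ u1 = V1 at *
  generalize m' *ᵥ u2 = V2 at *
  generalize m' *ᵥ u3 = V3 at *
  generalize m' *ᵥ f = F at *
  have hs : 0 < ‖U0‖ := norm_pos_iff.2 hU0
  have hs' : 0 < ‖V0‖ := norm_pos_iff.2 hU0'
  set e2 := U2 - q • U0 with he2
  set e3 := U3 + (ε * σ q) • U1 with he3
  set f2 := V2 - q' • V0 with hf2
  set f3 := V3 + (ε * σ q') • V1 with hf3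
  set a0 := hf σ J y U0 with ha0
  set a1 := hf σ J y U1 with ha1
  set b2 := hf σ J y e2 with hb2
  set b3 := hf σ J y e3 with hb3
  have i2 : hf σ J y U2 = σ q * a0 + b2 := by
    rw [hb2, he2, hf_sub_right, hf_smul_right]; ring
  have i3 : hf σ J y U3 = -(ε * q) * a1 + b3 := by
    rw [hb3, he3, hf_add_right, hf_smul_right, map_mul, H.F.seps, H.F.inv]; ring
  have j2 : V2 = q' • V0 + f2 := by rw [hf2]; module
  have j3 : V3 = f3 - (ε * σ q') • V1 := by rw [hf3]; module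
  have key : hf σ J y U3 • V0 + hf σ J y U2 • V1 + (ε * a1) • V2 + (ε * a0) • V3 + F =
      (ε * (a1 * (q' - q))) • V0 + b3 • V0 + (ε * a1) • f2 +
      ((-(a0 * σ (q' - q))) • V1 + b2 • V1 + (ε * a0) • f3) + F := by
    rw [i2, i3]
    have t : (ε * a0) • V3 = (ε * a0) • f3 - (a0 * σ q') • V1 := by
      rw [j3, smul_sub, smul_smul]
      congr 2
      linear_combination (a0 * σ q') * H.F.eps
    have t2 : (ε * a1) • V2 = (ε * a1) • (q' • V0 + f2) := congrArg _ j2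
    rw [t, t2, map_sub]
    module
  rw [key]
  have n0 : ‖a0‖ ≤ β * (‖y‖ * ‖U0‖) := H.le _ _
  have n1 : ‖a1‖ ≤ β * (‖y‖ * (C * ‖U0‖)) :=
    (H.le _ _).trans (mul_le_mul_of_nonneg_left
      (mul_le_mul_of_nonneg_left hN.n1 (norm_nonneg _)) hb0)
  have n2 : ‖b2‖ ≤ β * (‖y‖ * ‖e2‖) := H.le _ _
  have n3 : ‖b3‖ ≤ β * (‖y‖ * ‖e3‖) := H.le _ _
  have hy0 := norm_nonneg y
  have hCC : C ≤ C * C := by nlinarith
  have r1 : ‖(ε * (a1 * (q' - q))) • V0‖ ≤ T * ‖y‖ := by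
    rw [norm_smul, norm_mul, norm_mul, H.ep, one_mul]
    calc ‖a1‖ * ‖q' - q‖ * ‖V0‖ ≤ (β * (‖y‖ * (C * ‖U0‖))) * ‖q' - q‖ * ‖V0‖ := by gcongr
      _ = β * C * ‖y‖ * (‖q' - q‖ * (‖U0‖ * ‖V0‖)) := by ring
      _ ≤ β * C * ‖y‖ * 1 := mul_le_mul_of_nonneg_left hq (by positivity)
      _ = (β * C) * ‖y‖ := by ring
      _ ≤ T * ‖y‖ := mul_le_mul_of_nonneg_right (by
          have : 0 ≤ β * C * C := by positivity
          linarith) hy0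
  have r2 : ‖b3 • V0‖ ≤ T * ‖y‖ := by
    rw [norm_smul]
    calc ‖b3‖ * ‖V0‖ ≤ (β * (‖y‖ * ‖e3‖)) * (2 * ‖U0‖) := by gcongr
      _ = 2 * β * ‖y‖ * (‖e3‖ * ‖U0‖) := by ring
      _ ≤ 2 * β * ‖y‖ * C := mul_le_mul_of_nonneg_left hN.n3 (by positivity)
      _ ≤ 2 * β * ‖y‖ * (C * C) := mul_le_mul_of_nonneg_left hCC (by positivity)
      _ = (2 * (β * C * C)) * ‖y‖ := by ring
      _ ≤ T * ‖y‖ := mul_le_mul_of_nonneg_right (by
          have : 0 ≤ β * C := by positivity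
          linarith) hy0
  have r3 : ‖(ε * a1) • f2‖ ≤ T * ‖y‖ := by
    rw [norm_smul, norm_mul, H.ep, one_mul]
    calc ‖a1‖ * ‖f2‖ ≤ (β * (‖y‖ * (C * (2 * ‖V0‖)))) * ‖f2‖ := by
          refine mul_le_mul_of_nonneg_right (n1.trans ?_) (norm_nonneg _)
          gcongr
      _ = 2 * β * C * ‖y‖ * (‖f2‖ * ‖V0‖) := by ring
      _ ≤ 2 * β * C * ‖y‖ * C := mul_le_mul_of_nonneg_left hN'.n2 (by positivity)
      _ = (2 * (β * C * C)) * ‖y‖ := by ring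
      _ ≤ T * ‖y‖ := mul_le_mul_of_nonneg_right (by
          have : 0 ≤ β * C := by positivity
          linarith) hy0
  have r4 : ‖(-(a0 * σ (q' - q))) • V1‖ ≤ T * ‖y‖ := by
    rw [norm_smul, norm_neg, norm_mul, H.sg]
    calc ‖a0‖ * ‖q' - q‖ * ‖V1‖ ≤ (β * (‖y‖ * ‖U0‖)) * ‖q' - q‖ * (C * ‖V0‖) := by
          gcongr
          exact hN'.n1
      _ = β * C * ‖y‖ * (‖q' - q‖ * (‖U0‖ * ‖V0‖)) := by ring
      _ ≤ β * C * ‖y‖ * 1 := mul_le_mul_of_nonneg_left hq (by positivity)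
      _ = (β * C) * ‖y‖ := by ring
      _ ≤ T * ‖y‖ := mul_le_mul_of_nonneg_right (by
          have : 0 ≤ β * C * C := by positivity
          linarith) hy0
  have r5 : ‖b2 • V1‖ ≤ T * ‖y‖ := by
    rw [norm_smul]
    calc ‖b2‖ * ‖V1‖ ≤ (β * (‖y‖ * ‖e2‖)) * (C * (2 * ‖U0‖)) := by
          have := hN'.n1
          gcongr
          exact this.trans (mul_le_mul_of_nonneg_left hs2 hC0)
      _ = 2 * β * C * ‖y‖ * (‖e2‖ * ‖U0‖) := by ring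
      _ ≤ 2 * β * C * ‖y‖ * C := mul_le_mul_of_nonneg_left hN.n2 (by positivity)
      _ = (2 * (β * C * C)) * ‖y‖ := by ring
      _ ≤ T * ‖y‖ := mul_le_mul_of_nonneg_right (by
          have : 0 ≤ β * C := by positivity
          linarith) hy0
  have r6 : ‖(ε * a0) • f3‖ ≤ T * ‖y‖ := by
    rw [norm_smul, norm_mul, H.ep, one_mul]
    calc ‖a0‖ * ‖f3‖ ≤ (β * (‖y‖ * (2 * ‖V0‖))) * ‖f3‖ := by
          refine mul_le_mul_of_nonneg_right (n0.trans ?_) (norm_nonneg _)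
          gcongr
      _ = 2 * β * ‖y‖ * (‖f3‖ * ‖V0‖) := by ring
      _ ≤ 2 * β * ‖y‖ * C := mul_le_mul_of_nonneg_left hN'.n3 (by positivity)
      _ ≤ 2 * β * ‖y‖ * (C * C) := mul_le_mul_of_nonneg_left hCC (by positivity)
      _ = (2 * (β * C * C)) * ‖y‖ := by ring
      _ ≤ T * ‖y‖ := mul_le_mul_of_nonneg_right (by
          have : 0 ≤ β * C := by positivity
          linarith) hy0
  have r7 : ‖F‖ ≤ C3 * C3 * ‖y‖ := by linarith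
  set A1 := (ε * (a1 * (q' - q))) • V0
  set A2 := b3 • V0
  set A3 := (ε * a1) • f2
  set A4 := (-(a0 * σ (q' - q))) • V1
  set A5 := b2 • V1
  set A6 := (ε * a0) • f3
  have s1 := norm_add_le (A1 + A2 + A3 + (A4 + A5 + A6)) F
  have s2 := norm_add_le (A1 + A2 + A3) (A4 + A5 + A6)
  have s3 := norm_add_le (A1 + A2) A3
  have s4 := norm_add_le A1 A2
  have s5 := norm_add_le (A4 + A5) A6
  have s6 := norm_add_le A4 A5
  nlinarith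

end Vale.Agent.P092.H337.HA
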