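import Vale.Agent.P092.H337.HA2

/-!
P092 (helper337), TRACK H, row [H-CNT], part 3: bounded frames of the pairs of points, and the
uniform anisotropy of their complements.
-/

set_option linter.all false

open Matrix Module Set Topology Filter

namespace Vale.Agent.P092.H337.HA

open Vale.Agent.P092.H303 (FormGroup Idx hyp)
open Vale.Agent.P092.H714.Cl
open Vale.Agent.P092.H370.Po
open Vale.Agent.P092.H337

section fr

variable {n : Type} [Fintype n] [DecidableEq n] {k : Type} [NontriviallyNormedField k]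
  {σ : k →+* k} {ε : k} {J : Matrix n n k} {β : ℝ}

/-- a frame of a pair of points from a singular plane in general position -/
theorem frame_of (H : HB σ ε J β) {A d : ℝ} (hA : 0 ≤ A) (hd : 0 < d) {x x' a b : n → k}
    (hx : ‖x‖ ≤ 2) (hx' : ‖x'‖ ≤ 2) (hxx : hf σ J x x = 0) (hxx' : hf σ J x' x' = 0)
    (haa : hf σ J a a = 0) (hbb : hf σ J b b = 0) (hab : hf σ J a b = 0) (ha : ‖a‖ ≤ A)
    (hb : ‖b‖ ≤ A) (hD : d ≤ ‖hf σ J x a * hf σ J x' b - hf σ J x b * hf σ J x' a‖) :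
    ∃ (u1 u2 u3 : n → k) (ω : k), Fq σ J x u1 u2 u3 ∧ x' = u1 + ω • u3 ∧
      ‖u1‖ ≤ 2 + (β * (2 * 2)) * (β * (4 * A * A) / d) ∧ ‖u2‖ ≤ β * (4 * A * A) / d ∧
      ‖u3‖ ≤ β * (4 * A * A) / d ∧ ω = σ (hf σ J x x') := by
  have hb1 := H.one
  have hb0 : 0 ≤ β := by linarith
  have hba : hf σ J b a = 0 := by rw [H.F.herm a b, hab, map_zero, mul_zero]
  set D := hf σ J x a * hf σ J x' b - hf σ J x b * hf σ J x' a with hDd
  have hD0 : D ≠ 0 := norm_pos_iff.1 (hd.trans_le hD)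
  set u3 : n → k := σ (hf σ J x' b / D) • a - σ (hf σ J x' a / D) • b with hu3
  set u2 : n → k := σ (hf σ J x a / D) • b - σ (hf σ J x b / D) • a with hu2
  set ω : k := σ (hf σ J x x') with hω
  have e03 : hf σ J x u3 = 1 := by
    rw [hu3, hf_sub_right, hf_smul_right, hf_smul_right, H.F.inv, H.F.inv]
    rw [div_mul_eq_mul_div, div_mul_eq_mul_div, ← sub_div, div_eq_one_iff_eq hD0, hDd]
    try ring
  have e13 : hf σ J x' u3 = 0 := by
    rw [hu3, hf_sub_right, hf_smul_right, hf_smul_right, H.F.inv, H.F.inv]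
    ring
  have e02 : hf σ J x u2 = 0 := by
    rw [hu2, hf_sub_right, hf_smul_right, hf_smul_right, H.F.inv, H.F.inv]
    ring
  have e12 : hf σ J x' u2 = 1 := by
    rw [hu2, hf_sub_right, hf_smul_right, hf_smul_right, H.F.inv, H.F.inv]
    rw [div_mul_eq_mul_div, div_mul_eq_mul_div, ← sub_div, div_eq_one_iff_eq hD0, hDd]
    try ring
  have z33 : hf σ J u3 u3 = 0 := by
    simp only [hu3, hf_sub_right, hf_sub_left, hf_smul_right, hf_smul_left]
    rw [haa, hab, hba, hbb]; ring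
  have z32 : hf σ J u3 u2 = 0 := by
    simp only [hu3, hu2, hf_sub_right, hf_sub_left, hf_smul_right, hf_smul_left]
    rw [haa, hab, hba, hbb]; ring
  have z23 : hf σ J u2 u3 = 0 := by
    simp only [hu3, hu2, hf_sub_right, hf_sub_left, hf_smul_right, hf_smul_left]
    rw [haa, hab, hba, hbb]; ring
  have z22 : hf σ J u2 u2 = 0 := by
    simp only [hu2, hf_sub_right, hf_sub_left, hf_smul_right, hf_smul_left]
    rw [haa, hab, hba, hbb]; ring
  have z31 : hf σ J u3 x' = 0 := by rw [H.F.herm x' u3, e13, map_zero, mul_zero]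
  have cf : ∀ y v : n → k, ‖y‖ ≤ 2 → ‖v‖ ≤ A → ‖σ (hf σ J y v / D)‖ ≤ β * (2 * A) / d := by
    intro y v hy hv
    rw [H.sg, norm_div]
    refine div_le_div₀ (by positivity) ?_ hd hD
    exact (H.le y v).trans (mul_le_mul_of_nonneg_left
      (mul_le_mul hy hv (norm_nonneg _) (by norm_num)) hb0)
  have sm : ∀ (y v w : n → k), ‖y‖ ≤ 2 → ‖v‖ ≤ A → ‖w‖ ≤ A →
      ‖σ (hf σ J y v / D) • w‖ ≤ β * (2 * A) / d * A := by
    intro y v w hy hv hw
    rw [norm_smul]
    exact mul_le_mul (cf y v hy hv) hw (norm_nonneg _) (by positivity)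
  have n3 : ‖u3‖ ≤ β * (4 * A * A) / d := by
    refine (norm_sub_le _ _).trans ?_
    have h1 := sm x' b a hx' hb ha
    have h2 := sm x' a b hx' ha hb
    have e : β * (4 * A * A) / d = β * (2 * A) / d * A + β * (2 * A) / d * A := by ring
    linarith
  have n2 : ‖u2‖ ≤ β * (4 * A * A) / d := by
    refine (norm_sub_le _ _).trans ?_
    have h1 := sm x a b hx ha hb
    have h2 := sm x b a hx hb ha
    have e : β * (4 * A * A) / d = β * (2 * A) / d * A + β * (2 * A) / d * A := by ring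
    linarith
  have nω : ‖ω‖ ≤ β * (2 * 2) := by
    rw [hω, H.sg]
    exact (H.le x x').trans (mul_le_mul_of_nonneg_left
      (mul_le_mul hx hx' (norm_nonneg _) (by norm_num)) hb0)
  refine ⟨x' - ω • u3, u2, u3, ω, ?_, by module, ?_, n2, n3, rfl⟩
  · refine ⟨hxx, ?_, z22, z33, ?_, e02, e03, ?_, ?_, z23⟩
    · simp only [hf_sub_right, hf_sub_left, hf_smul_right, hf_smul_left]
      rw [hxx', e13, z31, z33]; ring
    · rw [hf_sub_right, hf_smul_right, e03, hω, H.F.inv]; ring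
    · rw [hf_sub_left, hf_smul_left, e12, z32]; ring
    · rw [hf_sub_left, hf_smul_left, e13, z33]; ring
  · refine (norm_sub_le _ _).trans (add_le_add hx' ?_)
    rw [norm_smul]
    exact mul_le_mul nω n3 (norm_nonneg _) (by positivity)

omit [DecidableEq n] in
theorem mulVec_le {κ : Matrix n n k} {C : ℝ} (hC : 0 ≤ C) (h : ∀ a b, ‖κ a b‖ ≤ C) (x : n → k) :
    ‖κ *ᵥ x‖ ≤ Fintype.card n * C * ‖x‖ := by
  rw [pi_norm_le_iff_of_nonneg (by positivity)]
  intro i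
  simp only [mulVec, dotProduct]
  calc ‖∑ j, κ i j * x j‖ ≤ ∑ j : n, C * ‖x‖ := by
        refine (norm_sum_le _ _).trans (Finset.sum_le_sum fun j _ => ?_)
        rw [norm_mul]
        exact mul_le_mul (h i j) (norm_le_pi_norm x j) (norm_nonneg _) hC
    _ = _ := by rw [Finset.sum_const, Finset.card_univ, nsmul_eq_mul]; ring

end fr

section wd

variable {ι : Type} [Fintype ι] [DecidableEq ι] {k : Type} [NontriviallyNormedField k]
  [ProperSpace k] {σ : k →+* k} {ε : k} {J₀ : Matrix ι ι k} {β : ℝ}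

/-- **the complements of the bounded frames are uniformly anisotropic** -/
theorem exists_wd (hF : Frm σ ε (hyp 2 ε J₀)) (hσ : Continuous σ)
    (han : ∀ w, hf σ J₀ w w = 0 → w = 0) (H : HB σ ε (hyp 2 ε J₀) β) {U : ℝ} (hU : 1 ≤ U) :
    ∃ c : ℝ, 0 < c ∧ ∀ u0 u1 u2 u3 : Idx 2 ι → k, Fq σ (hyp 2 ε J₀) u0 u1 u2 u3 →
      ‖u0‖ ≤ U → ‖u1‖ ≤ U → ‖u2‖ ≤ U → ‖u3‖ ≤ U → Wd σ (hyp 2 ε J₀) c u0 u1 u2 u3 := by
  have hb1 := H.one
  have hb0 : 0 ≤ β := by linarith
  obtain ⟨c₀, hc₀, hcw⟩ := Fr.aniso_bd hσ H.sg han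
  obtain ⟨C, hC0, hC⟩ := Fr.exists_frame_max (ι := ι) (J₀ := J₀) hF hσ
  set N : ℝ := ((Fintype.card (Idx 2 ι) : ℕ) : ℝ) with hN
  have hN0 : 0 ≤ N := Nat.cast_nonneg _
  set M : ℝ := (1 + 2 * (β * U * U)) * (N * C) + 1 with hM
  have hM0 : 0 < M := by positivity
  refine ⟨c₀ / M ^ 2, by positivity, ?_⟩
  intro u0 u1 u2 u3 hu b0 b1 b2 b3 f g0 g1 g2 g3
  -- the plane
  have hu0 : u0 ≠ 0 := by
    intro h
    have := hu.h03
    rw [h, hf_zero_left] at this
    exact zero_ne_one this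
  have s0 : Sing σ (hyp 2 ε J₀) (Submodule.span k {u0}) := by
    intro x hx y hy
    obtain ⟨a, rfl⟩ := Submodule.mem_span_singleton.1 hx
    obtain ⟨b, rfl⟩ := Submodule.mem_span_singleton.1 hy
    rw [hf_smul_left, hf_smul_right, hu.h00, mul_zero, mul_zero]
  have s1 : Sing σ (hyp 2 ε J₀) (Submodule.span k {u0} ⊔ Submodule.span k {u1}) := by
    refine sing_sup_span hF s0 hu.h11 ?_
    intro x hx
    obtain ⟨a, rfl⟩ := Submodule.mem_span_singleton.1 hx
    rw [hf_smul_left, hu.h01, mul_zero]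
  have h1m : u1 ∉ Submodule.span k {u0} := by
    intro h
    obtain ⟨a, rfl⟩ := Submodule.mem_span_singleton.1 h
    have := hu.h12
    rw [hf_smul_left, hu.h02, mul_zero] at this
    exact zero_ne_one this
  have fr : finrank k ↥(Submodule.span k {u0} ⊔ Submodule.span k {u1}) = 2 := by
    rw [finrank_sup_span h1m, finrank_span_singleton hu0]
  obtain ⟨κ, κ', k1, k2, -, -, k5, k6, k7, k8, k9, k10⟩ := hC (SGr.mk' _ s1 fr)
  have hmem : ∀ z ∈ (SGr.mk' (σ := σ) _ s1 fr).S, ∃ a b : k, z = a • u0 + b • u1 := by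
    intro z hz
    rw [SGr.mk'_S] at hz
    obtain ⟨z1, hz1, z2, hz2, rfl⟩ := Submodule.mem_sup.1 hz
    obtain ⟨a, rfl⟩ := Submodule.mem_span_singleton.1 hz1
    obtain ⟨b, rfl⟩ := Submodule.mem_span_singleton.1 hz2
    exact ⟨a, b, rfl⟩
  -- the coordinates of f
  have hR : ∀ b : Fin 2, (κ *ᵥ f) (.inl (.inr b)) = 0 := by
    intro b
    have h1 : κ' *ᵥ (Pi.single (.inl (.inl b)) 1 : Idx 2 ι → k) ∈
        (SGr.mk' (σ := σ) _ s1 fr).S := by
      refine k10 _ ⟨fun a => ?_, fun w => ?_⟩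
      · exact Pi.single_eq_of_ne (by simp) _
      · exact Pi.single_eq_of_ne (by simp) _
    obtain ⟨α, γ, h2⟩ := hmem _ h1
    have h3 : hf σ (hyp 2 ε J₀) f (κ' *ᵥ (Pi.single (.inl (.inl b)) 1 : Idx 2 ι → k)) = 0 := by
      rw [h2, hf_add_right, hf_smul_right, hf_smul_right, g0, g1]; ring
    rw [← k7, mulVec_mulVec, k2, one_mulVec, H631.P2.hf_eL] at h3
    have he : ε ≠ 0 := by
      intro h; have := H.F.eps; rw [h, mul_zero] at this; exact zero_ne_one this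
    exact (mul_eq_zero.1 h3).resolve_right he
  set g := κ *ᵥ f with hg
  set gw : Idx 2 ι → k := fun i => Sum.elim (fun _ => 0) (fun w => g (.inr w)) i with hgw
  set w : ι → k := fun w => g (.inr w) with hw
  have hff : hf σ (hyp 2 ε J₀) f f = hf σ J₀ w w := by
    rw [← k7, Fr.hf_hyp]
    rw [Finset.sum_eq_zero (fun b _ => by rw [← hg, hR b, map_zero, mul_zero]),
      Finset.sum_eq_zero (fun b _ => by rw [← hg, hR b, zero_mul])]
    rw [zero_add, zero_add]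
  have hgwn : ‖gw‖ ≤ ‖w‖ := by
    rw [pi_norm_le_iff_of_nonneg (norm_nonneg _)]
    intro i
    rcases i with i | i
    · change ‖(0 : k)‖ ≤ _
      rw [norm_zero]; exact norm_nonneg _
    · exact norm_le_pi_norm w i
  set f2 := κ' *ᵥ gw with hf2
  have n2 : ‖f2‖ ≤ N * C * ‖w‖ :=
    (mulVec_le hC0.le k6 gw).trans (mul_le_mul_of_nonneg_left hgwn (by positivity))
  have hf1 : f - f2 ∈ (SGr.mk' (σ := σ) _ s1 fr).S := by
    have e : f - f2 = κ' *ᵥ (g - gw) := by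
      rw [mulVec_sub, ← hf2, hg, mulVec_mulVec, k1, one_mulVec]
    rw [e]
    refine k10 _ ⟨fun a => ?_, fun w => ?_⟩
    · rw [Pi.sub_apply, hR a]
      change (0 : k) - 0 = 0
      rw [sub_zero]
    · rw [Pi.sub_apply]
      exact sub_self _
  obtain ⟨α, γ, h1⟩ := hmem _ hf1
  have eα : α = -hf σ (hyp 2 ε J₀) f2 u3 := by
    have : hf σ (hyp 2 ε J₀) (f - f2) u3 = α := by
      rw [h1, hf_add_left, hf_smul_left, hf_smul_left, hu.h03, hu.h13]; ring
    rw [← this, hf_sub_left, g3]; ring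
  have eγ : γ = -hf σ (hyp 2 ε J₀) f2 u2 := by
    have : hf σ (hyp 2 ε J₀) (f - f2) u2 = γ := by
      rw [h1, hf_add_left, hf_smul_left, hf_smul_left, hu.h02, hu.h12]; ring
    rw [← this, hf_sub_left, g2]; ring
  have nα : ‖α‖ ≤ β * (‖f2‖ * U) := by
    rw [eα, norm_neg]
    exact (H.le _ _).trans (mul_le_mul_of_nonneg_left
      (mul_le_mul_of_nonneg_left b3 (norm_nonneg _)) hb0)
  have nγ : ‖γ‖ ≤ β * (‖f2‖ * U) := by
    rw [eγ, norm_neg]
    exact (H.le _ _).trans (mul_le_mul_of_nonneg_left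
      (mul_le_mul_of_nonneg_left b2 (norm_nonneg _)) hb0)
  have nf : ‖f‖ ≤ M * ‖w‖ := by
    have e : f = f2 + (α • u0 + γ • u1) := by rw [← h1]; module
    have hU0 : 0 ≤ U := by linarith
    calc ‖f‖ = ‖f2 + (α • u0 + γ • u1)‖ := by rw [← e]
      _ ≤ ‖f2‖ + (‖α‖ * ‖u0‖ + ‖γ‖ * ‖u1‖) := by
          refine (norm_add_le _ _).trans (add_le_add le_rfl ?_)
          refine (norm_add_le _ _).trans ?_
          rw [norm_smul, norm_smul]
      _ ≤ ‖f2‖ + (β * (‖f2‖ * U) * U + β * (‖f2‖ * U) * U) := by gcongr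
      _ = (1 + 2 * (β * U * U)) * ‖f2‖ := by ring
      _ ≤ (1 + 2 * (β * U * U)) * (N * C * ‖w‖) := mul_le_mul_of_nonneg_left n2 (by positivity)
      _ ≤ M * ‖w‖ := by
          have := norm_nonneg w
          rw [hM]; nlinarith
  rw [hff]
  refine le_trans ?_ (hcw w)
  have h5 : ‖f‖ ^ 2 ≤ (M * ‖w‖) ^ 2 := pow_le_pow_left₀ (norm_nonneg _) nf 2
  calc c₀ / M ^ 2 * ‖f‖ ^ 2 ≤ c₀ / M ^ 2 * (M * ‖w‖) ^ 2 :=
        mul_le_mul_of_nonneg_left h5 (by positivity)
    _ = c₀ * ‖w‖ ^ 2 := by field_simp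

end wd

end Vale.Agent.P092.H337.HA
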