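import Vale.Agent.P092.H337.HA3

/-!
P092 (helper337), TRACK H, row [H-CNT], part 4: the parameters of the members.
-/

set_option linter.all false

open Matrix Module Set Topology Filter

namespace Vale.Agent.P092.H337.HA

open Vale.Agent.P092.H303 (FormGroup Idx hyp)
open Vale.Agent.P092.H714.Cl
open Vale.Agent.P092.H370.Po
open Vale.Agent.P092.H337

/-- planes in general position to the pairs of points, with a bound -/
def PlS {n : Type} [Fintype n] [DecidableEq n] {k : Type} [NontriviallyNormedField k]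
    (σ : k →+* k) (J : Matrix n n k) (δ : ℝ) : Prop :=
  ∃ A d : ℝ, 0 < d ∧ ∀ x x' : n → k, ‖x‖ ≤ 2 → ‖x'‖ ≤ 2 → hf σ J x x = 0 → hf σ J x' x' = 0 →
    (∃ a b, δ ≤ ‖x a * x' b - x b * x' a‖) →
    ∃ a b : n → k, hf σ J a a = 0 ∧ hf σ J b b = 0 ∧ hf σ J a b = 0 ∧ ‖a‖ ≤ A ∧ ‖b‖ ≤ A ∧
      d ≤ ‖hf σ J x a * hf σ J x' b - hf σ J x b * hf σ J x' a‖

section

variable {ι : Type} [Fintype ι] [DecidableEq ι] {k : Type} [NontriviallyNormedField k]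
  [ProperSpace k] {σ : k →+* k} {ε : k} {J₀ : Matrix ι ι k}

open Classical in
/-- **the parameters** -/
theorem params_of (hF : Frm σ ε (hyp 2 ε J₀)) (hσ : Continuous σ)
    (han : ∀ w, hf σ J₀ w w = 0 → w = 0) {C δ : ℝ} (hC : 1 ≤ C) (hδ : 0 < δ)
    (hP : PlS σ (hyp 2 ε J₀) δ) :
    ∃ C' : ℝ, 1 ≤ C' ∧ ∀ x x' : Idx 2 ι → k, ‖x‖ ≤ 2 → ‖x'‖ ≤ 2 →
      hf σ (hyp 2 ε J₀) x x = 0 → hf σ (hyp 2 ε J₀) x' x' = 0 →
      (∃ a b, δ ≤ ‖mn x x' a b‖) →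
      ∃ (s : Matrix (Idx 2 ι) (Idx 2 ι) k → ℝ) (q : Matrix (Idx 2 ι) (Idx 2 ι) k → k),
        (∀ m, MemG σ (hyp 2 ε J₀) C x x' m → 0 < s m ∧ s m ≤ C' ∧
          ‖hf σ (hyp 2 ε J₀) x x'‖ ≤ C' * s m ∧
          ‖q m‖ * (‖hf σ (hyp 2 ε J₀) x x'‖ * s m) ≤ C') ∧
        ∀ m m' m'', MemG σ (hyp 2 ε J₀) C x x' m → MemG σ (hyp 2 ε J₀) C x x' m' →
          m'' * m = m' → s m ≤ 2 * s m' → s m' ≤ 2 * s m →
          ‖q m' - q m‖ * (s m * s m') ≤ 1 → ∀ i j, ‖m'' i j‖ ≤ C' := by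
  obtain ⟨β, H⟩ := exists_hb hF hσ
  have hb1 := H.one
  have hb0 : 0 ≤ β := by linarith
  obtain ⟨A, d, hd, hpl⟩ := hP
  set A' : ℝ := |A| with hA'
  have hA0 : 0 ≤ A' := abs_nonneg _
  set U : ℝ := 2 + (β * (2 * 2)) * (β * (4 * A' * A') / d) + β * (4 * A' * A') / d with hU
  have p1 : 0 ≤ β * (4 * A' * A') / d := by positivity
  have p2 : 0 ≤ (β * (2 * 2)) * (β * (4 * A' * A') / d) := by positivity
  have hU1 : 1 ≤ U := by linarith
  obtain ⟨C1, hC1, hcore⟩ := core H hC hU1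
  obtain ⟨c, hc, hwd⟩ := exists_wd hF hσ han H hU1
  obtain ⟨C2, hC2, hquo⟩ := quo H hC1 hc
  refine ⟨C + C1 + C2, by linarith, ?_⟩
  intro x x' hx hx' hxx hxx' hab
  obtain ⟨a, b, haa, hbb, hab', ha, hb, hD⟩ := hpl x x' hx hx' hxx hxx' hab
  obtain ⟨u1, u2, u3, ω, hu, hxu, n1, n2, n3, hω⟩ := frame_of H hA0 hd hx hx' hxx hxx' haa hbb
    hab' (ha.trans (le_abs_self A)) (hb.trans (le_abs_self A)) hD
  have hωn : ‖hf σ (hyp 2 ε J₀) x x'‖ = ‖ω‖ := by rw [hω, H.sg]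
  have n1' : ‖u1‖ ≤ U := by linarith
  have n2' : ‖u2‖ ≤ U := by linarith
  have n3' : ‖u3‖ ≤ U := by linarith
  have hmem : ∀ m, MemG σ (hyp 2 ε J₀) C x x' m → ∃ q : k,
      NF σ ε C1 (m *ᵥ x) (m *ᵥ u1) (m *ᵥ u2) (m *ᵥ u3) ω q := by
    intro m hm
    rw [hxu] at hm
    exact hcore x u1 u2 u3 ω m hu n1' n2' n3' hm
  have hW := hwd x u1 u2 u3 hu (by linarith) n1' n2' n3'
  refine ⟨fun m => ‖m *ᵥ x‖, fun m => if h : MemG σ (hyp 2 ε J₀) C x x' m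
    then (hmem m h).choose else 0, ?_, ?_⟩
  · intro m hm
    have hq := (hmem m hm).choose_spec
    have hpos : 0 < ‖m *ᵥ x‖ := by
      rw [norm_pos_iff]
      intro h
      have := (hu.map hm.iso).h03
      rw [h, hf_zero_left] at this
      exact zero_ne_one this
    simp only [dif_pos hm]
    refine ⟨hpos, hm.c1.trans (by linarith), ?_, ?_⟩
    · rw [hωn]
      exact hq.w.trans (mul_le_mul_of_nonneg_right (by linarith) hpos.le)
    · rw [hωn]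
      exact hq.qw.trans (by linarith)
  · intro m m' m'' hm hm' hmm hs1 hs2 hqq i j
    have hq := (hmem m hm).choose_spec
    have hq' := (hmem m' hm').choose_spec
    simp only [dif_pos hm, dif_pos hm'] at hqq
    have h1 := hquo x u1 u2 u3 ω _ _ m m' m'' hu hW hm.iso hm'.iso hq hq' hmm hs1 hs2 hqq
      (Pi.single j 1)
    have h2 : ‖m'' i j‖ ≤ ‖m'' *ᵥ (Pi.single j 1 : Idx 2 ι → k)‖ := by
      have h3 := norm_le_pi_norm (m'' *ᵥ (Pi.single j 1 : Idx 2 ι → k)) i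
      have e : (m'' *ᵥ (Pi.single j 1 : Idx 2 ι → k)) i = m'' i j := by
        rw [mulVec_single_one]; rfl
      rwa [e] at h3
    have h4 := single_le (k := k) j
    have h5 : C2 * ‖(Pi.single j 1 : Idx 2 ι → k)‖ ≤ C2 * 1 :=
      mul_le_mul_of_nonneg_left h4 (by linarith)
    linarith

end

end Vale.Agent.P092.H337.HA
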