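import Vale.Agent.P092.H337.HA4

/-!
P092 (helper337), TRACK H, row [H-CNT], part 5: planes in general position to the pairs of points
of `hyp 2 ε J₀`, and `params`.
-/

set_option linter.all false

open Matrix Module Set Topology Filter

namespace Vale.Agent.P092.H337.HA

open Vale.Agent.P092.H303 (FormGroup Idx hyp)
open Vale.Agent.P092.H714.Cl
open Vale.Agent.P092.H370.Po
open Vale.Agent.P092.H337

section

variable {ι : Type} [Fintype ι] [DecidableEq ι] {k : Type} [NontriviallyNormedField k]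
  [ProperSpace k] {σ : k →+* k} {ε : k} {J₀ : Matrix ι ι k} {β : ℝ}

/-- the unit vectors -/
def e1 (k : Type) [NontriviallyNormedField k] {ι : Type} [DecidableEq ι] (i : Idx 2 ι) :
    Idx 2 ι → k := Pi.single i 1

/-- a good pair for the point `e_1` -/
structure Gd (σ : k →+* k) (ε : k) (J₀ : Matrix ι ι k) (A : ℝ) (a b : Idx 2 ι → k) : Prop where
  aa : hf σ (hyp 2 ε J₀) a a = 0
  bb : hf σ (hyp 2 ε J₀) b b = 0
  ab : hf σ (hyp 2 ε J₀) a b = 0
  na : ‖a‖ ≤ A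
  nb : ‖b‖ ≤ A
  ea : hf σ (hyp 2 ε J₀) (e1 k (.inl (.inl 0))) a = 1
  eb : hf σ (hyp 2 ε J₀) (e1 k (.inl (.inl 0))) b = 0

theorem lin (H : HB σ ε (hyp 2 ε J₀) β) : ∃ A C : ℝ, 0 ≤ A ∧ 0 ≤ C ∧
    ∀ (y : Idx 2 ι → k) (G : ℝ), (∀ a b, Gd σ ε J₀ A a b → ‖hf σ (hyp 2 ε J₀) y b‖ ≤ G) →
      ∀ i, i ≠ .inl (.inl 0) → ‖y i‖ ≤ C * G := by
  have hb1 := H.one
  have hb0 : 0 ≤ β := by linarith
  have htv := fun w : ι => H.F.tv (e1 k (.inr w))
  choose t ht using htv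
  set T : ℝ := ∑ w, ‖t w‖ with hT
  have hT0 : 0 ≤ T := Finset.sum_nonneg fun _ _ => norm_nonneg _
  have hTw : ∀ w, ‖t w‖ ≤ T := fun w =>
    Finset.single_le_sum (f := fun w => ‖t w‖) (fun _ _ => norm_nonneg _) (Finset.mem_univ w)
  have vL : ∀ (x : Idx 2 ι → k) (i : Fin 2), hf σ (hyp 2 ε J₀) x (e1 k (.inl (.inl i))) =
      x (.inl (.inr i)) * ε := fun x i => H631.P2.hf_eL x i
  have vR : ∀ (x : Idx 2 ι → k) (i : Fin 2), hf σ (hyp 2 ε J₀) x (e1 k (.inl (.inr i))) =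
      x (.inl (.inl i)) := fun x i => H631.P2.hf_eR x i
  have vs : ∀ i j : Idx 2 ι, i ≠ j → (e1 k i) j = 0 := fun i j h =>
    Pi.single_eq_of_ne h.symm _
  have vd : ∀ i : Idx 2 ι, (e1 k i) i = 1 := fun i => Pi.single_eq_same _ _
  have wL : ∀ (w : ι) (i : Fin 2),
      hf σ (hyp 2 ε J₀) (e1 k (.inl (.inl i))) (e1 k (.inr w)) = 0 := by
    intro w i
    rw [H.F.herm (e1 k (.inr w)) (e1 k (.inl (.inl i))), vL, vs _ _ (by simp)]
    simp
  have wR : ∀ (w : ι) (i : Fin 2),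
      hf σ (hyp 2 ε J₀) (e1 k (.inl (.inr i))) (e1 k (.inr w)) = 0 := by
    intro w i
    rw [H.F.herm (e1 k (.inr w)) (e1 k (.inl (.inr i))), vR, vs _ _ (by simp)]
    simp
  have n1 : ∀ i : Idx 2 ι, ‖e1 k i‖ ≤ 1 := fun i => single_le i
  refine ⟨2 + T, β * (2 + T), by positivity, by positivity, ?_⟩
  intro y G hG i hi
  have g1 : ‖hf σ (hyp 2 ε J₀) y (e1 k (.inl (.inl 1)))‖ ≤ G := by
    refine hG (e1 k (.inl (.inr 0))) _ ⟨?_, ?_, ?_, ?_, ?_, ?_, ?_⟩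
    · rw [vR, vs _ _ (by simp)]
    · rw [vL, vs _ _ (by simp), zero_mul]
    · rw [vL, vs _ _ (by simp), zero_mul]
    · exact (n1 _).trans (by linarith)
    · exact (n1 _).trans (by linarith)
    · rw [vR, vd]
    · rw [vL, vs _ _ (by simp), zero_mul]
  have g2 : ‖hf σ (hyp 2 ε J₀) y (e1 k (.inl (.inr 1)))‖ ≤ G := by
    refine hG (e1 k (.inl (.inr 0))) _ ⟨?_, ?_, ?_, ?_, ?_, ?_, ?_⟩
    · rw [vR, vs _ _ (by simp)]
    · rw [vR, vs _ _ (by simp)]
    · rw [vR, vs _ _ (by simp)]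
    · exact (n1 _).trans (by linarith)
    · exact (n1 _).trans (by linarith)
    · rw [vR, vd]
    · rw [vR, vs _ _ (by simp)]
  have g3 : ‖hf σ (hyp 2 ε J₀) y (e1 k (.inl (.inl 0)) + e1 k (.inl (.inl 1)))‖ ≤ G := by
    refine hG (e1 k (.inl (.inr 0)) - e1 k (.inl (.inr 1))) _ ⟨?_, ?_, ?_, ?_, ?_, ?_, ?_⟩
    · simp only [hf_sub_left, hf_sub_right, vR, Pi.sub_apply]
      simp [e1]
    · simp only [hf_add_left, hf_add_right, vL, Pi.add_apply]
      simp [e1]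
    · simp only [hf_add_right, hf_sub_left, vL, Pi.sub_apply]
      simp [e1]
    · refine (norm_sub_le _ _).trans ?_
      have := n1 (.inl (.inr 0)); have := n1 (.inl (.inr 1)); linarith
    · refine (norm_add_le _ _).trans ?_
      have := n1 (.inl (.inl 0)); have := n1 (.inl (.inl 1)); linarith
    · simp only [hf_sub_right, vR]
      simp [e1]
    · simp only [hf_add_right, vL]
      simp [e1]
  have g4 : ∀ w, ‖hf σ (hyp 2 ε J₀) y
      (e1 k (.inr w) + (-t w) • e1 k (.inl (.inl 1)) + e1 k (.inl (.inr 1)))‖ ≤ G := by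
    intro w
    refine hG (e1 k (.inl (.inr 0))) _ ⟨?_, ?_, ?_, ?_, ?_, ?_, ?_⟩
    · rw [vR, vs _ _ (by simp)]
    · simp only [hf_add_left, hf_add_right, hf_smul_left, hf_smul_right, vL, vR, wL, wR]
      simp only [Pi.add_apply, Pi.smul_apply, smul_eq_mul, ht, map_neg]
      have q1 : (e1 k (.inr w) : Idx 2 ι → k) (.inl (.inr 1)) = 0 := vs _ _ (by simp)
      have q2 : (e1 k (.inl (.inl 1)) : Idx 2 ι → k) (.inl (.inr 1)) = 0 := vs _ _ (by simp)
      have q3 : (e1 k (.inl (.inr 1)) : Idx 2 ι → k) (.inl (.inr 1)) = 1 := vd _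
      have q4 : (e1 k (.inr w) : Idx 2 ι → k) (.inl (.inl 1)) = 0 := vs _ _ (by simp)
      have q5 : (e1 k (.inl (.inl 1)) : Idx 2 ι → k) (.inl (.inl 1)) = 1 := vd _
      have q6 : (e1 k (.inl (.inr 1)) : Idx 2 ι → k) (.inl (.inl 1)) = 0 := vs _ _ (by simp)
      rw [q1, q2, q3, q4, q5, q6]
      ring
    · simp only [hf_add_right, hf_smul_right, vL, vR, wR]
      rw [vs _ _ (by simp), vs _ _ (by simp)]
      ring
    · exact (n1 _).trans (by linarith)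
    · refine (norm_add_le _ _).trans ?_
      have h1 := norm_add_le (e1 k (.inr w)) ((-t w) • e1 k (.inl (.inl 1)))
      have h2 : ‖(-t w) • (e1 k (.inl (.inl 1)) : Idx 2 ι → k)‖ ≤ T := by
        rw [norm_smul, norm_neg]
        have := n1 (.inl (.inl 1))
        have := hTw w
        nlinarith [norm_nonneg (t w), norm_nonneg (e1 k (.inl (.inl 1)) : Idx 2 ι → k)]
      have := n1 (.inr w); have := n1 (.inl (.inr 1)); linarith
    · rw [vR, vd]
    · simp only [hf_add_right, hf_smul_right, vL, vR, wL]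
      rw [vs _ _ (by simp), vs _ _ (by simp)]
      ring
  have hG0 : 0 ≤ G := (norm_nonneg _).trans g1
  set v : Idx 2 ι → k := y - y (.inl (.inl 0)) • e1 k (.inl (.inl 0)) with hv
  have hvn : ‖v‖ ≤ β * ((2 + T) * G) := by
    refine H.nd' v _ (by positivity) fun j => ?_
    change ‖hf σ (hyp 2 ε J₀) v (e1 k j)‖ ≤ _
    have e : hf σ (hyp 2 ε J₀) v (e1 k j) = hf σ (hyp 2 ε J₀) y (e1 k j) -
        y (.inl (.inl 0)) * hf σ (hyp 2 ε J₀) (e1 k (.inl (.inl 0))) (e1 k j) := by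
      rw [hv, hf_sub_left, hf_smul_left]
    have hTG : 0 ≤ T * G := mul_nonneg hT0 hG0
    rcases j with (j | j) | w
    · have e0 : hf σ (hyp 2 ε J₀) (e1 k (.inl (.inl 0))) (e1 k (.inl (.inl j))) = 0 := by
        rw [vL, vs _ _ (by simp), zero_mul]
      rw [e, e0, mul_zero, sub_zero]
      fin_cases j
      · have e5 : hf σ (hyp 2 ε J₀) y (e1 k (.inl (.inl 0))) =
            hf σ (hyp 2 ε J₀) y (e1 k (.inl (.inl 0)) + e1 k (.inl (.inl 1))) -
              hf σ (hyp 2 ε J₀) y (e1 k (.inl (.inl 1))) := by rw [hf_add_right]; ring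
        change ‖hf σ (hyp 2 ε J₀) y (e1 k (.inl (.inl 0)))‖ ≤ _
        rw [e5]
        refine (norm_sub_le _ _).trans ?_
        nlinarith
      · change ‖hf σ (hyp 2 ε J₀) y (e1 k (.inl (.inl 1)))‖ ≤ _
        nlinarith
    · fin_cases j
      · change ‖hf σ (hyp 2 ε J₀) v (e1 k (.inl (.inr 0)))‖ ≤ _
        change hf σ (hyp 2 ε J₀) v (e1 k (.inl (.inr 0))) =
          hf σ (hyp 2 ε J₀) y (e1 k (.inl (.inr 0))) - y (.inl (.inl 0)) *
          hf σ (hyp 2 ε J₀) (e1 k (.inl (.inl 0))) (e1 k (.inl (.inr 0))) at e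
        rw [e, vR, vR, vd, mul_one, sub_self, norm_zero]
        positivity
      · change ‖hf σ (hyp 2 ε J₀) v (e1 k (.inl (.inr 1)))‖ ≤ _
        change hf σ (hyp 2 ε J₀) v (e1 k (.inl (.inr 1))) =
          hf σ (hyp 2 ε J₀) y (e1 k (.inl (.inr 1))) - y (.inl (.inl 0)) *
          hf σ (hyp 2 ε J₀) (e1 k (.inl (.inl 0))) (e1 k (.inl (.inr 1))) at e
        rw [e, vR (e1 k _), vs _ _ (by simp), mul_zero, sub_zero]
        nlinarith
    · rw [e, wL, mul_zero, sub_zero]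
      have e5 : hf σ (hyp 2 ε J₀) y (e1 k (.inr w)) =
          hf σ (hyp 2 ε J₀) y
            (e1 k (.inr w) + (-t w) • e1 k (.inl (.inl 1)) + e1 k (.inl (.inr 1))) +
          σ (t w) * hf σ (hyp 2 ε J₀) y (e1 k (.inl (.inl 1))) -
          hf σ (hyp 2 ε J₀) y (e1 k (.inl (.inr 1))) := by
        rw [hf_add_right, hf_add_right, hf_smul_right, map_neg]; ring
      rw [e5]
      refine (norm_sub_le _ _).trans ?_
      refine (add_le_add (norm_add_le _ _) g2).trans ?_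
      rw [norm_mul, H.sg]
      have h6 : ‖t w‖ * ‖hf σ (hyp 2 ε J₀) y (e1 k (.inl (.inl 1)))‖ ≤ T * G :=
        mul_le_mul (hTw w) g1 (norm_nonneg _) hT0
      have h7 := g4 w
      nlinarith
  have e : y i = v i := by
    rw [hv, Pi.sub_apply, Pi.smul_apply, vs _ _ hi.symm, smul_zero, sub_zero]
  rw [e]
  refine (norm_le_pi_norm v i).trans (hvn.trans (le_of_eq (by ring)))

/-- **planes in general position** -/
theorem planes (hF : Frm σ ε (hyp 2 ε J₀)) (hσ : Continuous σ) {δ : ℝ} (hδ : 0 < δ) :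
    PlS σ (hyp 2 ε J₀) δ := by
  obtain ⟨β, H⟩ := exists_hb hF hσ
  obtain ⟨A, C1, hA0, hC1, hlin⟩ := lin H
  obtain ⟨C, hC0, hC⟩ := Fr.exists_frame_std (ι := ι) (J₀ := J₀) hF hσ (show 1 ≤ 2 by norm_num)
  set N : ℝ := ((Fintype.card (Idx 2 ι) : ℕ) : ℝ) with hN
  have hN0 : 0 ≤ N := Nat.cast_nonneg _
  set M : ℝ := 2 * (C * C) * (N * C1) + 1 with hM
  have hM0 : 0 < M := by positivity
  refine ⟨N * C * A, δ / M / 2, by positivity, ?_⟩
  intro x x' hx hx' hxx hxx' ⟨a₀, b₀, hab⟩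
  by_contra hcon
  push Not at hcon
  have hx0 : x ≠ 0 := by
    rintro rfl
    simp at hab
    linarith
  have s0 : Sing σ (hyp 2 ε J₀) (Submodule.span k {x}) := by
    intro y hy z hz
    obtain ⟨a, rfl⟩ := Submodule.mem_span_singleton.1 hy
    obtain ⟨b, rfl⟩ := Submodule.mem_span_singleton.1 hz
    rw [hf_smul_left, hf_smul_right, hxx, mul_zero, mul_zero]
  obtain ⟨κ, κ', k1, k2, -, -, k5, k6, k7, k8, k9, k10⟩ :=
    hC (SGr.mk' _ s0 (finrank_span_singleton hx0))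
  have hxm : x ∈ (SGr.mk' (σ := σ) _ s0 (finrank_span_singleton hx0)).S := by
    rw [SGr.mk'_S]; exact Submodule.mem_span_singleton_self x
  have hκ := (k9 x).1 hxm
  set lam : k := (κ *ᵥ x) (.inl (.inl 0)) with hlam
  have e0 : κ *ᵥ x = lam • e1 k (.inl (.inl 0)) := by
    funext i
    by_cases hi : i = .inl (.inl 0)
    · subst hi
      rw [Pi.smul_apply, e1, Pi.single_eq_same, smul_eq_mul, mul_one]
    · have h1 : (κ *ᵥ x) i = 0 := by
        refine hκ i fun a h => hi ?_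
        rw [← h]
        have ha : a = 0 := Subsingleton.elim _ _
        rw [ha]
        rfl
      rw [h1, Pi.smul_apply, e1, Pi.single_eq_of_ne hi, smul_zero]
  have hlam0 : lam ≠ 0 := by
    intro h
    rw [h, zero_smul] at e0
    apply hx0
    have := congrArg (fun v => κ' *ᵥ v) e0
    simp only [mulVec_mulVec, k1, one_mulVec, mulVec_zero] at this
    exact this
  have hlp : 0 < ‖lam‖ := norm_pos_iff.2 hlam0
  set y := κ *ᵥ x' with hy
  have ex : x = κ' *ᵥ (lam • e1 k (.inl (.inl 0))) := by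
    rw [← e0, mulVec_mulVec, k1, one_mulVec]
  have ex' : x' = κ' *ᵥ y := by rw [hy, mulVec_mulVec, k1, one_mulVec]
  have isoL : ∀ u v, hf σ (hyp 2 ε J₀) u (κ' *ᵥ v) = hf σ (hyp 2 ε J₀) (κ *ᵥ u) v := by
    intro u v
    rw [← k7, mulVec_mulVec, k2, one_mulVec]
  have hall : ∀ a b, Gd σ ε J₀ A a b → ‖hf σ (hyp 2 ε J₀) y b‖ ≤ δ / M / 2 / ‖lam‖ := by
    intro a b h
    have h1 := hcon (κ' *ᵥ a) (κ' *ᵥ b) (by rw [k8]; exact h.aa) (by rw [k8]; exact h.bb)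
      (by rw [k8]; exact h.ab)
      ((mulVec_le hC0.le k6 a).trans (mul_le_mul_of_nonneg_left h.na (by positivity)))
      ((mulVec_le hC0.le k6 b).trans (mul_le_mul_of_nonneg_left h.nb (by positivity)))
    rw [isoL, isoL, isoL, isoL, e0, ← hy, hf_smul_left, hf_smul_left, h.ea, h.eb, mul_one,
      mul_zero, zero_mul, sub_zero, norm_mul] at h1
    rw [le_div_iff₀ hlp]
    linarith
  have hyi := hlin y _ hall
  -- the minors
  have hdiv : 0 ≤ δ / M / 2 / ‖lam‖ := by positivity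
  have hmn : ‖x a₀ * x' b₀ - x b₀ * x' a₀‖ ≤
      2 * (C * C) * (N * C1) * (δ / M / 2) := by
    have e2 : ∀ i, x i = lam * κ' i (.inl (.inl 0)) := by
      intro i
      rw [ex, mulVec_smul, e1, mulVec_single_one]
      rfl
    have e3 : x a₀ * x' b₀ - x b₀ * x' a₀ = ∑ c, lam *
        ((κ' a₀ (.inl (.inl 0)) * κ' b₀ c - κ' b₀ (.inl (.inl 0)) * κ' a₀ c) * y c) := by
      rw [e2 a₀, e2 b₀]
      have e4 : ∀ i, x' i = ∑ c, κ' i c * y c := fun i => congrFun ex' i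
      rw [e4, e4, Finset.mul_sum, Finset.mul_sum, ← Finset.sum_sub_distrib]
      refine Finset.sum_congr rfl fun c _ => ?_
      ring
    rw [e3]
    calc ‖∑ c, lam * ((κ' a₀ (.inl (.inl 0)) * κ' b₀ c - κ' b₀ (.inl (.inl 0)) * κ' a₀ c) * y c)‖
        ≤ ∑ c : Idx 2 ι, ‖lam‖ * (2 * (C * C) * (C1 * (δ / M / 2 / ‖lam‖))) := by
          refine (norm_sum_le _ _).trans (Finset.sum_le_sum fun c _ => ?_)
          rw [norm_mul, norm_mul]
          refine mul_le_mul_of_nonneg_left ?_ hlp.le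
          by_cases hc : c = .inl (.inl 0)
          · subst hc
            rw [mul_comm (κ' a₀ _), sub_self, norm_zero, zero_mul]
            positivity
          · refine mul_le_mul ?_ (hyi c hc) (norm_nonneg _) (by positivity)
            refine (norm_sub_le _ _).trans ?_
            rw [norm_mul, norm_mul]
            have h1 := mul_le_mul (k6 a₀ (.inl (.inl 0))) (k6 b₀ c) (norm_nonneg _) hC0.le
            have h2 := mul_le_mul (k6 b₀ (.inl (.inl 0))) (k6 a₀ c) (norm_nonneg _) hC0.le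
            linarith
      _ = 2 * (C * C) * (N * C1) * (δ / M / 2) := by
          rw [Finset.sum_const, Finset.card_univ, nsmul_eq_mul, ← hN]
          field_simp
  have h8 : 2 * (C * C) * (N * C1) ≤ M := by rw [hM]; linarith
  have h9 : 2 * (C * C) * (N * C1) * (δ / M / 2) ≤ M * (δ / M / 2) :=
    mul_le_mul_of_nonneg_right h8 (by positivity)
  have h10 : M * (δ / M / 2) = δ / 2 := by field_simp
  linarith

end

/-- the members over `ℂ` (the literal of #11295) -/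
structure Mem {n : Type} [Fintype n] [DecidableEq n] (J : Matrix n n ℂ) (C : ℝ) (x x' : n → ℂ)
    (m : Matrix n n ℂ) : Prop where
  iso : ∀ a b, hf (starRingEnd ℂ) J (m *ᵥ a) (m *ᵥ b) = hf (starRingEnd ℂ) J a b
  c1 : ‖m *ᵥ x‖ ≤ C
  c4 : ‖m *ᵥ x'‖ ≤ C
  c2 : ∀ v, hf (starRingEnd ℂ) J x v = 0 → ∀ i j, ‖mn (m *ᵥ x) (m *ᵥ v) i j‖ ≤ C * ‖v‖
  c3 : ∀ v, hf (starRingEnd ℂ) J x' v = 0 → ∀ i j, ‖mn (m *ᵥ x') (m *ᵥ v) i j‖ ≤ C * ‖v‖

theorem Mem.g {n : Type} [Fintype n] [DecidableEq n] {J : Matrix n n ℂ} {C : ℝ} {x x' : n → ℂ}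
    {m : Matrix n n ℂ} (h : Mem J C x x' m) : MemG (starRingEnd ℂ) J C x x' m :=
  ⟨h.iso, h.c1, h.c4, h.c2, h.c3⟩

/-- **the parameters**, over `ℂ` -/
theorem params {ι : Type} [Fintype ι] [DecidableEq ι] {ε : ℂ} {J₀ : Matrix ι ι ℂ}
    (hF : Frm (starRingEnd ℂ) ε (hyp (0 + 2) ε J₀))
    (han : ∀ w, hf (starRingEnd ℂ) J₀ w w = 0 → w = 0) {C δ : ℝ} (hC : 1 ≤ C) (hδ : 0 < δ)
    (hδ1 : δ ≤ 1) :
    ∃ C' : ℝ, 1 ≤ C' ∧ ∀ x x' : Idx (0 + 2) ι → ℂ, ‖x‖ ≤ 2 → ‖x'‖ ≤ 2 →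
      hf (starRingEnd ℂ) (hyp (0 + 2) ε J₀) x x = 0 →
      hf (starRingEnd ℂ) (hyp (0 + 2) ε J₀) x' x' = 0 →
      (∃ a b, δ ≤ ‖mn x x' a b‖) →
      ∃ (s : Matrix (Idx (0 + 2) ι) (Idx (0 + 2) ι) ℂ → ℝ)
        (q : Matrix (Idx (0 + 2) ι) (Idx (0 + 2) ι) ℂ → ℂ),
        (∀ m, Mem (hyp (0 + 2) ε J₀) C x x' m → 0 < s m ∧ s m ≤ C' ∧
          ‖hf (starRingEnd ℂ) (hyp (0 + 2) ε J₀) x x'‖ ≤ C' * s m ∧
          ‖q m‖ * (‖hf (starRingEnd ℂ) (hyp (0 + 2) ε J₀) x x'‖ * s m) ≤ C') ∧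
        ∀ m m' m'', Mem (hyp (0 + 2) ε J₀) C x x' m → Mem (hyp (0 + 2) ε J₀) C x x' m' →
          m'' * m = m' → s m ≤ 2 * s m' → s m' ≤ 2 * s m →
          ‖q m' - q m‖ * (s m * s m') ≤ 1 → ∀ i j, ‖m'' i j‖ ≤ C' := by
  have hσ : Continuous (starRingEnd ℂ) := Complex.continuous_conj
  obtain ⟨C', h1, h2⟩ := params_of (ι := ι) (J₀ := J₀) hF hσ han hC hδ (planes hF hσ hδ)
  refine ⟨C', h1, fun x x' hx hx' hxx hxx' hab => ?_⟩
  obtain ⟨s, q, h3, h4⟩ := h2 x x' hx hx' hxx hxx' hab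
  exact ⟨s, q, fun m hm => h3 m hm.g, fun m m' m'' hm hm' => h4 m m' m'' hm.g hm'.g⟩

end Vale.Agent.P092.H337.HA
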