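import Vale.Agent.P092.H337.NGb
import Vale.Agent.P092.H820.Pn

/-!
P092, Team N, block [N-GEOF] (helper337), part 3: attracting points of elements of `SL_n(k)` and
their stability.
-/

namespace Vale.Agent.P092.H337.NG

open Matrix Topology
open scoped LinearAlgebra.Projectivization
open Vale.Agent.P092.H820

variable {k : Type*} [NormedField k] {n : ℕ}

/-! ### The wedge of two vectors -/

theorem wd_le (v w : Fin n → k) : ‖wd v w‖ ≤ 2 * (‖v‖ * ‖w‖) := by
  rw [pi_norm_le_iff_of_nonneg (by positivity)]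
  intro p
  have h : ∀ i j : Fin n, ‖v i * w j‖ ≤ ‖v‖ * ‖w‖ := fun i j => by
    rw [norm_mul]
    exact mul_le_mul (norm_le_pi_norm v i) (norm_le_pi_norm w j) (norm_nonneg _) (norm_nonneg _)
  calc ‖wd v w p‖ = ‖v p.1 * w p.2 - v p.2 * w p.1‖ := rfl
    _ ≤ ‖v p.1 * w p.2‖ + ‖v p.2 * w p.1‖ := norm_sub_le _ _
    _ ≤ _ := by linarith [h p.1 p.2, h p.2 p.1]

theorem wd_entry_le (v w : Fin n → k) (i j : Fin n) : ‖v i * w j - v j * w i‖ ≤ ‖wd v w‖ :=
  norm_le_pi_norm (wd v w) (i, j)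

theorem wd_smul (a b : k) (v w : Fin n → k) : wd (a • v) (b • w) = (a * b) • wd v w := by
  funext p
  simp only [wd, Pi.smul_apply, smul_eq_mul]
  ring

/-- Adding a multiple of the second vector to the first. -/
theorem wd_add_smul (a : k) (e v : Fin n → k) : wd (a • v + e) v = wd e v := by
  funext p
  simp only [wd, Pi.smul_apply, Pi.add_apply, smul_eq_mul]
  ring

theorem wd_norm_comm (v w : Fin n → k) : ‖wd v w‖ = ‖wd w v‖ := by
  have : wd v w = -wd w v := by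
    funext p
    simp only [wd, Pi.neg_apply]
    ring
  rw [this, norm_neg]

/-- Three vectors in a space: if `w` is almost parallel to `v` and to `v'`, it is small. -/
theorem wd_three (w v v' : Fin n → k) :
    ‖w‖ * ‖wd v v'‖ ≤ 2 * (‖v'‖ * ‖wd w v‖) + ‖v‖ * ‖wd w v'‖ := by
  obtain ⟨C, hC⟩ : ∃ C, C = 2 * (‖v'‖ * ‖wd w v‖) + ‖v‖ * ‖wd w v'‖ := ⟨_, rfl⟩
  have hC0 : 0 ≤ C := by rw [hC]; positivity
  have key : ∀ i j l, ‖w i * (v j * v' l - v l * v' j)‖ ≤ C := by
    intro i j l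
    have e : w i * (v j * v' l - v l * v' j) = v' l * (w i * v j - w j * v i) +
        v i * (w j * v' l - w l * v' j) - v' j * (w i * v l - w l * v i) := by ring
    rw [e]
    have h1 : ‖v' l * (w i * v j - w j * v i)‖ ≤ ‖v'‖ * ‖wd w v‖ := by
      rw [norm_mul]
      exact mul_le_mul (norm_le_pi_norm v' l) (wd_entry_le w v i j) (norm_nonneg _)
        (norm_nonneg _)
    have h2 : ‖v i * (w j * v' l - w l * v' j)‖ ≤ ‖v‖ * ‖wd w v'‖ := by
      rw [norm_mul]
      exact mul_le_mul (norm_le_pi_norm v i) (wd_entry_le w v' j l) (norm_nonneg _)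
        (norm_nonneg _)
    have h3 : ‖v' j * (w i * v l - w l * v i)‖ ≤ ‖v'‖ * ‖wd w v‖ := by
      rw [norm_mul]
      exact mul_le_mul (norm_le_pi_norm v' j) (wd_entry_le w v i l) (norm_nonneg _)
        (norm_nonneg _)
    have h4 := norm_sub_le (v' l * (w i * v j - w j * v i) + v i * (w j * v' l - w l * v' j))
      (v' j * (w i * v l - w l * v i))
    have h5 := norm_add_le (v' l * (w i * v j - w j * v i)) (v i * (w j * v' l - w l * v' j))
    linarith
  rw [← hC]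
  rcases (norm_nonneg w).lt_or_eq with hw | hw
  · rw [← le_div_iff₀' hw, pi_norm_le_iff_of_nonneg (div_nonneg hC0 hw.le)]
    intro p
    rw [le_div_iff₀' hw]
    rcases (norm_nonneg (wd v v' p)).lt_or_eq with hp | hp
    · rw [← le_div_iff₀ hp, pi_norm_le_iff_of_nonneg (div_nonneg hC0 hp.le)]
      intro i
      rw [le_div_iff₀ hp, ← norm_mul]
      exact key i p.1 p.2
    · rw [← hp, mul_zero]; exact hC0
  · rw [← hw, zero_mul]; exact hC0

/-! ### Uniform continuity on the projective space -/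

theorem exists_norm_eq {v : Fin n → k} (hv : v ≠ 0) : ∃ i, ‖v i‖ = ‖v‖ := by
  by_contra hc
  push Not at hc
  have h1 : ‖v‖ < ‖v‖ := by
    rw [pi_norm_lt_iff (norm_pos_iff.mpr hv)]
    exact fun i => lt_of_le_of_ne (norm_le_pi_norm v i) (hc i)
  exact lt_irrefl _ h1

theorem uc_wd [ProperSpace k] {F : Type*} [PseudoMetricSpace F] {f : ℙ k (Fin n → k) → F}
    (hf : Continuous f) {ε : ℝ} (hε : 0 < ε) :
    ∃ δ : ℝ, 0 < δ ∧ ∀ (v w : Fin n → k) (hv : v ≠ 0) (hw : w ≠ 0),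
      ‖wd v w‖ ≤ δ * (‖v‖ * ‖w‖) →
      dist (f (Projectivization.mk k v hv)) (f (Projectivization.mk k w hw)) < ε := by
  have hne : ∀ v : Metric.sphere (0 : Fin n → k) 1, v.1 ≠ 0 := fun v h => by
    have := v.2
    rw [h] at this
    simp at this
  obtain ⟨S, hS⟩ : ∃ S : Metric.sphere (0 : Fin n → k) 1 → {v : Fin n → k // v ≠ 0},
      S = fun v => ⟨v.1, hne v⟩ := ⟨_, rfl⟩
  have hSc : Continuous S := by
    rw [hS]; exact Continuous.subtype_mk continuous_subtype_val _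
  have hSv : ∀ v, (S v).1 = v.1 := fun v => by rw [hS]
  have cS : CompactSpace (Metric.sphere (0 : Fin n → k) 1) :=
    isCompact_iff_compactSpace.1 (isCompact_sphere _ _)
  have hd : Continuous fun p : Metric.sphere (0 : Fin n → k) 1 × Metric.sphere (0 : Fin n → k) 1 =>
      dist (f (pj k (Fin n) (S p.1))) (f (pj k (Fin n) (S p.2))) :=
    ((hf.comp (pj_continuous.comp (hSc.comp continuous_fst)))).dist
      ((hf.comp (pj_continuous.comp (hSc.comp continuous_snd))))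
  have hK : IsCompact {p : Metric.sphere (0 : Fin n → k) 1 × Metric.sphere (0 : Fin n → k) 1 |
      ε ≤ dist (f (pj k (Fin n) (S p.1))) (f (pj k (Fin n) (S p.2)))} :=
    (isClosed_le continuous_const hd).isCompact
  have hw : Continuous fun p : Metric.sphere (0 : Fin n → k) 1 × Metric.sphere (0 : Fin n → k) 1 =>
      ‖wd p.1.1 p.2.1‖ :=
    (wd_continuous.comp ((continuous_subtype_val.comp continuous_fst).prodMk
      (continuous_subtype_val.comp continuous_snd))).norm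
  obtain ⟨δ, hδ, hmin⟩ : ∃ δ : ℝ, 0 < δ ∧ ∀ p : Metric.sphere (0 : Fin n → k) 1 ×
      Metric.sphere (0 : Fin n → k) 1, ε ≤ dist (f (pj k (Fin n) (S p.1)))
        (f (pj k (Fin n) (S p.2))) → δ < ‖wd p.1.1 p.2.1‖ := by
    rcases Set.eq_empty_or_nonempty {p : Metric.sphere (0 : Fin n → k) 1 ×
      Metric.sphere (0 : Fin n → k) 1 | ε ≤ dist (f (pj k (Fin n) (S p.1)))
        (f (pj k (Fin n) (S p.2)))} with h | h
    · exact ⟨1, one_pos, fun p hp => absurd (show p ∈ (∅ : Set _) from h ▸ hp) (by simp)⟩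
    · obtain ⟨p0, hp0, hp⟩ := hK.exists_isMinOn h hw.continuousOn
      have h1 : 0 < ‖wd p0.1.1 p0.2.1‖ := by
        rw [norm_pos_iff]
        intro h0
        have h2 : pj k (Fin n) (S p0.1) = pj k (Fin n) (S p0.2) := by
          rw [pj_eq_iff, hSv, hSv]; exact h0
        have h3 : ε ≤ dist (f (pj k (Fin n) (S p0.1))) (f (pj k (Fin n) (S p0.2))) := hp0
        rw [h2, dist_self] at h3
        linarith
      refine ⟨‖wd p0.1.1 p0.2.1‖ / 2, by positivity, fun p hp' => ?_⟩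
      have := isMinOn_iff.mp hp p hp'
      linarith
  refine ⟨δ, hδ, fun v w hv hw hvw => ?_⟩
  by_contra hcon
  push Not at hcon
  have key : ∀ (v : Fin n → k) (hv : v ≠ 0), ∃ (c : k) (v' : Metric.sphere (0 : Fin n → k) 1),
      ‖c‖ * ‖v‖ = 1 ∧ v'.1 = c • v ∧ pj k (Fin n) (S v') = Projectivization.mk k v hv := by
    intro v hv
    obtain ⟨i, hi⟩ := exists_norm_eq hv
    have hv0 : 0 < ‖v‖ := norm_pos_iff.2 hv
    have hi0 : v i ≠ 0 := by rw [← norm_pos_iff, hi]; exact hv0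
    have hc : ‖(v i)⁻¹‖ * ‖v‖ = 1 := by rw [norm_inv, hi, inv_mul_cancel₀ hv0.ne']
    refine ⟨(v i)⁻¹, ⟨(v i)⁻¹ • v, ?_⟩, hc, rfl, ?_⟩
    · rw [mem_sphere_zero_iff_norm, norm_smul, hc]
    · change pj k (Fin n) _ = pj k (Fin n) ⟨v, hv⟩
      rw [pj_eq]
      exact ⟨Units.mk0 (v i)⁻¹ (inv_ne_zero hi0), by rw [hSv]; rfl⟩
  obtain ⟨a, v', ha, e1, e2⟩ := key v hv
  obtain ⟨b, w', hb, e3, e4⟩ := key w hw
  have h1 := hmin (v', w') (by simp only [e2, e4]; exact hcon)
  simp only [e1, e3] at h1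
  rw [wd_smul, norm_smul, norm_mul] at h1
  have h2 := mul_le_mul_of_nonneg_left hvw (mul_nonneg (norm_nonneg a) (norm_nonneg b))
  have h3 : ‖a‖ * ‖b‖ * (δ * (‖v‖ * ‖w‖)) = δ := by
    calc _ = δ * ((‖a‖ * ‖v‖) * (‖b‖ * ‖w‖)) := by ring
      _ = δ := by rw [ha, hb]; ring
  rw [h3] at h2
  linarith

/-- Closed disjoint sets of the projective space have a positive distance. -/
theorem sep_wd [ProperSpace k] {A A' : Set (ℙ k (Fin n → k))} (hA : IsClosed A)
    (hA' : IsClosed A') (hd : Disjoint A A') :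
    ∃ δ : ℝ, 0 < δ ∧ ∀ (v w : Fin n → k) (hv : v ≠ 0) (hw : w ≠ 0),
      Projectivization.mk k v hv ∈ A → Projectivization.mk k w hw ∈ A' →
      δ * (‖v‖ * ‖w‖) ≤ ‖wd v w‖ := by
  obtain ⟨f, h0, h1, -⟩ := exists_continuous_zero_one_of_isClosed hA hA' hd
  obtain ⟨δ, hδ, h⟩ := uc_wd f.continuous one_pos
  refine ⟨δ, hδ, fun v w hv hw hvA hwA => ?_⟩
  by_contra hc
  push Not at hc
  have h2 := h v w hv hw hc.le
  have e0 := h0 hvA
  have e1 := h1 hwA
  rw [e0, e1] at h2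
  simp at h2

/-! ### The pivot -/

theorem exists_piv [NeZero n] (A : Matrix (Fin n) (Fin n) k) :
    ∃ p : Fin n × Fin n, ‖A p.1 p.2‖ = en A := by
  by_contra hc
  push Not at hc
  have hlt : ∀ i j, ‖A i j‖ < en A := fun i j => lt_of_le_of_ne (entry_le A i j) (hc (i, j))
  have h0 : 0 < en A := lt_of_le_of_lt (norm_nonneg _) (hlt 0 0)
  have h1 : en A < en A := by
    conv_lhs => unfold en
    rw [pi_norm_lt_iff h0]
    intro i
    rw [pi_norm_lt_iff h0]
    exact hlt i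
  exact lt_irrefl _ h1

section piv

variable [NeZero n]

/-- Position of an entry of maximal norm. -/
noncomputable def piv (g : SLn k n) : Fin n × Fin n := (exists_piv g.1).choose

theorem norm_piv (g : SLn k n) : ‖g.1 (piv g).1 (piv g).2‖ = en g.1 := (exists_piv g.1).choose_spec

/-- The column of the pivot. -/
noncomputable def vc (g : SLn k n) : Fin n → k := fun i => g.1 i (piv g).2

/-- The row of the pivot, normalised. -/
noncomputable def ph (g : SLn k n) : Fin n → k := fun j =>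
  g.1 (piv g).1 j / g.1 (piv g).1 (piv g).2

theorem en_pos' (g : SLn k n) : 0 < en g.1 := en_pos (Nat.pos_of_ne_zero (NeZero.ne n)) g

theorem norm_vc (g : SLn k n) : ‖vc g‖ = en g.1 := by
  refine le_antisymm ?_ ?_
  · rw [pi_norm_le_iff_of_nonneg (en_nonneg _)]
    exact fun i => entry_le _ _ _
  · rw [← norm_piv]
    exact norm_le_pi_norm (vc g) (piv g).1

theorem vc_ne (g : SLn k n) : vc g ≠ 0 := by
  rw [← norm_pos_iff, norm_vc]; exact en_pos' g

theorem norm_ph_le (g : SLn k n) : ‖ph g‖ ≤ 1 := by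
  rw [pi_norm_le_iff_of_nonneg zero_le_one]
  intro j
  unfold ph
  rw [norm_div, norm_piv, div_le_one (en_pos' g)]
  exact entry_le _ _ _

theorem piv_ne (g : SLn k n) : g.1 (piv g).1 (piv g).2 ≠ 0 := by
  rw [← norm_pos_iff, norm_piv]; exact en_pos' g

theorem ph_piv (g : SLn k n) : ph g (piv g).2 = 1 := div_self (piv_ne g)

/-- The remainder. -/
noncomputable def rm (g : SLn k n) : Matrix (Fin n) (Fin n) k :=
  Matrix.of fun i j => g.1 i j - vc g i * ph g j

/-- The remainder is small if the first gap is large. -/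
theorem rm_entry_le (g : SLn k n) (i j : Fin n) :
    ‖g.1 i j - vc g i * ph g j‖ ≤ m2 g.1 / en g.1 := by
  rw [le_div_iff₀ (en_pos' g), ← norm_piv, ← norm_mul]
  have e : (g.1 i j - vc g i * ph g j) * g.1 (piv g).1 (piv g).2 =
      mi g.1 i (piv g).1 j (piv g).2 := by
    unfold vc ph mi
    field_simp [piv_ne g]
  rw [e]
  exact mi_le _ _ _ _ _

theorem en_rm_le (g : SLn k n) : en (rm g) ≤ m2 g.1 / en g.1 :=
  en_le_of (div_nonneg (m2_nonneg _) (en_nonneg _)) fun i j => rm_entry_le g i j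

theorem mulVec_eq (g : SLn k n) (w : Fin n → k) :
    g.1 *ᵥ w = (ph g ⬝ᵥ w) • vc g + rm g *ᵥ w := by
  funext i
  rw [Pi.add_apply, Pi.smul_apply, smul_eq_mul]
  calc (g.1 *ᵥ w) i = ∑ j, g.1 i j * w j := rfl
    _ = ∑ j, (ph g j * w j * vc g i + (g.1 i j - vc g i * ph g j) * w j) :=
        Finset.sum_congr rfl fun j _ => by ring
    _ = (∑ j, ph g j * w j) * vc g i + ∑ j, (g.1 i j - vc g i * ph g j) * w j := by
        rw [Finset.sum_add_distrib, Finset.sum_mul]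
    _ = _ := rfl

/-- The attracting point. -/
noncomputable def bp (g : SLn k n) : ℙ k (Fin n → k) := Projectivization.mk k (vc g) (vc_ne g)

theorem vc_eq (g : SLn k n) : vc g = g.1 *ᵥ Pi.single (piv g).2 1 := by
  rw [mulVec_single_one]; rfl

omit [NeZero n] in
theorem norm_single (j : Fin n) : ‖(Pi.single j (1 : k) : Fin n → k)‖ ≤ 1 := by
  rw [pi_norm_le_iff_of_nonneg zero_le_one]
  intro i
  by_cases h : i = j
  · subst h; simp
  · rw [Pi.single_eq_of_ne h, norm_zero]; exact zero_le_one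

omit [NeZero n] in
theorem mulVec_ne (s : SLn k n) {v : Fin n → k} (hv : v ≠ 0) : s.1 *ᵥ v ≠ 0 := by
  intro h0
  apply hv
  have h1 : (s⁻¹).1 *ᵥ (s.1 *ᵥ v) = v := by rw [mulVec_mulVec, coe_inv_mul, one_mulVec]
  rw [← h1, h0, mulVec_zero]

/-- The attracting point of `s x u` is close to the image of the attracting point of `x`. -/
theorem wd_stab (s x u : SLn k n) :
    ‖wd (vc (s * x * u)) (s.1 *ᵥ vc x)‖ ≤
      2 * (n ^ 2 * (en s.1 * (m2 x.1 / en x.1 * en u.1))) * ‖s.1 *ᵥ vc x‖ := by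
  obtain ⟨e, he⟩ : ∃ e : Fin n → k, e = u.1 *ᵥ Pi.single (piv (s * x * u)).2 1 := ⟨_, rfl⟩
  have hn0 : (0 : ℝ) ≤ n := Nat.cast_nonneg n
  have h1 : vc (s * x * u) = (ph x ⬝ᵥ e) • (s.1 *ᵥ vc x) + s.1 *ᵥ (rm x *ᵥ e) := by
    have e1 : (s * x * u).1 = s.1 * (x.1 * u.1) := by rw [coe_mul', coe_mul', Matrix.mul_assoc]
    rw [vc_eq, e1, ← mulVec_mulVec, ← mulVec_mulVec, ← he, mulVec_eq x e, mulVec_add, mulVec_smul]
  have he1 : ‖e‖ ≤ en u.1 := by
    rw [he, mulVec_single_one, pi_norm_le_iff_of_nonneg (en_nonneg _)]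
    exact fun i => entry_le u.1 i _
  have h2 : ‖s.1 *ᵥ (rm x *ᵥ e)‖ ≤ n ^ 2 * (en s.1 * (m2 x.1 / en x.1 * en u.1)) := by
    calc _ ≤ n * (en s.1 * (n * (en (rm x) * ‖e‖))) :=
          (norm_mulVec_le _ _).trans (mul_le_mul_of_nonneg_left
            (mul_le_mul_of_nonneg_left (norm_mulVec_le _ _) (en_nonneg _)) hn0)
      _ = n ^ 2 * (en s.1 * (en (rm x) * ‖e‖)) := by ring
      _ ≤ _ := by
          have := en_rm_le x
          have := en_nonneg s.1
          have := m2_nonneg x.1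
          have := en_nonneg x.1
          gcongr
  rw [h1, wd_add_smul]
  refine (wd_le _ _).trans ?_
  calc 2 * (‖s.1 *ᵥ (rm x *ᵥ e)‖ * ‖s.1 *ᵥ vc x‖) = 2 * ‖s.1 *ᵥ (rm x *ᵥ e)‖ * ‖s.1 *ᵥ vc x‖ := by
        ring
    _ ≤ _ := by gcongr

theorem m2_eq (hn : 2 ≤ n) (g : SLn k n) : m2 g.1 = en g.1 ^ 2 * Real.exp (-G1 g) := by
  have h1 := m2_pos hn g
  have h2 := en_pos' g
  unfold G1
  rw [neg_sub, Real.exp_sub, Real.exp_log h1, show 2 * Real.log (en g.1) =
    Real.log (en g.1 ^ 2) by rw [Real.log_pow]; push_cast; ring, Real.exp_log (by positivity)]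
  field_simp

/-- **Stability of the attracting points.** -/
theorem stab (hn : 2 ≤ n) [ProperSpace k] {F : Type*} [PseudoMetricSpace F]
    {f : ℙ k (Fin n → k) → F} (hf : Continuous f) (s u : SLn k n) {ε : ℝ} (hε : 0 < ε) :
    ∃ T : ℝ, ∀ x : SLn k n, T ≤ G1 x → dist (f (bp (s * x * u))) (f (s • bp x)) < ε := by
  obtain ⟨δ, hδ, h⟩ := uc_wd hf hε
  obtain ⟨C, hC⟩ : ∃ C : ℝ, C = 2 * (n ^ 2 * (en s.1 * en u.1)) *
      (n ^ 2 * (en (s⁻¹).1 * en (u⁻¹).1)) := ⟨_, rfl⟩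
  have hC0 : 0 ≤ C := by
    rw [hC]
    have := en_nonneg s.1
    have := en_nonneg u.1
    have := en_nonneg (s⁻¹).1
    have := en_nonneg (u⁻¹).1
    positivity
  refine ⟨Real.log ((C + 1) / δ), fun x hx => ?_⟩
  have e2 : s • bp x = Projectivization.mk k (s.1 *ᵥ vc x) (mulVec_ne s (vc_ne x)) := rfl
  rw [e2]
  refine h _ _ _ _ ?_
  refine (wd_stab s x u).trans ?_
  have hx0 := en_pos' x
  have b2 : en x.1 ≤ n ^ 2 * (en (s⁻¹).1 * en (u⁻¹).1) * ‖vc (s * x * u)‖ := by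
    rw [norm_vc]
    have e : x.1 = (s⁻¹).1 * ((s * x * u).1 * (u⁻¹).1) := by
      have : x = s⁻¹ * ((s * x * u) * u⁻¹) := by group
      calc x.1 = (s⁻¹ * ((s * x * u) * u⁻¹)).1 := by rw [← this]
        _ = _ := by rw [coe_mul', coe_mul']
    calc en x.1 = en ((s⁻¹).1 * ((s * x * u).1 * (u⁻¹).1)) := by rw [← e]
      _ ≤ n * (en (s⁻¹).1 * (n * (en (s * x * u).1 * en (u⁻¹).1))) := by
          refine (en_mul _ _).trans (mul_le_mul_of_nonneg_left
            (mul_le_mul_of_nonneg_left (en_mul _ _) (en_nonneg _)) (Nat.cast_nonneg n))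
      _ = _ := by ring
  have b3 : m2 x.1 / en x.1 = en x.1 * Real.exp (-G1 x) := by
    rw [m2_eq hn x]
    field_simp
  have b4 : Real.exp (-G1 x) ≤ δ / (C + 1) := by
    rw [Real.log_le_iff_le_exp (by positivity)] at hx
    rw [Real.exp_neg, inv_le_comm₀ (Real.exp_pos _) (by positivity), inv_div]
    exact hx
  have hE := Real.exp_pos (-G1 x)
  have n1 := norm_nonneg (vc (s * x * u))
  have n2 := norm_nonneg (s.1 *ᵥ vc x)
  have n3 := en_nonneg s.1
  have n4 := en_nonneg u.1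
  have b5 : 2 * (n ^ 2 * (en s.1 * (m2 x.1 / en x.1 * en u.1))) ≤
      δ * ‖vc (s * x * u)‖ := by
    rw [b3]
    calc 2 * (n ^ 2 * (en s.1 * (en x.1 * Real.exp (-G1 x) * en u.1)))
        = 2 * (n ^ 2 * (en s.1 * en u.1)) * en x.1 * Real.exp (-G1 x) := by ring
      _ ≤ 2 * (n ^ 2 * (en s.1 * en u.1)) *
          (n ^ 2 * (en (s⁻¹).1 * en (u⁻¹).1) * ‖vc (s * x * u)‖) * Real.exp (-G1 x) := by
          gcongr
      _ = C * Real.exp (-G1 x) * ‖vc (s * x * u)‖ := by rw [hC]; ring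
      _ ≤ C * (δ / (C + 1)) * ‖vc (s * x * u)‖ := by gcongr
      _ ≤ δ * ‖vc (s * x * u)‖ := by
          refine mul_le_mul_of_nonneg_right ?_ n1
          calc C * (δ / (C + 1)) = δ * (C / (C + 1)) := by ring
            _ ≤ δ * 1 := by
                refine mul_le_mul_of_nonneg_left ?_ hδ.le
                rw [div_le_one (by positivity)]
                linarith
            _ = δ := mul_one δ
  calc _ ≤ δ * ‖vc (s * x * u)‖ * ‖s.1 *ᵥ vc x‖ := mul_le_mul_of_nonneg_right b5 n2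
    _ = _ := by ring

end piv

end Vale.Agent.P092.H337.NG
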