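import Vale.Agent.P092.H337.NGc
import Vale.Agent.P092.H859.CLB

/-!
P092, Team N, block [N-GEOF] (helper337), part 4: geometric separation of closed sets of
attracting points in `SL_n(k)`.
-/

namespace Vale.Agent.P092.H337.NG

open Matrix Topology
open scoped LinearAlgebra.Projectivization
open Vale.Agent.P092.H820
open Vale.Agent.P092.H859.CL (SepP)

variable {k : Type*} [NormedField k] {n : ℕ}

/-- Near the wall, multiplicative form. -/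
theorem nw_pow (hn : 2 ≤ n) {g : SLn k n} {R : ℝ} (h : G2 g ≤ R) :
    en (g⁻¹).1 ^ (n - 1) ≤ Real.exp R * en g.1 := by
  have h1 := en_pos (by omega) g
  have h2 := en_pos (by omega) g⁻¹
  unfold G2 at h
  rw [← Real.log_le_log_iff (by positivity) (by positivity),
    Real.log_mul (Real.exp_pos _).ne' h1.ne', Real.log_exp, Real.log_pow, Nat.cast_sub (by omega)]
  push_cast
  linarith

theorem G2_le_of (hn : 2 ≤ n) {g : SLn k n} {R : ℝ} (hR : 0 < R)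
    (h : en (g⁻¹).1 ^ (n - 1) ≤ R * en g.1) : G2 g ≤ Real.log R := by
  have h1 := en_pos (by omega) g
  have h2 := en_pos (by omega) g⁻¹
  unfold G2
  rw [← Real.log_le_log_iff (by positivity) (by positivity),
    Real.log_mul hR.ne' h1.ne', Real.log_pow, Nat.cast_sub (by omega)] at h
  push_cast at h
  linarith

section piv

variable [NeZero n]

/-- The remainder, near the wall. -/
theorem rm_nw (hn : 2 ≤ n) {g : SLn k n} {R : ℝ} (h : G2 g ≤ R) :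
    en (rm g) * en (g⁻¹).1 ≤ n.factorial * Real.exp R := by
  have h1 := en_pos' g
  have h2 := en_pos' g⁻¹
  have h3 := nw_pow hn h
  calc en (rm g) * en (g⁻¹).1 ≤ (m2 g.1 / en g.1) * en (g⁻¹).1 :=
        mul_le_mul_of_nonneg_right (en_rm_le g) h2.le
    _ ≤ (n.factorial * en (g⁻¹).1 ^ (n - 2) / en g.1) * en (g⁻¹).1 := by
        refine mul_le_mul_of_nonneg_right ?_ h2.le
        exact div_le_div_of_nonneg_right (m2_le_inv g) h1.le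
    _ = n.factorial * en (g⁻¹).1 ^ (n - 1) / en g.1 := by
        have e : n - 1 = (n - 2) + 1 := by omega
        rw [e, pow_succ]; ring
    _ ≤ n.factorial * (Real.exp R * en g.1) / en g.1 := by
        refine div_le_div_of_nonneg_right ?_ h1.le
        exact mul_le_mul_of_nonneg_left h3 (Nat.cast_nonneg _)
    _ = _ := by field_simp

/-- Images of vectors under `x`: almost parallel to the attracting point. -/
theorem wd_mulVec_le (x : SLn k n) (w : Fin n → k) :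
    ‖wd (x.1 *ᵥ w) (vc x)‖ ≤ 2 * (n * (en (rm x) * ‖w‖)) * ‖vc x‖ := by
  rw [mulVec_eq x w, wd_add_smul]
  refine (wd_le _ _).trans ?_
  rw [← mul_assoc]
  refine mul_le_mul_of_nonneg_right ?_ (norm_nonneg _)
  exact mul_le_mul_of_nonneg_left (norm_mulVec_le _ _) (by norm_num)

/-- `x⁻¹` expands the vectors which are transversal to the attracting point. -/
theorem lower (hn : 2 ≤ n) {x : SLn k n} {R δ : ℝ} (hx : G2 x ≤ R) {w : Fin n → k}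
    (hw : δ * (‖w‖ * ‖vc x‖) ≤ ‖wd w (vc x)‖) :
    δ * (en (x⁻¹).1 * ‖w‖) ≤ 2 * n * (n.factorial * Real.exp R) * ‖(x⁻¹).1 *ᵥ w‖ := by
  have h0 : 0 < ‖vc x‖ := by rw [norm_vc]; exact en_pos' x
  have h1 : x.1 *ᵥ ((x⁻¹).1 *ᵥ w) = w := by rw [mulVec_mulVec, coe_mul_inv, one_mulVec]
  have h2 := wd_mulVec_le x ((x⁻¹).1 *ᵥ w)
  rw [h1] at h2
  have h3 : δ * ‖w‖ ≤ 2 * (n * (en (rm x) * ‖(x⁻¹).1 *ᵥ w‖)) := by
    have : (δ * ‖w‖) * ‖vc x‖ ≤ 2 * (n * (en (rm x) * ‖(x⁻¹).1 *ᵥ w‖)) * ‖vc x‖ := by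
      calc _ = δ * (‖w‖ * ‖vc x‖) := by ring
        _ ≤ _ := hw.trans h2
    exact le_of_mul_le_mul_right this h0
  have h4 := en_nonneg (x⁻¹).1
  calc δ * (en (x⁻¹).1 * ‖w‖) = (δ * ‖w‖) * en (x⁻¹).1 := by ring
    _ ≤ (2 * (n * (en (rm x) * ‖(x⁻¹).1 *ᵥ w‖))) * en (x⁻¹).1 :=
        mul_le_mul_of_nonneg_right h3 h4
    _ = 2 * n * (en (rm x) * en (x⁻¹).1) * ‖(x⁻¹).1 *ᵥ w‖ := by ring
    _ ≤ _ := by
        refine mul_le_mul_of_nonneg_right ?_ (norm_nonneg _)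
        exact mul_le_mul_of_nonneg_left (rm_nw hn hx) (by positivity)

omit [NeZero n] in
theorem norm_col_le (A : Matrix (Fin n) (Fin n) k) (j : Fin n) : ‖A *ᵥ Pi.single j 1‖ ≤ en A := by
  rw [mulVec_single_one, pi_norm_le_iff_of_nonneg (en_nonneg _)]
  exact fun i => entry_le A i _

/-- Lower bound of the norm of `x⁻¹ y` for transversal attracting points. -/
theorem en_lower (hn : 2 ≤ n) {x y : SLn k n} {R δ : ℝ} (hx : G2 x ≤ R)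
    (hw : δ * (‖vc y‖ * ‖vc x‖) ≤ ‖wd (vc y) (vc x)‖) :
    δ * (en (x⁻¹).1 * en y.1) ≤ 2 * n * (n.factorial * Real.exp R) * en (x⁻¹ * y).1 := by
  have h1 := lower hn hx hw
  rw [norm_vc] at h1
  refine h1.trans (mul_le_mul_of_nonneg_left ?_ (by positivity))
  have e : (x⁻¹).1 *ᵥ vc y = (x⁻¹ * y).1 *ᵥ Pi.single (piv y).2 1 := by
    rw [vc_eq, mulVec_mulVec, coe_mul']
  rw [e]
  exact norm_col_le _ _

/-- The same with logarithms. -/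
theorem log_lower (hn : 2 ≤ n) {R δ : ℝ} (hδ : 0 < δ) : ∃ K : ℝ, ∀ x y : SLn k n, G2 x ≤ R →
    δ * (‖vc y‖ * ‖vc x‖) ≤ ‖wd (vc y) (vc x)‖ →
    Real.log (en (x⁻¹).1) + Real.log (en y.1) ≤ K + Real.log (en (x⁻¹ * y).1) := by
  obtain ⟨C, hC⟩ : ∃ C : ℝ, C = 2 * n * (n.factorial * Real.exp R) := ⟨_, rfl⟩
  have hn0 : (0 : ℝ) < n := by exact_mod_cast (by omega : 0 < n)
  have hC0 : 0 < C := by
    rw [hC]
    have : (0 : ℝ) < n.factorial := by exact_mod_cast n.factorial_pos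
    positivity
  refine ⟨Real.log (C / δ), fun x y hx hw => ?_⟩
  have h1 := en_lower hn hx hw
  rw [← hC] at h1
  have p1 := en_pos' x⁻¹
  have p2 := en_pos' y
  have p3 := en_pos' (x⁻¹ * y)
  have h2 : en (x⁻¹).1 * en y.1 ≤ C / δ * en (x⁻¹ * y).1 := by
    rw [div_mul_eq_mul_div, le_div_iff₀ hδ]
    linarith
  rw [← Real.log_mul p1.ne' p2.ne', ← Real.log_mul (by positivity) p3.ne']
  exact Real.log_le_log (by positivity) h2

/-- Two gaps of `x⁻¹ y`. -/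
theorem gaps_lower (hn : 2 ≤ n) {R δ : ℝ} (hδ : 0 < δ) : ∃ K : ℝ, ∀ x y : SLn k n, G2 x ≤ R →
    G2 y ≤ R → δ * (‖vc y‖ * ‖vc x‖) ≤ ‖wd (vc y) (vc x)‖ →
    n * Real.log (en y.1) ≤ ((n : ℝ) - 1) * G1 (x⁻¹ * y) + K ∧
    (n * ((n : ℝ) - 2)) * Real.log (en x.1) ≤ ((n : ℝ) - 1) * G2 (x⁻¹ * y) + K := by
  obtain ⟨K, hK⟩ := log_lower (k := k) (n := n) hn (R := R) hδ
  have hn2 : (2 : ℝ) ≤ n := by exact_mod_cast hn
  have hn1 : (0 : ℝ) ≤ (n : ℝ) - 1 := by linarith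
  have hn3 : (0 : ℝ) ≤ (n : ℝ) - 2 := by linarith
  obtain ⟨L, hL⟩ : ∃ L : ℝ, L = Real.log n.factorial := ⟨_, rfl⟩
  obtain ⟨N, hN⟩ : ∃ N : ℝ, N = Real.log n := ⟨_, rfl⟩
  obtain ⟨K1, hK1⟩ : ∃ K1, K1 = ((n : ℝ) - 1) * (2 * K + 2 * N + Real.log 2 + L) +
      ((n : ℝ) - 2) * R := ⟨_, rfl⟩
  obtain ⟨K2, hK2⟩ : ∃ K2, K2 = ((n : ℝ) - 1) * (((n : ℝ) - 1) * K + N + L) + R := ⟨_, rfl⟩
  refine ⟨max K1 K2, fun x y hx hy hw => ?_⟩
  have hw' : δ * (‖vc x‖ * ‖vc y‖) ≤ ‖wd (vc x) (vc y)‖ := by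
    rw [wd_norm_comm, mul_comm ‖vc x‖]; exact hw
  have a1 := hK x y hx hw
  have a2 := hK y x hy hw'
  have a3 := log_en_mul hn x⁻¹ y
  have a4 := log_m2_mul hn x⁻¹ y
  have a5 := log_m2_le hn x⁻¹
  have a6 := log_m2_inv hn y
  have a7 := log_en_inv hn y
  have e1 : (x⁻¹ * y)⁻¹ = y⁻¹ * x := by group
  rw [← hN] at a3 a4
  rw [← hL] at a6 a7
  unfold G2 at hx hy
  constructor
  · refine le_trans ?_ (add_le_add le_rfl (le_max_left _ _))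
    unfold G1
    rw [hK1]
    have b1 : 2 * Real.log (en y.1) - ((n : ℝ) - 2) * Real.log (en (y⁻¹).1) ≤
        2 * Real.log (en (x⁻¹ * y).1) - Real.log (m2 (x⁻¹ * y).1) +
          (2 * K + 2 * N + Real.log 2 + L) := by linarith
    have b2 := mul_le_mul_of_nonneg_left b1 hn1
    have b3 := mul_le_mul_of_nonneg_left hy hn3
    nlinarith
  · refine le_trans ?_ (add_le_add le_rfl (le_max_right _ _))
    unfold G2
    rw [e1, hK2]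
    have b1 := mul_le_mul_of_nonneg_left a2 hn1
    have b2 : ((n : ℝ) - 1) * Real.log (en x.1) - Real.log (en (x⁻¹).1) ≤
        ((n : ℝ) - 1) * Real.log (en (y⁻¹ * x).1) - Real.log (en (x⁻¹ * y).1) +
          (((n : ℝ) - 1) * K + N + L) := by nlinarith
    have b3 := mul_le_mul_of_nonneg_left b2 hn1
    nlinarith

omit [NeZero n] in
theorem lin_aux {m p s M : ℝ} (hm : 2 ≤ m) (hM : 0 ≤ M) (h1 : s + m * p ≤ M)
    (h2 : -M ≤ p + m * s) : p ≤ M := by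
  have h3 : m * (s + m * p) ≤ m * M := mul_le_mul_of_nonneg_left h1 (by linarith)
  have h4 : (m + 1) * ((m - 1) * p) ≤ (m + 1) * M := by
    calc (m + 1) * ((m - 1) * p) = m * (s + m * p) - (p + m * s) := by ring
      _ ≤ m * M + M := by linarith
      _ = _ := by ring
  have h5 : (m - 1) * p ≤ M := le_of_mul_le_mul_left h4 (by linarith)
  rcases le_or_gt p 0 with hp | hp
  · exact hp.trans hM
  · calc p = 1 * p := (one_mul p).symm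
      _ ≤ (m - 1) * p := mul_le_mul_of_nonneg_right (by linarith) hp.le
      _ ≤ M := h5

/-- The sizes of `x` and `y` are determined by `x⁻¹ y`. -/
theorem size_det (hn : 3 ≤ n) {R δ : ℝ} (hδ : 0 < δ) : ∃ K : ℝ, ∀ x₁ y₁ x₂ y₂ : SLn k n,
    G2 x₁ ≤ R → G2 y₁ ≤ R → G2 x₂ ≤ R → G2 y₂ ≤ R →
    δ * (‖vc y₁‖ * ‖vc x₁‖) ≤ ‖wd (vc y₁) (vc x₁)‖ →
    δ * (‖vc y₂‖ * ‖vc x₂‖) ≤ ‖wd (vc y₂) (vc x₂)‖ → x₁⁻¹ * y₁ = x₂⁻¹ * y₂ →
    Real.log (en (x₁⁻¹).1) ≤ K + Real.log (en (x₂⁻¹).1) ∧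
    Real.log (en (y₁⁻¹).1) ≤ K + Real.log (en (y₂⁻¹).1) := by
  have hn' : 2 ≤ n := by omega
  obtain ⟨K, hK⟩ := log_lower (k := k) (n := n) hn' (R := R) hδ
  have hn3 : (3 : ℝ) ≤ n := by exact_mod_cast hn
  obtain ⟨L, hL⟩ : ∃ L : ℝ, L = Real.log n.factorial := ⟨_, rfl⟩
  obtain ⟨N, hN⟩ : ∃ N : ℝ, N = Real.log n := ⟨_, rfl⟩
  obtain ⟨M, hM⟩ : ∃ M, M = |K| + |N| + |R| + |L| := ⟨_, rfl⟩
  have hM0 : 0 ≤ M := by rw [hM]; positivity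
  refine ⟨M, fun x₁ y₁ x₂ y₂ hx₁ hy₁ hx₂ hy₂ h1 h2 hz => ?_⟩
  have sym : ∀ x y : SLn k n, δ * (‖vc y‖ * ‖vc x‖) ≤ ‖wd (vc y) (vc x)‖ →
      δ * (‖vc x‖ * ‖vc y‖) ≤ ‖wd (vc x) (vc y)‖ := fun x y h => by
    rw [wd_norm_comm, mul_comm ‖vc x‖]; exact h
  have hz' : y₁⁻¹ * x₁ = y₂⁻¹ * x₂ := by
    calc y₁⁻¹ * x₁ = (x₁⁻¹ * y₁)⁻¹ := by group
      _ = (x₂⁻¹ * y₂)⁻¹ := by rw [hz]
      _ = _ := by group
  have a1 := hK x₁ y₁ hx₁ h1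
  have a2 := hK y₁ x₁ hy₁ (sym _ _ h1)
  have a3 := hK x₂ y₂ hx₂ h2
  have a4 := hK y₂ x₂ hy₂ (sym _ _ h2)
  have b1 := log_en_mul hn' x₁⁻¹ y₁
  have b2 := log_en_mul hn' y₁⁻¹ x₁
  have b3 := log_en_mul hn' x₂⁻¹ y₂
  have b4 := log_en_mul hn' y₂⁻¹ x₂
  rw [hz] at a1 b1
  rw [hz'] at a2 b2
  have c1 := log_en_inv hn' x₁
  have c2 := log_en_inv hn' x₂
  have c3 := log_en_inv hn' y₁
  have c4 := log_en_inv hn' y₂
  unfold G2 at hx₁ hx₂ hy₁ hy₂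
  rw [← hN] at b1 b2 b3 b4
  rw [← hL] at c1 c2 c3 c4
  have k1 := le_abs_self K
  have k2 := le_abs_self N
  have k3 := le_abs_self R
  have k4 := le_abs_self L
  obtain ⟨p, hp⟩ : ∃ p, p = Real.log (en (x₁⁻¹).1) - Real.log (en (x₂⁻¹).1) := ⟨_, rfl⟩
  obtain ⟨s, hs⟩ : ∃ s, s = Real.log (en (y₁⁻¹).1) - Real.log (en (y₂⁻¹).1) := ⟨_, rfl⟩
  obtain ⟨m, hm⟩ : ∃ m : ℝ, m = (n : ℝ) - 1 := ⟨_, rfl⟩
  have hm2 : 2 ≤ m := by rw [hm]; linarith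
  rw [← hm] at hx₁ hx₂ hy₁ hy₂ c1 c2 c3 c4
  -- two linear inequalities, both signs
  have u1 : p + m * s ≤ M := by
    have : p + m * s ≤ K + N + R + L := by rw [hp, hs]; linarith
    rw [hM]; linarith
  have u2 : -M ≤ p + m * s := by
    have : -(K + N + R + L) ≤ p + m * s := by rw [hp, hs]; linarith
    rw [hM]; linarith
  have u3 : s + m * p ≤ M := by
    have : s + m * p ≤ K + N + R + L := by rw [hp, hs]; linarith
    rw [hM]; linarith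
  have u4 : -M ≤ s + m * p := by
    have : -(K + N + R + L) ≤ s + m * p := by rw [hp, hs]; linarith
    rw [hM]; linarith
  constructor
  · have : p ≤ M := lin_aux hm2 hM0 u3 u2
    rw [hp] at this
    linarith
  · have : s ≤ M := lin_aux hm2 hM0 u1 u4
    rw [hs] at this
    linarith

/-- `x₂ x₁⁻¹ = y₂ y₁⁻¹` is bounded. -/
theorem quot_bd (hn : 3 ≤ n) {R δ : ℝ} (hδ : 0 < δ) : ∃ B : ℝ, ∀ x₁ y₁ x₂ y₂ : SLn k n,
    G2 x₁ ≤ R → G2 y₁ ≤ R → G2 x₂ ≤ R → G2 y₂ ≤ R →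
    δ * (‖vc y₁‖ * ‖vc x₁‖) ≤ ‖wd (vc y₁) (vc x₁)‖ →
    δ * (‖vc y₂‖ * ‖vc x₂‖) ≤ ‖wd (vc y₂) (vc x₂)‖ → x₁⁻¹ * y₁ = x₂⁻¹ * y₂ →
    en (x₂ * x₁⁻¹).1 ≤ B := by
  have hn' : 2 ≤ n := by omega
  obtain ⟨K, hK⟩ := size_det (k := k) hn (R := R) hδ
  obtain ⟨C1, hC1⟩ : ∃ C1 : ℝ, C1 = n.factorial * Real.exp R := ⟨_, rfl⟩
  have hC10 : 0 ≤ C1 := by rw [hC1]; positivity
  have hn0 : (0 : ℝ) ≤ n := Nat.cast_nonneg n
  refine ⟨6 * (n * (C1 * Real.exp K)) / δ,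
    fun x₁ y₁ x₂ y₂ hx₁ hy₁ hx₂ hy₂ h1 h2 hz => ?_⟩
  obtain ⟨k1, k2⟩ := hK x₁ y₁ x₂ y₂ hx₁ hy₁ hx₂ hy₂ h1 h2 hz
  have ht : x₂ * x₁⁻¹ = y₂ * y₁⁻¹ := by
    have : y₂ = x₂ * (x₁⁻¹ * y₁) := by rw [hz]; group
    rw [this]; group
  -- bound of the remainders
  have aux : ∀ g h : SLn k n, G2 h ≤ R →
      Real.log (en (g⁻¹).1) ≤ K + Real.log (en (h⁻¹).1) → ∀ j,
      ‖wd ((h * g⁻¹).1 *ᵥ Pi.single j 1) (vc h)‖ ≤ 2 * (n * (C1 * Real.exp K)) * ‖vc h‖ := by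
    intro g h hh hl j
    have e : (h * g⁻¹).1 *ᵥ Pi.single j 1 = h.1 *ᵥ ((g⁻¹).1 *ᵥ Pi.single j 1) := by
      rw [coe_mul', ← mulVec_mulVec]
    rw [e]
    refine (wd_mulVec_le _ _).trans (mul_le_mul_of_nonneg_right ?_ (norm_nonneg _))
    refine mul_le_mul_of_nonneg_left (mul_le_mul_of_nonneg_left ?_ hn0) (by norm_num)
    have p1 := en_pos' g⁻¹
    have p2 := en_pos' h⁻¹
    have l1 : en (g⁻¹).1 ≤ Real.exp K * en (h⁻¹).1 := by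
      rw [← Real.log_le_log_iff p1 (by positivity), Real.log_mul (Real.exp_pos _).ne' p2.ne',
        Real.log_exp]
      exact hl
    calc en (rm h) * ‖(g⁻¹).1 *ᵥ Pi.single j 1‖ ≤ en (rm h) * (Real.exp K * en (h⁻¹).1) :=
          mul_le_mul_of_nonneg_left ((norm_col_le _ _).trans l1) (en_nonneg _)
      _ = (en (rm h) * en (h⁻¹).1) * Real.exp K := by ring
      _ ≤ _ := mul_le_mul_of_nonneg_right (by rw [hC1]; exact rm_nw hn' hh) (Real.exp_pos _).le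
  have hB0 : 0 ≤ 6 * (n * (C1 * Real.exp K)) / δ := by positivity
  refine en_le_of hB0 fun i j => ?_
  obtain ⟨w, hw⟩ : ∃ w : Fin n → k, w = (x₂ * x₁⁻¹).1 *ᵥ Pi.single j 1 := ⟨_, rfl⟩
  have f1 : ‖wd w (vc x₂)‖ ≤ 2 * (n * (C1 * Real.exp K)) * ‖vc x₂‖ := by
    rw [hw]; exact aux x₁ x₂ hx₂ k1 j
  have f2 : ‖wd w (vc y₂)‖ ≤ 2 * (n * (C1 * Real.exp K)) * ‖vc y₂‖ := by
    rw [hw, ht]; exact aux y₁ y₂ hy₂ k2 j
  have f3 := wd_three w (vc x₂) (vc y₂)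
  have f4 : δ * (‖vc x₂‖ * ‖vc y₂‖) ≤ ‖wd (vc x₂) (vc y₂)‖ := by
    rw [wd_norm_comm, mul_comm ‖vc x₂‖]; exact h2
  have q1 : 0 < ‖vc x₂‖ := by rw [norm_vc]; exact en_pos' x₂
  have q2 : 0 < ‖vc y₂‖ := by rw [norm_vc]; exact en_pos' y₂
  have f5 : (‖w‖ * δ) * (‖vc x₂‖ * ‖vc y₂‖) ≤
      (6 * (n * (C1 * Real.exp K))) * (‖vc x₂‖ * ‖vc y₂‖) := by
    calc _ = ‖w‖ * (δ * (‖vc x₂‖ * ‖vc y₂‖)) := by ring
      _ ≤ ‖w‖ * ‖wd (vc x₂) (vc y₂)‖ := mul_le_mul_of_nonneg_left f4 (norm_nonneg _)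
      _ ≤ 2 * (‖vc y₂‖ * ‖wd w (vc x₂)‖) + ‖vc x₂‖ * ‖wd w (vc y₂)‖ := f3
      _ ≤ 2 * (‖vc y₂‖ * (2 * (n * (C1 * Real.exp K)) * ‖vc x₂‖)) +
          ‖vc x₂‖ * (2 * (n * (C1 * Real.exp K)) * ‖vc y₂‖) := by gcongr
      _ = _ := by ring
  have f6 := le_of_mul_le_mul_right f5 (mul_pos q1 q2)
  have f7 : ‖(x₂ * x₁⁻¹).1 i j‖ ≤ ‖w‖ := by
    have : (x₂ * x₁⁻¹).1 i j = w i := by rw [hw, mulVec_single_one]; rfl
    rw [this]
    exact norm_le_pi_norm w i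
  refine f7.trans ?_
  rw [le_div_iff₀ hδ]
  exact f6

/-- **[N-GEOF] separation**: every homomorphism with finite balls. -/
theorem sepP {k : Type} [NormedField k] (hn : 3 ≤ n) [ProperSpace k] {Γ : Type} [Group Γ] (q : Γ →* SLn k n)
    (fin : ∀ R : ℝ, {γ | en (q γ).1 ≤ R}.Finite) {A A' : Set (ℙ k (Fin n → k))}
    (hA : IsClosed A) (hA' : IsClosed A') (hd : Disjoint A A') :
    SepP (fun γ => G1 (q γ)) (fun γ => G2 (q γ)) (fun γ => bp (q γ)) A A' := by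
  have hn' : 2 ≤ n := by omega
  have hn3 : (3 : ℝ) ≤ n := by exact_mod_cast hn
  obtain ⟨δ, hδ, hsep⟩ := sep_wd hA hA' hd
  have hvv : ∀ x y : Γ, bp (q x) ∈ A → bp (q y) ∈ A' →
      δ * (‖vc (q y)‖ * ‖vc (q x)‖) ≤ ‖wd (vc (q y)) (vc (q x))‖ := fun x y hx hy => by
    rw [wd_norm_comm, mul_comm ‖vc (q y)‖]
    exact hsep _ _ (vc_ne _) (vc_ne _) hx hy
  intro R
  obtain ⟨B, hB⟩ := quot_bd (k := k) hn (R := R) hδ
  obtain ⟨K, hK⟩ := gaps_lower (k := k) hn' (R := R) hδ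
  refine ⟨(fin B).toFinset, fun r => ?_⟩
  -- the threshold
  obtain ⟨M, hM⟩ : ∃ M : ℝ, M = |((n : ℝ) - 1) * r| + |K| + 1 := ⟨_, rfl⟩
  have hM1 : 0 < M := by rw [hM]; positivity
  refine ⟨(n * M + ((n : ℝ) - 1) * Real.log n + R) / ((n : ℝ) - 1),
    fun x y hx hy tx ty gx gy => ?_, fun x₁ y₁ x₂ y₂ hx₁ hy₁ hx₂ hy₂ _ _ _ _ g1 g2 g3 g4 hz => ?_⟩
  · have hlog : ∀ z : Γ, (n * M + ((n : ℝ) - 1) * Real.log n + R) / ((n : ℝ) - 1) ≤ G1 (q z) →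
        G2 (q z) ≤ R → M ≤ Real.log (en (q z).1) := by
      intro z h1 h2
      rw [div_le_iff₀ (by linarith)] at h1
      have h3 := G1_le hn' h2
      have h4 : (n : ℝ) * M ≤ n * Real.log (en (q z).1) := by linarith
      exact le_of_mul_le_mul_left h4 (by linarith)
    obtain ⟨c1, c2⟩ := hK (q x) (q y) gx gy (hvv x y hx hy)
    have l1 := hlog x tx gx
    have l2 := hlog y ty gy
    have e : q (x⁻¹ * y) = (q x)⁻¹ * q y := by rw [map_mul, map_inv]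
    have r1 := le_abs_self (((n : ℝ) - 1) * r)
    have r2 := le_abs_self K
    have f1 : M ≤ n * Real.log (en (q y).1) := by
      calc M = 1 * M := (one_mul M).symm
        _ ≤ n * Real.log (en (q y).1) :=
            mul_le_mul (by linarith) l2 hM1.le (by linarith)
    have f2 : M ≤ (n * ((n : ℝ) - 2)) * Real.log (en (q x).1) := by
      have hnn : 1 ≤ (n : ℝ) * ((n : ℝ) - 2) := by nlinarith
      calc M = 1 * M := (one_mul M).symm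
        _ ≤ _ := mul_le_mul hnn l1 hM1.le (by linarith)
    constructor
    · have : ((n : ℝ) - 1) * r < ((n : ℝ) - 1) * G1 (q (x⁻¹ * y)) := by
        rw [e]; linarith
      exact lt_of_mul_lt_mul_left this (by linarith)
    · have : ((n : ℝ) - 1) * r < ((n : ℝ) - 1) * G2 (q (x⁻¹ * y)) := by
        rw [e]; linarith
      exact lt_of_mul_lt_mul_left this (by linarith)
  · rw [Set.Finite.mem_toFinset, Set.mem_ofPred_eq, map_mul, map_inv]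
    refine hB (q x₁) (q y₁) (q x₂) (q y₂) g1 g2 g3 g4 (hvv x₁ y₁ hx₁ hy₁) (hvv x₂ y₂ hx₂ hy₂) ?_
    have := congrArg q hz
    rwa [map_mul, map_mul, map_inv, map_inv] at this

end piv

end Vale.Agent.P092.H337.NG
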