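import Vale.Agent.P092.H337.NGd
import Vale.Agent.P092.H859.CNA

/-!
P092, Team N, block [N-GEOF] (helper337), part 5: the geometry `GeoF` of the wall limits for
homomorphisms to `SL_n(k)` with finite balls, points and hyperplanes, every `n ≥ 3`, every local
field `k`.
-/

namespace Vale.Agent.P092.H337.NG

open Matrix Topology
open scoped LinearAlgebra.Projectivization
open Vale.Agent.P092.H820
open Vale.Agent.P092.H859.CL (BB FF cn)
open Vale.Agent.P092.H859

/-! ### The inverse transpose -/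

section tau

variable {k : Type*} [NormedField k] {n : ℕ}

theorem en_transpose (A : Matrix (Fin n) (Fin n) k) : en Aᵀ = en A := by
  refine le_antisymm ?_ ?_
  · exact en_le_of (en_nonneg _) fun i j => entry_le A j i
  · exact en_le_of (en_nonneg _) fun i j => entry_le Aᵀ j i

theorem mi_transpose (A : Matrix (Fin n) (Fin n) k) (i i' j j' : Fin n) :
    mi Aᵀ i i' j j' = mi A j j' i i' := by
  unfold mi
  simp only [transpose_apply]
  ring

theorem m2_transpose (A : Matrix (Fin n) (Fin n) k) : m2 Aᵀ = m2 A := by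
  refine le_antisymm ?_ ?_
  · exact m2_le_of (m2_nonneg _) fun i i' j j' => by rw [mi_transpose]; exact mi_le _ _ _ _ _
  · refine m2_le_of (m2_nonneg _) fun i i' j j' => ?_
    have := mi_le Aᵀ j j' i i'
    rwa [mi_transpose] at this

/-- The inverse transpose. -/
def ta (k : Type*) [Field k] (n : ℕ) : SLn k n →* SLn k n where
  toFun g := ⟨(g⁻¹).1.transpose, by rw [Matrix.det_transpose]; exact (g⁻¹).2⟩
  map_one' := by
    apply Subtype.ext
    simp
  map_mul' g h := by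
    apply Subtype.ext
    change ((g * h)⁻¹).1.transpose = (g⁻¹).1.transpose * (h⁻¹).1.transpose
    rw [_root_.mul_inv_rev, Matrix.SpecialLinearGroup.coe_mul, Matrix.transpose_mul]

theorem en_ta (g : SLn k n) : en (ta k n g).1 = en (g⁻¹).1 := en_transpose _

theorem m2_ta (g : SLn k n) : m2 (ta k n g).1 = m2 (g⁻¹).1 := m2_transpose _

theorem G1_ta (g : SLn k n) : G1 (ta k n g) = G1 g⁻¹ := by
  unfold G1
  rw [en_ta, m2_ta]

theorem G2_ta (g : SLn k n) : G2 (ta k n g) = G2 g⁻¹ := by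
  unfold G2
  rw [← map_inv, en_ta, en_ta]

end tau

variable {k : Type} [NormedField k] {n : ℕ} {Γ : Type} [Group Γ] (q : Γ →* SLn k n)

/-- Finite balls for the inverses. -/
theorem fin_inv (fin : ∀ R : ℝ, {γ | en (q γ).1 ≤ R}.Finite) (R : ℝ) :
    {γ | en ((q γ)⁻¹).1 ≤ R}.Finite := by
  have h : {γ | en ((q γ)⁻¹).1 ≤ R} = (fun γ => γ⁻¹) '' {γ | en (q γ).1 ≤ R} := by
    ext γ
    simp only [Set.mem_ofPred_eq, Set.mem_image]
    constructor
    · intro hγ
      exact ⟨γ⁻¹, by rw [map_inv]; exact hγ, inv_inv γ⟩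
    · rintro ⟨x, hx, rfl⟩
      rw [map_inv, inv_inv]
      exact hx
  rw [h]
  exact (fin R).image _

/-- Finite balls for the dual. -/
theorem fin_ta (fin : ∀ R : ℝ, {γ | en (q γ).1 ≤ R}.Finite) (R : ℝ) :
    {γ | en (((ta k n).comp q) γ).1 ≤ R}.Finite := by
  have h := fin_inv q fin R
  have e : ∀ γ, en (((ta k n).comp q) γ).1 = en ((q γ)⁻¹).1 := fun γ => en_ta (q γ)
  simp only [e]
  exact h

theorem ff_finite (hn : 2 ≤ n) (fin : ∀ R : ℝ, {γ | en (q γ).1 ≤ R}.Finite) (r : ℝ) :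
    (FF (fun γ => G1 (q γ)) (fun γ => G2 (q γ)) r).Finite := by
  have hn0 : (0 : ℝ) < n := by exact_mod_cast (by omega : 0 < n)
  refine (fin (Real.exp ((((n : ℝ) - 1) * (|r| + Real.log n.factorial) +
      ((n : ℝ) - 2) * |r|) / n))).subset fun γ hγ => ?_
  have h1 := log_en_le hn hγ.1 hγ.2
  rw [Set.mem_ofPred_eq, ← Real.log_le_iff_le_exp (en_pos (by omega) _), le_div_iff₀ hn0]
  linarith

section geo

variable [NeZero n]

/-- **[N-GEOF]** The geometry of the wall limits for every homomorphism with finite balls, in the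
letters of the engine for walls of any type. -/
theorem geoF (hn : 3 ≤ n) [ProperSpace k] (fin : ∀ R : ℝ, {γ | en (q γ).1 ≤ R}.Finite)
    {Br : ℝ → Set Γ} (hBr : ∀ r, ∃ r', BB (fun γ => G1 (q γ)) (fun γ => G2 (q γ)) r' ⊆ Br r) :
    @CN.GeoF Γ (ℙ k (Fin n → k)) _ _ (MulAction.compHom (ℙ k (Fin n → k)) q) Br
      (fun γ => G1 (q γ)) (fun γ => G2 (q γ)) (fun γ => bp (q γ)) := by
  have hn' : 2 ≤ n := by omega
  let _ : MulAction Γ (ℙ k (Fin n → k)) := MulAction.compHom (ℙ k (Fin n → k)) q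
  refine ⟨fun s => ?_, ff_finite q hn' fin, fun s u => ?_, fun s u f ε hε r => ?_,
    fun A A' hA hA' hd R => ?_⟩
  · exact continuous_const_smul (q s)
  · obtain ⟨C, hC⟩ := gap_bd hn' (q s) (q u)
    refine ⟨C, fun x => ?_⟩
    have e : q (s * x * u) = q s * q x * q u := by rw [map_mul, map_mul]
    rw [e]
    exact hC (q x)
  · obtain ⟨T, hT⟩ := stab hn' f.continuous (q s) (q u) hε
    refine ⟨T, fun x hx _ => ?_⟩
    have e : q (s * x * u) = q s * q x * q u := by rw [map_mul, map_mul]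
    have h1 := hT (q x) hx
    rw [Real.dist_eq, ← e] at h1
    exact h1.le
  · obtain ⟨S, hS⟩ := sepP hn q fin hA hA' hd R
    refine ⟨S, fun r => ?_⟩
    obtain ⟨r', hr'⟩ := hBr r
    obtain ⟨T, h1, h2⟩ := hS r'
    exact ⟨T, fun x y hx hy tx ty gx gy => hr' (h1 x y hx hy tx ty gx gy), h2⟩

/-- The same in the letters of the engine of `SL_3` (`Br = BB G1 G2`). -/
theorem geoF_cl (hn : 3 ≤ n) [ProperSpace k] (fin : ∀ R : ℝ, {γ | en (q γ).1 ≤ R}.Finite) :
    @CL.GeoF Γ (ℙ k (Fin n → k)) _ _ (MulAction.compHom (ℙ k (Fin n → k)) q)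
      (fun γ => G1 (q γ)) (fun γ => G2 (q γ)) (fun γ => bp (q γ)) := by
  let _ : MulAction Γ (ℙ k (Fin n → k)) := MulAction.compHom (ℙ k (Fin n → k)) q
  have h := geoF q hn fin (Br := BB (fun γ => G1 (q γ)) (fun γ => G2 (q γ)))
    (fun r => ⟨r, subset_rfl⟩)
  exact ⟨h.cact, h.fin, h.gap, h.stab, fun A A' hA hA' hd => sepP hn q fin hA hA' hd⟩

/-- Attraction: `h` is close to a matrix of rank one with image in `A` (`SD.Att` for all `n`). -/
def AttN (T : ℝ) (A : Set (ℙ k (Fin n → k))) (h : SLn k n) : Prop :=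
  ∃ (v φ : Fin n → k) (hv : v ≠ 0), Projectivization.mk k v hv ∈ A ∧
    ∀ i j, ‖h.1 i j - v i * φ j‖ ≤ en h.1 / T

/-- Large first gap: attraction to the point `bp`. -/
theorem attN_of (hn : 2 ≤ n) {h : SLn k n} {T : ℝ} (hT : 0 < T) (hg : Real.log T ≤ G1 h)
    {A : Set (ℙ k (Fin n → k))} (hA : bp h ∈ A) : AttN T A h := by
  refine ⟨vc h, ph h, vc_ne h, hA, fun i j => (rm_entry_le h i j).trans ?_⟩
  have h1 := en_pos' h
  rw [m2_eq hn h, div_le_div_iff₀ h1 hT]
  have h2 : Real.exp (-G1 h) * T ≤ 1 := by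
    rw [Real.exp_neg, inv_mul_le_iff₀ (Real.exp_pos _), mul_one]
    rwa [Real.log_le_iff_le_exp hT] at hg
  calc en h.1 ^ 2 * Real.exp (-G1 h) * T = en h.1 ^ 2 * (Real.exp (-G1 h) * T) := by ring
    _ ≤ en h.1 ^ 2 * 1 := mul_le_mul_of_nonneg_left h2 (by positivity)
    _ = _ := by ring

/-- **[D0-DOMG], all `n`.** The cone over `A` consists of near-wall elements with attracting point
in `A`, up to a finite and a regular part. -/
theorem cone_sub (hn : 2 ≤ n) (r : ℝ) :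
    ∀ T > 0, ∃ T' : ℝ, ∀ A : Set (ℙ k (Fin n → k)),
      cn (fun γ => G1 (q γ)) (fun γ => G2 (q γ)) (fun γ => bp (q γ)) A ⊆
        {γ | en ((q γ)⁻¹).1 ^ (n - 1) ≤ Real.exp r * en (q γ).1 ∧ AttN T A (q γ)} ∪
          (FF (fun γ => G1 (q γ)) (fun γ => G2 (q γ)) T' ∪
            BB (fun γ => G1 (q γ)) (fun γ => G2 (q γ)) r) := by
  refine fun T hT => ⟨max (Real.log T) r, fun A γ hγ => ?_⟩
  obtain ⟨h1, h2⟩ := hγ
  by_cases h3 : G2 (q γ) ≤ r
  · by_cases h4 : Real.log T ≤ G1 (q γ)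
    · left
      exact ⟨nw_pow hn h3, attN_of hn hT h4 h2⟩
    · right; left
      push Not at h4
      exact ⟨h4.le.trans (le_max_left _ _), h3.trans (le_max_right _ _)⟩
  · right; right
    push Not at h3
    exact ⟨lt_of_lt_of_le h3 h1, h3⟩

omit [NeZero n] in
/-- Outside the near-wall elements: off the cone or regular. -/
theorem not_nw_sub (hn : 2 ≤ n) (r : ℝ) :
    {γ | ¬ en ((q γ)⁻¹).1 ^ (n - 1) ≤ Real.exp r * en (q γ).1} ⊆
      {γ | G1 (q γ) < G2 (q γ)} ∪ BB (fun γ => G1 (q γ)) (fun γ => G2 (q γ)) r := by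
  intro γ hγ
  have h3 : ¬ G2 (q γ) ≤ r := fun h => hγ (nw_pow hn h)
  push Not at h3
  by_cases h4 : G1 (q γ) < G2 (q γ)
  · left; exact h4
  · right
    push Not at h4
    exact ⟨lt_of_lt_of_le h3 h4, h3⟩

omit [NeZero n] in
/-- Near the wall the second gap is bounded. -/
theorem nw_sub (hn : 2 ≤ n) {R : ℝ} (hR : 0 < R) :
    {γ | en ((q γ)⁻¹).1 ^ (n - 1) ≤ R * en (q γ).1} ⊆ {γ | G2 (q γ) ≤ Real.log R} :=
  fun _ hγ => G2_le_of hn hR hγ

end geo

end Vale.Agent.P092.H337.NG
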