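import Vale.Agent.P092.H584.TauP
import Vale.Agent.P092.H34.X.PicW
import Vale.Agent.P092.H958.AmpD

/-!
P092, Team N, products, all amplifications (helper337), part 11: helper515's tightness calculus
(`H515/TauS`, `H515/TauG`) and helper584's `H584/TauP` for a picture `RC.PicW` (no field `inv`),
hence for every amplification of the picture of a finite family.
-/

set_option linter.all false

open scoped InnerProductSpace ENNReal Pointwise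
open MeasureTheory Filter Topology ContinuousLinearMap

namespace Vale.Agent.P092.H337.NG.TW

open Vale.Agent.P092.RC (PicW TRN Cm Moore GG PG YY y0 ct)
open Vale.Agent.P092.SD (Ms)
open Vale.Agent.P092.SN (PH nm bw)
open Vale.Agent.P092.H515.Tau (mul_ap pi_inv_ap pi_inv_ap' lam_inv_ap lam_inv_ap' cm_mul Sh image_Sh
  meas_Sh Tgt Tgt.mono Tgt.union PS ps_t2 ps_lc ps_sc kq kc tgt_iff KW NT)

section basic

variable {E Γ K : Type} [Group E] [TopologicalSpace E] [Group Γ] [NormedAddCommGroup K]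
  [InnerProductSpace ℂ K] [CompleteSpace K]
  {π : E →* (K →L[ℂ] K)} {lam : Γ →* (K →L[ℂ] K)} {W : Set (K →L[ℂ] K)} {Ω : K}
  {m : Set Γ → (K →L[ℂ] K)}

theorem pi_norm (hP : PicW π lam W Ω) (g : E) (ξ : K) : ‖π g ξ‖ = ‖ξ‖ := by
  have h1 : ⟪π g ξ, π g ξ⟫_ℂ = ⟪ξ, ξ⟫_ℂ := by
    rw [← adjoint_inner_right, hP.adjP, ← mul_ap, ← map_mul, inv_mul_cancel, map_one]
    rfl
  rw [inner_self_eq_norm_sq_to_K, inner_self_eq_norm_sq_to_K] at h1
  have h2 : ‖π g ξ‖ ^ 2 = ‖ξ‖ ^ 2 := by exact_mod_cast h1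
  exact (pow_left_inj₀ (norm_nonneg _) (norm_nonneg _) two_ne_zero).mp h2

theorem lam_norm (hP : PicW π lam W Ω) (g : Γ) (ξ : K) : ‖lam g ξ‖ = ‖ξ‖ := by
  have h1 : ⟪lam g ξ, lam g ξ⟫_ℂ = ⟪ξ, ξ⟫_ℂ := by
    rw [← adjoint_inner_right, hP.adjL, ← mul_ap, ← map_mul, inv_mul_cancel, map_one]
    rfl
  rw [inner_self_eq_norm_sq_to_K, inner_self_eq_norm_sq_to_K] at h1
  have h2 : ‖lam g ξ‖ ^ 2 = ‖ξ‖ ^ 2 := by exact_mod_cast h1
  exact (pow_left_inj₀ (norm_nonneg _) (norm_nonneg _) two_ne_zero).mp h2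

theorem cm_adj (hP : PicW π lam W Ω) {A : K →L[ℂ] K} (hA : Cm W A) : Cm W (adjoint A) := by
  intro w hw
  have h1 := hA (adjoint w) (hP.Wadj w hw)
  have h2 := congrArg (fun T : K →L[ℂ] K => adjoint T) h1
  simp only [← star_eq_adjoint, star_mul, star_star] at h2
  rw [← star_eq_adjoint, ← h2]

theorem cm_conj (hP : PicW π lam W Ω) {A : K →L[ℂ] K} (hA : Cm W A) (g : E) :
    Cm W (π g * A * π g⁻¹) := by
  intro w hw
  have h1 := hA _ (hP.WP w hw g⁻¹)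
  rw [inv_inv] at h1
  have e1 : π g * π g⁻¹ = 1 := by rw [← map_mul, mul_inv_cancel, map_one]
  have e2 : π g⁻¹ * π g = 1 := by rw [← map_mul, inv_mul_cancel, map_one]
  calc π g * A * π g⁻¹ * w = π g * (A * (π g⁻¹ * w * π g)) * π g⁻¹ := by
        simp only [mul_assoc, e1, mul_one]
    _ = π g * ((π g⁻¹ * w * π g) * A) * π g⁻¹ := by rw [h1]
    _ = (π g * π g⁻¹) * w * (π g * A * π g⁻¹) := by simp only [mul_assoc]
    _ = w * (π g * A * π g⁻¹) := by rw [e1, one_mul]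

/-- `P_s = π(s) m_1 π(s)*`: the trace of `T P_s` -/
theorem trn_right (hP : PicW π lam W Ω) (hM : Ms lam W Ω m) {T : K →L[ℂ] K} (hT : Cm W T) (s : E) :
    TRN lam Ω (T * (π s * m {1} * π s⁻¹)) = ‖T (π s Ω)‖ₑ ^ 2 := by
  have hTP : Cm W (T * (π s * m {1} * π s⁻¹)) := cm_mul hT (cm_conj hP (hM.cm _) s)
  rw [← hP.tr_conj _ hTP s⁻¹, TRN, tsum_eq_single 1]
  · have e2 : π s⁻¹ * π s = 1 := by rw [← map_mul, inv_mul_cancel, map_one]
    have h1 : (π s⁻¹ * (T * (π s * m {1} * π s⁻¹)) * π s⁻¹⁻¹) (lam 1 Ω) = π s⁻¹ (T (π s Ω)) := by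
      rw [inv_inv, map_one]
      change π s⁻¹ (T (π s (m {1} (π s⁻¹ (π s Ω))))) = _
      rw [pi_inv_ap, hM.om]
    rw [h1]
    rw [← ofReal_norm_eq_enorm, ← ofReal_norm_eq_enorm, pi_norm hP]
  · intro γ hγ
    have h1 : (π s⁻¹ * (T * (π s * m {1} * π s⁻¹)) * π s⁻¹⁻¹) (lam γ Ω) = 0 := by
      rw [inv_inv]
      change π s⁻¹ (T (π s (m {1} (π s⁻¹ (π s (lam γ Ω)))))) = _
      rw [pi_inv_ap, H515.Tau.Ms.single_lam hM, H515.Tau.Ms.single_om hM (inv_ne_one.mpr hγ)]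
      simp
    rw [h1]; simp

/-- the trace of `P_s T` -/
theorem trn_left (hP : PicW π lam W Ω) (hM : Ms lam W Ω m) (T : K →L[ℂ] K) (s : E) :
    TRN lam Ω ((π s * m {1} * π s⁻¹) * T) =
      ∑' γ, ‖m {1} (π s⁻¹ (T (lam γ Ω)))‖ₑ ^ 2 := by
  rw [TRN]
  congr 1
  funext γ
  change ‖π s (m {1} (π s⁻¹ (T (lam γ Ω))))‖ₑ ^ 2 = _
  rw [← ofReal_norm_eq_enorm, pi_norm hP, ofReal_norm_eq_enorm]

/-- **The averaging identity for one operator.** -/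
theorem enorm_sq_eq (hP : PicW π lam W Ω) (hM : Ms lam W Ω m) {T : K →L[ℂ] K} (hT : Cm W T)
    (s : E) : ‖T (π s Ω)‖ₑ ^ 2 = ∑' γ, ‖m {1} (π s⁻¹ (adjoint T (lam γ Ω)))‖ₑ ^ 2 := by
  have hPs : Cm W (π s * m {1} * π s⁻¹) := cm_conj hP (hM.cm _) s
  have hadj : adjoint (π s * m {1} * π s⁻¹) = π s * m {1} * π s⁻¹ := by
    rw [← star_eq_adjoint, star_mul, star_mul, star_eq_adjoint, star_eq_adjoint, star_eq_adjoint,
      hP.adjP, hP.adjP, hM.adj, inv_inv, mul_assoc]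
  rw [← trn_right hP hM hT s, ← hP.tr_adj _ (cm_mul hT hPs), ← trn_left hP hM]
  congr 1
  rw [← star_eq_adjoint, star_mul, star_eq_adjoint, star_eq_adjoint, hadj]

end basic

section avg

variable {E Γ K H : Type} [Group E] [TopologicalSpace E] [Group Γ] [NormedAddCommGroup K]
  [InnerProductSpace ℂ K] [CompleteSpace K] [Group H] [MeasurableSpace H]
  {π : E →* (K →L[ℂ] K)} {lam : Γ →* (K →L[ℂ] K)} {W : Set (K →L[ℂ] K)} {Ω : K}
  {m : Set Γ → (K →L[ℂ] K)}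

/-- The averaged square norm of an equivariant field does not depend on the group element. -/
theorem lint_eq [Countable Γ] [MeasurableMul H] (hP : PicW π lam W Ω) (hM : Ms lam W Ω m)
    (μ : Measure H) [μ.IsMulLeftInvariant] (κ : Γ →* H) {C : H → (K →L[ℂ] K)}
    (hC : ∀ h, Cm W (C h)) (hcov : ∀ γ h, lam γ * C h * lam γ⁻¹ = C (κ γ * h))
    (hmeas : ∀ ζ, StronglyMeasurable fun h => adjoint (C h) ζ) (s : E) :
    ∫⁻ h, ‖C h (π s Ω)‖ₑ ^ 2 ∂μ = ∫⁻ h, ‖adjoint (C h) Ω‖ₑ ^ 2 ∂μ := by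
  have hco : ∀ γ h, adjoint (C h) (lam γ Ω) = lam γ (adjoint (C ((κ γ)⁻¹ * h)) Ω) := by
    intro γ h
    have h1 := hcov γ ((κ γ)⁻¹ * h)
    rw [mul_inv_cancel_left] at h1
    rw [← h1]
    have h2 : adjoint (lam γ * C ((κ γ)⁻¹ * h) * lam γ⁻¹) =
        lam γ * adjoint (C ((κ γ)⁻¹ * h)) * lam γ⁻¹ := by
      rw [← star_eq_adjoint, star_mul, star_mul, star_eq_adjoint, star_eq_adjoint,
        star_eq_adjoint, hP.adjL, hP.adjL, inv_inv, mul_assoc]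
    rw [h2, mul_ap, mul_ap, lam_inv_ap]
  have h3 : ∀ h, ‖C h (π s Ω)‖ₑ ^ 2 =
      ∑' γ, ‖m {1} (π s⁻¹ (lam γ (adjoint (C ((κ γ)⁻¹ * h)) Ω)))‖ₑ ^ 2 := fun h => by
    rw [enorm_sq_eq hP hM (hC h) s]
    congr 1
    funext γ
    rw [hco]
  have hm1 : ∀ γ, Measurable fun h => ‖m {1} (π s⁻¹ (lam γ (adjoint (C h) Ω)))‖ₑ ^ 2 := by
    intro γ
    refine Measurable.pow_const ?_ 2
    exact (((m {1}).continuous.comp ((π s⁻¹).continuous.comp (lam γ).continuous)).comp_stronglyMeasurable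
      (hmeas Ω)).enorm
  have hm2 : ∀ γ, Measurable fun h =>
      ‖m {1} (π s⁻¹ (lam γ (adjoint (C ((κ γ)⁻¹ * h)) Ω)))‖ₑ ^ 2 := fun γ =>
    (hm1 γ).comp (measurable_const_mul _)
  calc ∫⁻ h, ‖C h (π s Ω)‖ₑ ^ 2 ∂μ
      = ∫⁻ h, ∑' γ, ‖m {1} (π s⁻¹ (lam γ (adjoint (C ((κ γ)⁻¹ * h)) Ω)))‖ₑ ^ 2 ∂μ := by
        exact lintegral_congr h3
    _ = ∑' γ, ∫⁻ h, ‖m {1} (π s⁻¹ (lam γ (adjoint (C ((κ γ)⁻¹ * h)) Ω)))‖ₑ ^ 2 ∂μ :=
        lintegral_tsum fun γ => (hm2 γ).aemeasurable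
    _ = ∑' γ, ∫⁻ h, ‖m {1} (π s⁻¹ (lam γ (adjoint (C h) Ω)))‖ₑ ^ 2 ∂μ := by
        congr 1
        funext γ
        exact lintegral_mul_left_eq_self
          (fun h => ‖m {1} (π s⁻¹ (lam γ (adjoint (C h) Ω)))‖ₑ ^ 2) (κ γ)⁻¹
    _ = ∫⁻ h, ∑' γ, ‖m {1} (π s⁻¹ (lam γ (adjoint (C h) Ω)))‖ₑ ^ 2 ∂μ :=
        (lintegral_tsum fun γ => (hm1 γ).aemeasurable).symm
    _ = ∫⁻ h, ‖adjoint (C h) Ω‖ₑ ^ 2 ∂μ := by
        refine lintegral_congr fun h => ?_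
        have h5 : ∀ γ, m {1} (π s⁻¹ (lam γ (adjoint (C h) Ω))) =
            lam γ (m {γ⁻¹} (π s⁻¹ (adjoint (C h) Ω))) := fun γ => by
          have h6 : π s⁻¹ (lam γ (adjoint (C h) Ω)) = lam γ (π s⁻¹ (adjoint (C h) Ω)) := by
            rw [← mul_ap, hP.comm, mul_ap]
          rw [h6, H515.Tau.Ms.single_lam hM]
        simp only [h5]
        have h7 : ∀ γ, ‖lam γ (m {γ⁻¹} (π s⁻¹ (adjoint (C h) Ω)))‖ₑ ^ 2 =
            (fun γ => ‖m {γ} (π s⁻¹ (adjoint (C h) Ω))‖ₑ ^ 2) γ⁻¹ := fun γ => by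
          rw [← ofReal_norm_eq_enorm, lam_norm hP, ofReal_norm_eq_enorm]
        simp only [h7]
        have h8 := (Equiv.inv Γ).tsum_eq (fun γ => ‖m {γ} (π s⁻¹ (adjoint (C h) Ω))‖ₑ ^ 2)
        change ∑' γ, ‖m {γ⁻¹} (π s⁻¹ (adjoint (C h) Ω))‖ₑ ^ 2 = _ at h8
        rw [h8, H515.Tau.Ms.tsum_sq hM, ← ofReal_norm_eq_enorm, pi_norm hP, ofReal_norm_eq_enorm]

/-- **Subadditivity of positions, measure form.** -/
theorem sub_meas [Countable Γ] [MeasurableInv H] [MeasurableMul H] (hP : PicW π lam W Ω)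
    (hM : Ms lam W Ω m) (μ : Measure H) [μ.IsMulLeftInvariant] (κ : Γ →* H) {A B V : Set H}
    (hA : MeasurableSet A) (hB : MeasurableSet B) (hV : MeasurableSet V) (u s : E) {x y z : ℝ}
    (hz0 : 0 ≤ z) (hyx : y ≤ x)
    (hx : ∀ h ∈ V, x ≤ ‖m (Sh κ B h) (π (u * s) Ω)‖)
    (hy : ∀ h ∈ V, ‖m (Sh κ A h)ᶜ (π s Ω)‖ ≤ y)
    (hz : ∀ h, h⁻¹ ∈ A → ‖m (Sh κ B h) (π u Ω)‖ ≤ z) :
    ENNReal.ofReal ((x - y) ^ 2) * μ V ≤ ENNReal.ofReal (z ^ 2) * μ A⁻¹ := by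
  obtain ⟨D, hD⟩ : ∃ D : H → (K →L[ℂ] K), ∀ h, D h = π u⁻¹ * m (Sh κ B h) * π u :=
    ⟨_, fun _ => rfl⟩
  obtain ⟨C, hCdef⟩ : ∃ C : H → (K →L[ℂ] K), ∀ h, C h = D h * m (Sh κ A h) := ⟨_, fun _ => rfl⟩
  have hDap : ∀ h ξ, D h ξ = π u⁻¹ (m (Sh κ B h) (π u ξ)) := fun h ξ => by rw [hD]; rfl
  have hCap : ∀ h ξ, C h ξ = D h (m (Sh κ A h) ξ) := fun h ξ => by rw [hCdef]; rfl
  have hDadj : ∀ h, adjoint (D h) = D h := fun h => by
    rw [hD, ← star_eq_adjoint, star_mul, star_mul, star_eq_adjoint, star_eq_adjoint,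
      star_eq_adjoint, hP.adjP, hP.adjP, hM.adj, inv_inv, mul_assoc]
  have hDW : ∀ h, Cm W (D h) := fun h => by
    have := cm_conj hP (hM.cm (Sh κ B h)) u⁻¹
    rwa [inv_inv, ← hD] at this
  have hDn : ∀ h ξ, ‖D h ξ‖ = ‖m (Sh κ B h) (π u ξ)‖ := fun h ξ => by rw [hDap, pi_norm hP]
  have hDle : ∀ h ξ, ‖D h ξ‖ ≤ ‖ξ‖ := fun h ξ => by
    rw [hDn]; exact (H515.Tau.Ms.norm_le hM _ _).trans (pi_norm hP u ξ).le
  have hl1 : ∀ γ : Γ, lam γ⁻¹ * lam γ = 1 := fun γ => by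
    rw [← map_mul, inv_mul_cancel, map_one]
  have hDcov : ∀ γ h, lam γ * D h * lam γ⁻¹ = D (κ γ * h) := by
    intro γ h
    rw [hD, hD]
    have h1 : ∀ g : E, lam γ * π g = π g * lam γ := fun g => (hP.comm g γ).symm
    have h2 : ∀ g : E, π g * lam γ⁻¹ = lam γ⁻¹ * π g := fun g => hP.comm g γ⁻¹
    have h3 := hM.cov γ (Sh κ B h)
    rw [image_Sh] at h3
    calc lam γ * (π u⁻¹ * m (Sh κ B h) * π u) * lam γ⁻¹
        = (lam γ * π u⁻¹) * m (Sh κ B h) * (π u * lam γ⁻¹) := by simp only [mul_assoc]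
      _ = (π u⁻¹ * lam γ) * m (Sh κ B h) * (lam γ⁻¹ * π u) := by rw [h1, h2]
      _ = π u⁻¹ * (lam γ * m (Sh κ B h) * lam γ⁻¹) * π u := by simp only [mul_assoc]
      _ = _ := by rw [h3]
  have hCcov : ∀ γ h, lam γ * C h * lam γ⁻¹ = C (κ γ * h) := by
    intro γ h
    have h3 := hM.cov γ (Sh κ A h)
    rw [image_Sh] at h3
    rw [hCdef, hCdef, ← hDcov, ← h3]
    calc lam γ * (D h * m (Sh κ A h)) * lam γ⁻¹
        = lam γ * D h * 1 * m (Sh κ A h) * lam γ⁻¹ := by simp only [mul_assoc, mul_one]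
      _ = lam γ * D h * (lam γ⁻¹ * lam γ) * m (Sh κ A h) * lam γ⁻¹ := by rw [hl1]
      _ = _ := by simp only [mul_assoc]
  have hCadj : ∀ h ζ, adjoint (C h) ζ = m (Sh κ A h) (D h ζ) := fun h ζ => by
    rw [hCdef, ← star_eq_adjoint, star_mul, star_eq_adjoint, star_eq_adjoint, hDadj, hM.adj]
    rfl
  have hmeasD : ∀ ζ, StronglyMeasurable fun h => D h ζ := fun ζ => by
    have h1 := meas_Sh hM κ hB (stronglyMeasurable_const (α := H) (b := π u ζ))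
    simp only [hDap]
    exact (π u⁻¹).continuous.comp_stronglyMeasurable h1
  have hmeas : ∀ ζ, StronglyMeasurable fun h => adjoint (C h) ζ := fun ζ => by
    simp only [hCadj]
    exact meas_Sh hM κ hA (hmeasD ζ)
  have key1 := lint_eq hP hM μ κ (fun h => cm_mul (hDW h) (hM.cm (Sh κ A h)) |> fun h1 => by
    rw [hCdef]; exact h1) hCcov hmeas s
  have key2 := lint_eq hP hM μ κ (fun h => cm_mul (hDW h) (hM.cm (Sh κ A h)) |> fun h1 => by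
    rw [hCdef]; exact h1) hCcov hmeas 1
  rw [← key2, map_one] at key1
  -- lower bound
  have hlow : ENNReal.ofReal ((x - y) ^ 2) * μ V ≤ ∫⁻ h, ‖C h (π s Ω)‖ₑ ^ 2 ∂μ := by
    rw [← setLIntegral_const]
    refine (setLIntegral_mono' hV fun h hh => ?_).trans (setLIntegral_le_lintegral _ _)
    have h1 : x - y ≤ ‖C h (π s Ω)‖ := by
      have h2 : D h (π s Ω) = C h (π s Ω) + D h (m (Sh κ A h)ᶜ (π s Ω)) := by
        rw [hCap, hM.compl, ContinuousLinearMap.sub_apply, map_sub]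
        simp
      have h3 := hx h hh
      rw [map_mul, mul_ap, ← hDn, h2] at h3
      have h4 := norm_add_le (C h (π s Ω)) (D h (m (Sh κ A h)ᶜ (π s Ω)))
      have h5 := (hDle h (m (Sh κ A h)ᶜ (π s Ω))).trans (hy h hh)
      linarith
    have e : ‖C h (π s Ω)‖ₑ ^ 2 = ENNReal.ofReal (‖C h (π s Ω)‖ ^ 2) := by
      rw [ENNReal.ofReal_pow (norm_nonneg _), ofReal_norm_eq_enorm]
    rw [e]
    exact ENNReal.ofReal_le_ofReal (pow_le_pow_left₀ (by linarith) h1 2)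
  -- upper bound
  have hup : ∫⁻ h, ‖C h ((1 : K →L[ℂ] K) Ω)‖ₑ ^ 2 ∂μ ≤ ENNReal.ofReal (z ^ 2) * μ A⁻¹ := by
    rw [← setLIntegral_const, ← lintegral_indicator hA.inv]
    refine lintegral_mono fun h => ?_
    have h1 : C h ((1 : K →L[ℂ] K) Ω) = D h (m (Sh κ A h) Ω) := by rw [hCap]; rfl
    rw [h1]
    by_cases hh : h⁻¹ ∈ A
    · rw [Set.indicator_of_mem (by exact hh)]
      have h2 : (1 : Γ) ∈ Sh κ A h := by
        change h⁻¹ * κ 1 ∈ A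
        rwa [map_one, mul_one]
      rw [H515.Tau.Ms.om_mem hM h2]
      have e : ‖D h Ω‖ₑ ^ 2 = ENNReal.ofReal (‖D h Ω‖ ^ 2) := by
        rw [ENNReal.ofReal_pow (norm_nonneg _), ofReal_norm_eq_enorm]
      rw [e]
      refine ENNReal.ofReal_le_ofReal (pow_le_pow_left₀ (norm_nonneg _) ?_ 2)
      rw [hDn]
      exact hz h hh
    · rw [Set.indicator_of_notMem (by exact hh)]
      have h2 : (1 : Γ) ∉ Sh κ A h := by
        change ¬ (h⁻¹ * κ 1 ∈ A)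
        rwa [map_one, mul_one]
      rw [H515.Tau.Ms.om_notMem hM h2]
      simp
  rw [key1] at hlow
  exact hlow.trans hup

end avg

/-! ### Tight sets -/

section tgt

variable {E Γ K H : Type} [Group E] [TopologicalSpace E] [Group Γ] [NormedAddCommGroup K]
  [InnerProductSpace ℂ K] [CompleteSpace K] [Group H] [TopologicalSpace H]
  {π : E →* (K →L[ℂ] K)} {lam : Γ →* (K →L[ℂ] K)} {W : Set (K →L[ℂ] K)} {Ω : K}
  {m : Set Γ → (K →L[ℂ] K)} {κ : Γ →* H}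

/-- compact sets are tight -/
theorem tgt_of_isCompact (hP : PicW π lam W Ω) (hM : Ms lam W Ω m) (κ : Γ →* H) {𝒰 : Set E}
    (h𝒰 : IsCompact 𝒰) : Tgt π m Ω κ 𝒰 := by
  classical
  intro ε hε
  have key : ∀ u ∈ 𝒰, ∃ F : Finset Γ, ∀ᶠ v in 𝓝[𝒰] u, ‖m ((F : Set Γ))ᶜ (π v Ω)‖ ≤ ε := by
    intro u _
    obtain ⟨F, hF⟩ := hM.fin (π u Ω) (ε / 2) (by positivity)
    refine ⟨F, Filter.Eventually.filter_mono nhdsWithin_le_nhds ?_⟩
    have h1 : Tendsto (fun v => ‖m ((F : Set Γ))ᶜ (π v Ω)‖) (𝓝 u)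
        (𝓝 ‖m ((F : Set Γ))ᶜ (π u Ω)‖) :=
      (((m ((F : Set Γ))ᶜ).continuous.comp (hP.contP Ω)).norm).tendsto u
    filter_upwards [h1.eventually (gt_mem_nhds (show ‖m ((F : Set Γ))ᶜ (π u Ω)‖ < ε by linarith))]
      with v hv using hv.le
  choose! F hF using key
  obtain ⟨t, ht, hcov⟩ := h𝒰.elim_nhdsWithin_subcover _ hF
  refine ⟨((t.biUnion F).image κ : Finset H), (Finset.finite_toSet _).isCompact, fun v hv => ?_⟩
  obtain ⟨u, hu, hv2⟩ := Set.mem_iUnion₂.mp (hcov hv)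
  refine (H515.Tau.Ms.mono hM ?_ _).trans hv2
  intro γ hγ hc
  refine hγ ?_
  simp only [Finset.coe_image, Set.mem_image]
  exact ⟨γ, by
    simp only [Finset.coe_biUnion, Set.mem_iUnion]
    exact ⟨u, hu, hc⟩, rfl⟩

theorem tgt_finite (hP : PicW π lam W Ω) (hM : Ms lam W Ω m) (κ : Γ →* H) {𝒰 : Set E}
    (h𝒰 : 𝒰.Finite) : Tgt π m Ω κ 𝒰 := tgt_of_isCompact hP hM κ h𝒰.isCompact

/-- **Products of tight sets are tight.** -/
theorem tgt_mul [Countable Γ] [IsTopologicalGroup H] [LocallyCompactSpace H] [T2Space H]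
    [SecondCountableTopology H] (hP : PicW π lam W Ω) (hM : Ms lam W Ω m) {𝒰 𝒮 : Set E}
    (h : Tgt π m Ω κ 𝒰) (h' : Tgt π m Ω κ 𝒮) : Tgt π m Ω κ (𝒰 * 𝒮) := by
  letI : MeasurableSpace H := borel H
  haveI : BorelSpace H := ⟨rfl⟩
  obtain ⟨μ, hμ⟩ : ∃ μ : Measure H, μ = Measure.haar := ⟨_, rfl⟩
  haveI : μ.IsHaarMeasure := by rw [hμ]; infer_instance
  intro ε hε
  obtain ⟨Cs, hCs, hs⟩ := h' (ε / 2) (by positivity)
  obtain ⟨V, hV, hV1⟩ := exists_compact_mem_nhds (1 : H)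
  obtain ⟨A, hAdef⟩ : ∃ A : Set H, A = V⁻¹ * Cs := ⟨_, rfl⟩
  have hA : IsCompact A := by rw [hAdef]; exact hV.inv.mul hCs
  have hμA : μ A⁻¹ < ∞ := hA.inv.measure_lt_top
  have hμV : 0 < μ V := (Measure.measure_pos_of_mem_nhds μ hV1)
  have hμV' : μ V < ∞ := hV.measure_lt_top
  obtain ⟨q, hq⟩ : ∃ q : ℝ, q = (μ A⁻¹).toReal / (μ V).toReal := ⟨_, rfl⟩
  have hVr : 0 < (μ V).toReal := ENNReal.toReal_pos hμV.ne' hμV'.ne
  have hq0 : 0 ≤ q := by rw [hq]; positivity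
  obtain ⟨δ, hδ, hδ2⟩ : ∃ δ : ℝ, 0 < δ ∧ δ ^ 2 * q ≤ (ε / 2) ^ 2 := by
    refine ⟨(ε / 2) / Real.sqrt (q + 1), by positivity, ?_⟩
    rw [div_pow, Real.sq_sqrt (by positivity), div_mul_eq_mul_div, div_le_iff₀ (by positivity)]
    nlinarith [sq_nonneg (ε / 2)]
  obtain ⟨Cu, hCu, hu⟩ := h δ hδ
  refine ⟨V * (A * Cu), hV.mul (hA.mul hCu), ?_⟩
  rintro _ ⟨u, hu𝒰, s, hs𝒮, rfl⟩
  by_contra hcon
  push Not at hcon
  obtain ⟨x, hx⟩ : ∃ x : ℝ, x = ‖m {γ | κ γ ∉ V * (A * Cu)} (π (u * s) Ω)‖ := ⟨_, rfl⟩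
  change ε < ‖m {γ | κ γ ∉ V * (A * Cu)} (π (u * s) Ω)‖ at hcon
  rw [← hx] at hcon
  have hB : IsCompact (A * Cu) := hA.mul hCu
  have key := sub_meas hP hM μ κ (A := A) (B := (A * Cu)ᶜ) (V := V) hA.measurableSet
    hB.measurableSet.compl hV.measurableSet u s (x := x) (y := ε / 2) (z := δ) hδ.le (by linarith)
    ?_ ?_ ?_
  · -- conclusion
    rw [← ENNReal.ofReal_toReal hμV'.ne, ← ENNReal.ofReal_toReal hμA.ne,
      ← ENNReal.ofReal_mul (by positivity), ← ENNReal.ofReal_mul (by positivity),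
      ENNReal.ofReal_le_ofReal_iff (by positivity)] at key
    have h1 : (ε / 2) ^ 2 < (x - ε / 2) ^ 2 := by
      apply pow_lt_pow_left₀ (by linarith) (by positivity) two_ne_zero
    have h2 : δ ^ 2 * (μ A⁻¹).toReal = δ ^ 2 * q * (μ V).toReal := by
      rw [hq]; field_simp
    rw [h2] at key
    have h3 := mul_lt_mul_of_pos_right h1 hVr
    have h4 := mul_le_mul_of_nonneg_right hδ2 hVr.le
    linarith
  · intro h hh
    rw [hx]
    refine H515.Tau.Ms.mono hM ?_ _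
    intro γ hγ hc
    refine hγ ⟨h, hh, h⁻¹ * κ γ, ?_, by simp⟩
    by_contra hne
    exact hne hc
  · intro h hh
    refine (H515.Tau.Ms.mono hM ?_ _).trans (hs s hs𝒮)
    intro γ hγ hc
    refine hγ ?_
    change h⁻¹ * κ γ ∈ A
    rw [hAdef]
    exact ⟨h⁻¹, Set.inv_mem_inv.mpr hh, κ γ, hc, rfl⟩
  · intro h hh
    refine (H515.Tau.Ms.mono hM ?_ _).trans (hu u hu𝒰)
    intro γ hγ hc
    refine hγ ?_
    exact ⟨h⁻¹, hh, κ γ, hc, rfl⟩

end tgt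

section calcu

variable {E Γ K H : Type} [Group E] [TopologicalSpace E] [Group Γ] [NormedAddCommGroup K]
  [InnerProductSpace ℂ K] [CompleteSpace K] {π : E →* (K →L[ℂ] K)} {lam : Γ →* (K →L[ℂ] K)}
  {W : Set (K →L[ℂ] K)} {Ω : K} {m : Set Γ → (K →L[ℂ] K)} [Group H] [TopologicalSpace H]
  {κ : Γ →* H} [Countable Γ] [IsTopologicalGroup H] [LocallyCompactSpace H] [T2Space H]
  [SecondCountableTopology H]

theorem tgt_one (hP : PicW π lam W Ω) (hM : Ms lam W Ω m) : Tgt π m Ω κ (1 : Set E) :=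
  tgt_finite hP hM κ Set.finite_one

/-- finite products -/
theorem tgt_list (hP : PicW π lam W Ω) (hM : Ms lam W Ω m) :
    ∀ l : List (Set E), (∀ 𝒰 ∈ l, Tgt π m Ω κ 𝒰) → Tgt π m Ω κ l.prod
  | [], _ => tgt_one hP hM
  | 𝒰 :: l, h => by
    rw [List.prod_cons]
    exact tgt_mul hP hM (h 𝒰 (List.mem_cons_self ..))
      (tgt_list hP hM l fun 𝒱 h𝒱 => h 𝒱 (List.mem_cons_of_mem _ h𝒱))

/-- translates of a tight set on both sides -/
theorem tgt_conj (hP : PicW π lam W Ω) (hM : Ms lam W Ω m) {𝒰 : Set E} (h : Tgt π m Ω κ 𝒰)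
    (g g' : E) : Tgt π m Ω κ ({g} * 𝒰 * {g'}) :=
  tgt_mul hP hM (tgt_mul hP hM (tgt_finite hP hM κ (Set.finite_singleton g)) h)
    (tgt_finite hP hM κ (Set.finite_singleton g'))

/-- commuting subgroups -/
theorem tgt_closure {I : Type} (hP : PicW π lam W Ω) (hM : Ms lam W Ω m) (A : I → Subgroup E)
    (hA : ∀ i j, i ≠ j → ∀ x ∈ A i, ∀ y ∈ A j, Commute x y) (F : Finset I)
    (h : ∀ i ∈ F, Tgt π m Ω κ (A i : Set E)) :
    Tgt π m Ω κ (Subgroup.closure (⋃ i ∈ F, (A i : Set E)) : Set E) := by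
  classical
  induction F using Finset.induction_on with
  | empty =>
    refine (tgt_one hP hM).mono ?_
    simp
  | insert a F ha ih =>
    have h1 := tgt_mul hP hM (h a (Finset.mem_insert_self a F))
      (ih fun i hi => h i (Finset.mem_insert_of_mem hi))
    refine h1.mono ?_
    obtain ⟨C, hC⟩ : ∃ C : Subgroup E, C = Subgroup.closure (⋃ i ∈ F, (A i : Set E)) := ⟨_, rfl⟩
    rw [← hC]
    have hcomm : ∀ x ∈ A a, ∀ y ∈ C, Commute x y := by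
      intro x hx y hy
      have h2 : C ≤ Subgroup.centralizer {x} := by
        rw [hC, Subgroup.closure_le]
        intro z hz
        obtain ⟨i, hi, hz⟩ := Set.mem_iUnion₂.mp hz
        have hne : a ≠ i := fun e => ha (e ▸ hi)
        rw [SetLike.mem_coe, Subgroup.mem_centralizer_singleton_iff]
        exact (hA a i hne x hx z hz).eq.symm
      exact (Subgroup.mem_centralizer_singleton_iff.mp (h2 hy)).symm
    have key : Subgroup.closure (⋃ i ∈ insert a F, (A i : Set E)) ≤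
        { carrier := (A a : Set E) * (C : Set E)
          mul_mem' := by
            rintro _ _ ⟨x, hx, y, hy, rfl⟩ ⟨x', hx', y', hy', rfl⟩
            refine ⟨x * x', (A a).mul_mem hx hx', y * y', C.mul_mem hy hy', ?_⟩
            change x * x' * (y * y') = x * y * (x' * y')
            have := (hcomm x' hx' y hy).eq
            calc x * x' * (y * y') = x * (x' * y) * y' := by simp only [mul_assoc]
              _ = x * (y * x') * y' := by rw [this]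
              _ = _ := by simp only [mul_assoc]
          one_mem' := ⟨1, (A a).one_mem, 1, C.one_mem, one_mul 1⟩
          inv_mem' := by
            rintro _ ⟨x, hx, y, hy, rfl⟩
            refine ⟨x⁻¹, (A a).inv_mem hx, y⁻¹, C.inv_mem hy, ?_⟩
            change x⁻¹ * y⁻¹ = (x * y)⁻¹
            rw [_root_.mul_inv_rev]
            exact ((hcomm x hx y hy).inv_inv).eq } := by
      rw [Subgroup.closure_le]
      intro z hz
      obtain ⟨i, hi, hzi⟩ := Set.mem_iUnion₂.mp hz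
      rcases Finset.mem_insert.mp hi with rfl | hi
      · exact ⟨z, hzi, 1, C.one_mem, mul_one z⟩
      · refine ⟨1, (A a).one_mem, z, ?_, one_mul z⟩
        rw [hC]
        exact Subgroup.subset_closure (Set.mem_biUnion (Finset.mem_coe.mpr hi) hzi)
    exact fun u hu => key hu

end calcu

/-! ### The whole factor -/

section fac

variable {E Γ K H : Type} [Group E] [TopologicalSpace E] [Group Γ] [NormedAddCommGroup K]
  [InnerProductSpace ℂ K] [CompleteSpace K] {π : E →* (K →L[ℂ] K)} {lam : Γ →* (K →L[ℂ] K)}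
  {W : Set (K →L[ℂ] K)} {Ω : K} {m : Set Γ → (K →L[ℂ] K)}

theorem tight_range [Group H] [TopologicalSpace H] {κ : Γ →* H} [Countable Γ]
    [IsTopologicalGroup H] [LocallyCompactSpace H] [T2Space H] [SecondCountableTopology H]
    (hP : PicW π lam W Ω) (hM : Ms lam W Ω m) {k : Type} [NontriviallyNormedField k] {N : ℕ}
    {w : kˣ} (hw : KW N w) {ι : GG k N →* E} (hι : Continuous ι)
    (h : Tgt π m Ω κ (Subgroup.zpowers (ι (bw w)) : Set E)) : Tgt π m Ω κ (Set.range ι) := by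
  obtain ⟨s, C, hC, hg⟩ := hw
  obtain ⟨F, hF⟩ : ∃ F : Fin (N + 1) → Set E, ∀ p, F p =
      {ι (s p)} * (Subgroup.zpowers (ι (bw w)) : Set E) * {ι (s p)⁻¹} := ⟨_, fun _ => rfl⟩
  have h1 : Tgt π m Ω κ (List.ofFn F).prod := by
    refine tgt_list hP hM _ fun 𝒰 h𝒰 => ?_
    obtain ⟨p, rfl⟩ := List.mem_ofFn.mp h𝒰
    rw [hF]
    exact tgt_conj hP hM h _ _
  have h2 : Tgt π m Ω κ (ι '' C) := tgt_of_isCompact hP hM κ (hC.image hι)
  refine (tgt_mul hP hM (tgt_mul hP hM h2 h1) h2).mono ?_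
  rintro _ ⟨g, rfl⟩
  obtain ⟨n, c₁, hc₁, c₂, hc₂, e⟩ := hg g
  refine ⟨ι c₁ * ι (List.ofFn fun p => s p * bw w ^ n p * (s p)⁻¹).prod, ⟨ι c₁, ⟨c₁, hc₁, rfl⟩,
    _, ?_, rfl⟩, ι c₂, ⟨c₂, hc₂, rfl⟩, ?_⟩
  · rw [map_list_prod, List.map_ofFn]
    refine Set.mem_prod_list_ofFn.mpr ⟨fun p => ⟨ι (s p * bw w ^ n p * (s p)⁻¹), ?_⟩, rfl⟩
    rw [hF]
    refine ⟨ι (s p) * ι (bw w) ^ n p, ⟨ι (s p), rfl, ι (bw w) ^ n p, ⟨n p, rfl⟩, rfl⟩,
      ι (s p)⁻¹, rfl, ?_⟩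
    change ι (s p) * ι (bw w) ^ n p * ι (s p)⁻¹ = _
    rw [← map_zpow, ← map_mul, ← map_mul]
  · change ι c₁ * ι (List.ofFn fun p => s p * bw w ^ n p * (s p)⁻¹).prod * ι c₂ = ι g
    rw [← map_mul, ← map_mul, ← e]

variable {J I : Type} [Fintype J] [DecidableEq J] {k : J → Type}
  [∀ j, NontriviallyNormedField (k j)] [∀ j, ProperSpace (k j)] {N : J → ℕ} [Countable Γ]
  {q : ∀ j, Γ → GG (k j) (N j)} {k' : I → Type} [∀ i, NontriviallyNormedField (k' i)]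
  {N' : I → ℕ} {w : ∀ i, (k' i)ˣ} {ι : ∀ i, GG (k' i) (N' i) →* E}

/-- products of sets which are tight off `j` -/
theorem nt_mul (hP : PicW π lam W Ω) (hM : Ms lam W Ω m) (hq : ∀ j, PH (q j)) {j : J}
    {𝒰 𝒱 : Set E} (h : NT π m Ω q j 𝒰) (h' : NT π m Ω q j 𝒱) : NT π m Ω q j (𝒰 * 𝒱) := by
  haveI : ∀ i : {i // i ≠ j}, T2Space (PS (N i + 1) (k i)) := fun i => ps_t2 _ _ (by omega)
  haveI : ∀ i : {i // i ≠ j}, LocallyCompactSpace (PS (N i + 1) (k i)) := fun i => ps_lc _ _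
  haveI : ∀ i : {i // i ≠ j}, SecondCountableTopology (PS (N i + 1) (k i)) := fun i => ps_sc _ _
  exact (tgt_iff hM hq j _).mp
    (tgt_mul hP hM ((tgt_iff hM hq j _).mpr h) ((tgt_iff hM hq j _).mpr h'))

/-- compact sets are tight off `j` -/
theorem nt_compact (hP : PicW π lam W Ω) (hM : Ms lam W Ω m) (hq : ∀ j, PH (q j)) (j : J)
    {𝒰 : Set E} (h : IsCompact 𝒰) : NT π m Ω q j 𝒰 :=
  (tgt_iff hM hq j _).mp (tgt_of_isCompact hP hM (kc hq j) h)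

/-- **The whole factor `i` is tight off the coordinate `τ i`.** -/
theorem tight_fac (hP : PicW π lam W Ω) (hM : Ms lam W Ω m) (hq : ∀ j, PH (q j)) {i : I}
    (hw : KW (N' i) (w i)) (hι : Continuous (ι i)) {j : J}
    (h : ∀ ε : ℝ, 0 < ε → ∃ r : ℝ, ∀ v ∈ Subgroup.zpowers (ι i (bw (w i))),
      ‖m {γ | ∃ i', i' ≠ j ∧ r < nm (q i' γ)} (π v Ω)‖ ≤ ε) :
    ∀ ε : ℝ, 0 < ε → ∃ r : ℝ, ∀ g : GG (k' i) (N' i),
      ‖m {γ | ∃ i', i' ≠ j ∧ r < nm (q i' γ)} (π (ι i g) Ω)‖ ≤ ε := by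
  haveI : ∀ i : {i // i ≠ j}, T2Space (PS (N i + 1) (k i)) := fun i => ps_t2 _ _ (by omega)
  haveI : ∀ i : {i // i ≠ j}, LocallyCompactSpace (PS (N i + 1) (k i)) := fun i => ps_lc _ _
  haveI : ∀ i : {i // i ≠ j}, SecondCountableTopology (PS (N i + 1) (k i)) := fun i => ps_sc _ _
  have h1 : Tgt π m Ω (kc hq j) (Subgroup.zpowers (ι i (bw (w i))) : Set E) :=
    (tgt_iff hM hq j _).mpr h
  have h2 := (tgt_iff hM hq j _).mp (tight_range hP hM hw hι h1)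
  intro ε hε
  obtain ⟨r, hr⟩ := h2 ε hε
  exact ⟨r, fun g => hr _ ⟨g, rfl⟩⟩

/-- **The product of all factors with the same coordinate is tight off this coordinate.** -/
theorem tight_fib [Fintype I] (hP : PicW π lam W Ω) (hM : Ms lam W Ω m) (hq : ∀ j, PH (q j))
    (hw : ∀ i, KW (N' i) (w i)) (hι : ∀ i, Continuous (ι i))
    (hcomm : ∀ i i', i ≠ i' → ∀ g h, Commute (ι i g) (ι i' h)) {τ : I → J}
    (h : ∀ i, ∀ ε : ℝ, 0 < ε → ∃ r : ℝ, ∀ v ∈ Subgroup.zpowers (ι i (bw (w i))),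
      ‖m {γ | ∃ j, j ≠ τ i ∧ r < nm (q j γ)} (π v Ω)‖ ≤ ε) (j : J) :
    ∀ ε : ℝ, 0 < ε → ∃ r : ℝ, ∀ u ∈ Subgroup.closure (⋃ i ∈ {i | τ i = j}, Set.range (ι i)),
      ‖m {γ | ∃ j', j' ≠ j ∧ r < nm (q j' γ)} (π u Ω)‖ ≤ ε := by
  classical
  haveI : ∀ i : {i // i ≠ j}, T2Space (PS (N i + 1) (k i)) := fun i => ps_t2 _ _ (by omega)
  haveI : ∀ i : {i // i ≠ j}, LocallyCompactSpace (PS (N i + 1) (k i)) := fun i => ps_lc _ _
  haveI : ∀ i : {i // i ≠ j}, SecondCountableTopology (PS (N i + 1) (k i)) := fun i => ps_sc _ _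
  have h1 := tgt_closure (κ := kc hq j) hP hM (fun i => (ι i).range)
    (fun i i' hne x hx y hy => by
      obtain ⟨g, rfl⟩ := hx
      obtain ⟨g', rfl⟩ := hy
      exact hcomm i i' hne g g') (Finset.univ.filter fun i => τ i = j) fun i hi => by
        obtain rfl := (Finset.mem_filter.mp hi).2
        rw [MonoidHom.coe_range]
        exact tight_range hP hM (hw i) (hι i) ((tgt_iff hM hq (τ i) _).mpr (h i))
  have e : (⋃ i ∈ Finset.univ.filter fun i => τ i = j, (((ι i).range : Subgroup E) : Set E)) =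
      ⋃ i ∈ {i | τ i = j}, Set.range (ι i) := by
    ext x
    simp
  rw [e] at h1
  exact (tgt_iff hM hq j _).mp h1

end fac

/-! ### Families -/

section fam

open Vale.Agent.P092.H333.Amp
open Vale.Agent.P092.RC (PicF TRNF ampH ampW ampO ampH_ap sum_ampO exists_emb PicF.ampW)
open Vale.Agent.P092.SD (MsF)

section sq

variable {K κ Q : Type} [NormedAddCommGroup K] [InnerProductSpace ℂ K] [CompleteSpace K]
  [Fintype κ] [Group Q] [Fintype Q] {D : Type} [Group D]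

theorem amp_sq (j : κ ↪ Q) (Ω : κ → K) (T : K →L[ℂ] K) (π : D →* (K →L[ℂ] K)) (u : D) :
    ‖amp (Q := Q) T (ampH Q π u (ampO j Ω))‖ ^ 2 = ∑ l, ‖T (π u (Ω l))‖ ^ 2 := by
  rw [norm_sq_KT]
  exact sum_ampO j Ω (fun v => ‖T (π u v)‖ ^ 2) (by simp)

theorem fam_le {x : κ → ℝ} {a ε : ℝ} (hε : 0 < ε) (h0 : ∀ l, 0 ≤ x l)
    (h : a ^ 2 = ∑ l, x l ^ 2) (hx : ∀ l, x l ≤ ε / (Fintype.card κ + 1)) : a ≤ ε := by
  have hc : (0 : ℝ) ≤ Fintype.card κ := Nat.cast_nonneg _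
  have h1 : a ^ 2 ≤ ε ^ 2 := by
    rw [h]
    have h2 : ∑ l, x l ^ 2 ≤ ∑ _l : κ, (ε / (Fintype.card κ + 1)) ^ 2 :=
      Finset.sum_le_sum fun l _ => pow_le_pow_left₀ (h0 l) (hx l) 2
    refine h2.trans ?_
    rw [Finset.sum_const, Finset.card_univ, nsmul_eq_mul, div_pow, mul_div_assoc',
      div_le_iff₀ (by positivity)]
    nlinarith [sq_nonneg ε, mul_nonneg hc (sq_nonneg ε), mul_nonneg (mul_nonneg hc hc) (sq_nonneg ε)]
  exact (le_abs_self _).trans (abs_le_of_sq_le_sq h1 hε.le)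

theorem le_fam {x : κ → ℝ} {a : ℝ} (ha : 0 ≤ a) (h : a ^ 2 = ∑ l, x l ^ 2) (l : κ) :
    x l ≤ a := by
  have h1 : x l ^ 2 ≤ a ^ 2 := by
    rw [h]
    exact Finset.single_le_sum (f := fun l => x l ^ 2) (fun l _ => sq_nonneg _) (Finset.mem_univ l)
  exact (le_abs_self _).trans (abs_le_of_sq_le_sq h1 ha)

end sq

open Vale.Agent.P092.H584.Tau Vale.Agent.P092.H200 Vale.Agent.P092.H761
open Vale.Agent.P092.H538 (ind)
open Vale.Agent.P092.H933 (LocK)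
open Vale.Agent.P092.H261 (PingT)

variable {I : Type} [Fintype I] [DecidableEq I] {k k' : I → Type}
  [∀ i, NontriviallyNormedField (k i)] [∀ i, ProperSpace (k i)]
  [∀ i, NontriviallyNormedField (k' i)] [∀ i, ProperSpace (k' i)] {N : I → ℕ}
  {E : Type} [Group E] [TopologicalSpace E] [IsTopologicalGroup E] [MeasurableSpace E]
  [BorelSpace E]
  {Γ K κ : Type} [Group Γ] [Countable Γ] [NormedAddCommGroup K] [InnerProductSpace ℂ K]
  [CompleteSpace K] [Fintype κ] {π : E →* (K →L[ℂ] K)} {lam : Γ →* (K →L[ℂ] K)}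
  {W : Set (K →L[ℂ] K)} {Ω : κ → K} {m : Set Γ → (K →L[ℂ] K)} {mass : E → (Γ → ℝ) → ℝ}

omit [Fintype I] [DecidableEq I] [∀ i, ProperSpace (k' i)] [∀ i, ProperSpace (k i)]
  [IsTopologicalGroup E] [MeasurableSpace E] [BorelSpace E] [Countable Γ] in
/-- Tightness of the family and of the amplified vector. -/
theorem nt_amp {Q : Type} [Group Q] [Fintype Q] (e : κ ↪ Q) (hM : MsF lam W Ω m)
    (q : ∀ j, Γ → GG (k' j) (N j)) (j : I) (𝒰 : Set E) :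
    NT (ampH Q π) (fun S => amp (Q := Q) (m S)) (ampO e Ω) q j 𝒰 ↔
      ∀ ε : ℝ, 0 < ε → ∃ r : ℝ, ∀ u ∈ 𝒰, ∀ l,
        ‖m {γ | ∃ i, i ≠ j ∧ r < nm (q i γ)} (π u (Ω l))‖ ≤ ε := by
  constructor
  · intro h ε hε
    obtain ⟨r, hr⟩ := h ε hε
    exact ⟨r, fun u hu l => (le_fam (norm_nonneg _) (amp_sq e Ω _ π u) l).trans (hr u hu)⟩
  · intro h ε hε
    obtain ⟨r, hr⟩ := h (ε / (Fintype.card κ + 1)) (by positivity)
    exact ⟨r, fun u hu => fam_le hε (fun l => norm_nonneg _) (amp_sq e Ω _ π u) (hr u hu)⟩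

omit [∀ i, ProperSpace (k i)] in
/-- **The whole factor `i` is tight off the coordinate `j`, families.** -/
theorem tight_facF (hP : PicF π lam W Ω) (hM : MsF lam W Ω m)
    {q : ∀ j, Γ → GG (k' j) (N j)} (hq : ∀ j, PH (q j)) {ι : ∀ i, GG (k i) (N i) →* E}
    {w : ∀ i, (k i)ˣ} {i : I} (hw : KW (N i) (w i)) (hι : Continuous (ι i)) {j : I}
    (h : ∀ ε : ℝ, 0 < ε → ∃ r : ℝ, ∀ v ∈ Subgroup.zpowers (ι i (bw (w i))), ∀ l,
      ‖m {γ | ∃ i', i' ≠ j ∧ r < nm (q i' γ)} (π v (Ω l))‖ ≤ ε) :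
    ∀ ε : ℝ, 0 < ε → ∃ r : ℝ, ∀ g : GG (k i) (N i), ∀ l,
      ‖m {γ | ∃ i', i' ≠ j ∧ r < nm (q i' γ)} (π (ι i g) (Ω l))‖ ≤ ε := by
  obtain ⟨Q, _, _, ⟨e⟩⟩ := exists_emb κ
  have h1 : NT (ampH Q π) (fun S => amp (Q := Q) (m S)) (ampO e Ω) q j
      (Set.range (ι i)) := by
    intro ε hε
    obtain ⟨r, hr⟩ := tight_fac (hP.ampW e) (hM.amp e) hq hw hι
      ((nt_amp e hM q j (Subgroup.zpowers (ι i (bw (w i))) : Set E)).2 h) ε hε
    exact ⟨r, by rintro _ ⟨g, rfl⟩; exact hr g⟩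
  intro ε hε
  obtain ⟨r, hr⟩ := (nt_amp e hM q j _).1 h1 ε hε
  exact ⟨r, fun g => hr _ ⟨g, rfl⟩⟩

/-- **[P-TAU], abstract, families.** -/
theorem tau_outF (hd : ∀ _ : DecidableEq Γ, ∃ t : ℝ,
      SharpData t mass (fun K : Set E => IsCompact K) (PingT E)) {c : ℝ}
    (hm : ∀ (u : E) (S : Set Γ), mass u (ind fun γ => γ ∈ S) ≤
      c * ∑ l, ‖m S (π u (Ω l))‖ ^ 2)
    (hP : PicF π lam W Ω) (hM : MsF lam W Ω m)
    (hk' : ∀ j, LocK (k' j)) (hN : ∀ i, 0 < N i) {ι : ∀ i, GG (k i) (N i) →* E}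
    {a : ∀ i, E →* PG (k i) (N i + 1)} (hι : ∀ i, Continuous (ι i)) (ha : ∀ i, Continuous (a i))
    (hcomp : ∀ i g (x : YY (k i) (N i)), a i (ι i g) • x = g • x)
    (hcomm : ∀ i j, i ≠ j → ∀ g h, Commute (ι i g) (ι j h))
    {q : ∀ j, Γ → GG (k' j) (N j)} (hq : ∀ j, PH (q j))
    (disc : ∀ C : ℝ, {γ : Γ | ∀ j, nm (q j γ) ≤ C}.Finite) {w : ∀ i, (k i)ˣ}
    (hw : ∀ i, KW (N i) (w i))
    (h1 : ∀ i, ∃ j, ∀ (ξ : K) (ε : ℝ), 0 < ε → ∃ r : ℝ, ∀ v ∈ Subgroup.zpowers (ι i (bw (w i))),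
      ‖m {γ | ∃ j', j' ≠ j ∧ r < nm (q j' γ)} (π v ξ)‖ ≤ ε) :
    ∃ τ : I → I, Function.Bijective τ ∧ (∀ i, N (τ i) = N i) ∧
      (∀ i (ξ : K) (ε : ℝ), 0 < ε → ∃ r : ℝ, ∀ v ∈ Subgroup.zpowers (ι i (bw (w i))),
        ‖m {γ | ∃ j', j' ≠ τ i ∧ r < nm (q j' γ)} (π v ξ)‖ ≤ ε) ∧
      ∀ i (ε : ℝ), 0 < ε → ∃ r : ℝ, ∀ g : GG (k i) (N i), ∀ l,
        ‖m {γ | ∃ j', j' ≠ τ i ∧ r < nm (q j' γ)} (π (ι i g) (Ω l))‖ ≤ ε := by
  classical
  choose τ hτ using h1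
  have hF : ∀ i, ∀ ε : ℝ, 0 < ε → ∃ r : ℝ, ∀ v ∈ Subgroup.zpowers (ι i (bw (w i))), ∀ l,
      ‖m {γ | ∃ j', j' ≠ τ i ∧ r < nm (q j' γ)} (π v (Ω l))‖ ≤ ε := by
    intro i ε hε
    choose r hr using fun l => hτ i (Ω l) ε hε
    refine ⟨∑ l, |r l|, fun v hv l => (hM.mono ?_ _).trans (hr l v hv)⟩
    rintro γ ⟨j', h2, h3⟩
    exact ⟨j', h2, lt_of_le_of_lt ((le_abs_self _).trans (Finset.single_le_sum
      (f := fun l => |r l|) (fun l _ => abs_nonneg _) (Finset.mem_univ l))) h3⟩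
  obtain ⟨Q, _, _, ⟨e⟩⟩ := exists_emb κ
  have h2 : ∀ j, ∀ ε : ℝ, 0 < ε → ∃ r : ℝ,
      ∀ u ∈ Subgroup.closure (⋃ i ∈ {i | τ i = j}, Set.range (ι i)),
        ‖amp (Q := Q) (m {γ | ∃ j', j' ≠ j ∧ r < nm (q j' γ)})
          (ampH Q π u (ampO e Ω))‖ ≤ ε := fun j =>
    tight_fib (hP.ampW e) (hM.amp e) hq hw hι hcomm (τ := τ)
      (fun i => (nt_amp e hM q (τ i) (Subgroup.zpowers (ι i (bw (w i))) : Set E)).2 (hF i)) j
  obtain ⟨t, hd⟩ := hd (Classical.decEq Γ)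
  obtain ⟨h3, h4⟩ := tau_glue hd hk' hN ι a hι ha hcomp hcomm q hq disc fun j ε hε => by
    obtain ⟨r, hr⟩ := h2 j (min (ε / (|c| + 1)) 1) (lt_min (by positivity) zero_lt_one)
    refine ⟨r, fun u hu => ?_⟩
    have h5 := hr u hu
    have h6 : mass u (ind fun γ => ∃ j', j' ≠ j ∧ r < nm (q j' γ)) ≤
        c * ∑ l, ‖m {γ | ∃ j', j' ≠ j ∧ r < nm (q j' γ)} (π u (Ω l))‖ ^ 2 :=
      hm u {γ | ∃ j', j' ≠ j ∧ r < nm (q j' γ)}
    rw [← amp_sq e Ω _ π u] at h6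
    obtain ⟨x, hx⟩ : ∃ x : ℝ, x = ‖amp (Q := Q) (m {γ | ∃ j', j' ≠ j ∧ r < nm (q j' γ)})
      (ampH Q π u (ampO e Ω))‖ := ⟨_, rfl⟩
    have hx0 : 0 ≤ x := by rw [hx]; exact norm_nonneg _
    rw [← hx] at h5 h6
    have h7 : x ^ 2 ≤ ε / (|c| + 1) := by
      have h8 : x ≤ 1 := h5.trans (min_le_right _ _)
      have h9 : x ≤ ε / (|c| + 1) := h5.trans (min_le_left _ _)
      nlinarith
    have h10 : c * x ^ 2 ≤ |c| * (ε / (|c| + 1)) :=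
      mul_le_mul (le_abs_self c) h7 (sq_nonneg _) (abs_nonneg _)
    have h11 : |c| * (ε / (|c| + 1)) ≤ ε := by
      rw [mul_div_assoc', div_le_iff₀ (by positivity)]
      nlinarith [abs_nonneg c]
    exact h6.trans (h10.trans h11)
  exact ⟨τ, h3, h4, hτ, fun i => tight_facF hP hM hq (hw i) (hι i) (hF i)⟩

end fam

end Vale.Agent.P092.H337.NG.TW
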