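import Vale.Agent.P092.H337.NGj
import Vale.Agent.P092.H962.NT.SrcEF

/-!
P092, Team N, products, all amplifications (helper337), part 12: one wall, one coordinate
(`H515/TauF`) for the picture of a finite family; the regular sets in the row model of any `ARep`.
-/

set_option linter.all false

open scoped InnerProductSpace ENNReal LinearAlgebra.Projectivization
open Filter Topology ContinuousLinearMap MeasureTheory TopologicalSpace

namespace Vale.Agent.P092.H337.NG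

open Vale.Agent.P092.RC (GG YY PG ct PicF Moore)
open Vale.Agent.P092.SN (PH NW NWA nm Att UD Adm bw)
open Vale.Agent.P092.H859
open Vale.Agent.P092.H933 (LocK)

/-! ### One wall, families -/

section wall

open Vale.Agent.P092.H859.CL (Fn st Prj Rep Leg Slow LU1 Esc BB FF BB_mono P P_ap PC mc mc_ap cfc pw
  tendsto_pw pw_mem Neg Full EngOut IsLim cn)
open Vale.Agent.P092.H859.CN (Sys SysF GeoF SepP engine tail_small esc2)
open Vale.Agent.P092.H43 (Loc2)
open Vale.Agent.P092.H368.SN (Ctr Cen)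
open Vale.Agent.P092.H368.SN.NT (SrcEF SrcEF.esc1 SrcEF.esc2 SrcEF.leg)
open Vale.Agent.P092.H515.Tau (Coords T1 T2 T1_gap T2_gap BB_sub quasi FF_fin full_T PC_dl dl dl_mul
  dl_sum geoF_arg argI arg same_dir le_T2)
open Vale.Agent.P092.H553 (ind ind_nonneg ind_le_one abs_ind_le ind_pos ind_neg)

variable {Γ D K J κ : Type} [Group Γ] [Fintype J] [DecidableEq J] [Nonempty J] [Group D]
  [TopologicalSpace D] [NormedAddCommGroup K] [InnerProductSpace ℂ K] [CompleteSpace K]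
  [Fintype κ]
  {mp : (Γ → ℝ) → (K →L[ℂ] K)} {Bd Bf : Set K} {ms : D → Set Γ → ℝ} {Br : ℝ → Set Γ}
  {G : J → Γ → ℝ} {W : Set (K →L[ℂ] K)} {Ω : κ → K} {π : D →* (K →L[ℂ] K)}
  {lam : Γ →* (K →L[ℂ] K)} {b : D}

/-- **One direction**: along the powers of `b` one coordinate takes all the mass. -/
theorem one_dirF (hP : PicF π lam W Ω) {Ω₀ : K} (hΩ : Ω₀ ≠ 0) (hG : Coords Br G)
    (h : SysF mp (fun g => π g) Bd ms (Subgroup.zpowers b) Br (T1 G) (T2 G))
    (hL : Leg mp (fun g => π g) (fun γ => lam γ) W) (hS : Slow mp (fun g => π g) Bd)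
    (hloc : Loc2 mp (fun g => π g) Bd Bf)
    (he : Esc (st mp) (fun g => π g) Bd (Subgroup.zpowers b) (pw b))
    (hM : Moore (Ctr b ∪ Cen b)) :
    ∃ j : J, ∀ ξ, Tendsto (fun w => P (st mp) (fun g => π g) w {γ | arg G γ = j} ξ) (pw b) (𝓝 ξ) := by
  obtain ⟨β, hβ⟩ := engine h hL (geoF_arg hG) hS (fun g ξ hξ => tendsto_pw.1 (he.esc g ξ hξ))
    (H43.N.lu1_cn h hloc (FF_fin hG) he) (full_T h _)
  have hlam : ∀ γ : Γ, lam γ⁻¹ * lam γ = 1 := fun γ => by
    rw [← map_mul, inv_mul_cancel, map_one]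
  have hscal : ∀ j : J, ∃ z : ℂ, β (dl j) = z • (1 : K →L[ℂ] K) := by
    intro j
    refine hP.erg _ hM _ (fun w hw => (hβ.cm w hw _).symm) (fun γ => ?_) fun g hg => ?_
    · have h1 := hβ.cov γ (dl j) (dl j) fun y => rfl
      calc β (dl j) * lam γ = (lam γ * β (dl j) * lam γ⁻¹) * lam γ := by rw [h1]
        _ = lam γ * β (dl j) * (lam γ⁻¹ * lam γ) := by simp only [mul_assoc]
        _ = _ := by rw [hlam, mul_one]
    · rcases hg with hg | hg
      · exact (hβ.contr g hg _).symm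
      · exact (hβ.cent g (show Commute b g from hg) _).symm
  choose z hz using hscal
  have hz01 : ∀ j, z j = 0 ∨ z j = 1 := by
    intro j
    have h1 : β (dl j) * β (dl j) = β (dl j) := by rw [← map_mul, dl_mul]
    rw [hz] at h1
    have h2 := congrArg (fun T : K →L[ℂ] K => T Ω₀) h1
    simp only [smul_mul_smul_comm, mul_one, ContinuousLinearMap.smul_apply,
      ContinuousLinearMap.one_apply] at h2
    have h3 : (z j * z j - z j) • Ω₀ = 0 := by rw [sub_smul, h2, sub_self]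
    rcases smul_eq_zero.mp h3 with h4 | h4
    · have h5 : z j * (z j - 1) = 0 := by linear_combination h4
      rcases mul_eq_zero.mp h5 with h6 | h6
      · exact Or.inl h6
      · exact Or.inr (sub_eq_zero.mp h6)
    · exact absurd h4 hΩ
  have hex : ∃ j, z j = 1 := by
    by_contra hcon
    push Not at hcon
    have h0 : ∀ j, z j = 0 := fun j => (hz01 j).resolve_right (hcon j)
    have h1 : β (∑ j, dl j) = 0 := by
      rw [map_sum]
      exact Finset.sum_eq_zero fun j _ => by rw [hz, h0, zero_smul]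
    rw [dl_sum, map_one] at h1
    have h2 := congrArg (fun T : K →L[ℂ] K => T Ω₀) h1
    exact hΩ h2
  obtain ⟨j, hj⟩ := hex
  refine ⟨j, fun ξ => ?_⟩
  have h1 := hβ.lim (dl j) ξ
  rw [hz, hj, one_smul] at h1
  refine h1.congr fun w => ?_
  rw [PC_dl h.fn]

/-- **(T1) One wall, one coordinate**: all the other coordinates stay bounded, uniformly. -/
theorem one_wallF (S : SrcEF b π lam W Ω mp Bd Bf) (hG : Coords Br G)
    (h : SysF mp (fun g => π g) Bd ms (Subgroup.zpowers b) Br (T1 G) (T2 G))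
    (hM : Moore (Ctr b ∪ Cen b)) (hM' : Moore (Ctr b⁻¹ ∪ Cen b))
    (hfin : ∀ ξ, ∀ ε : ℝ, 0 < ε → ∃ F : Finset Γ, ‖st mp ((F : Set Γ))ᶜ ξ‖ ≤ ε) :
    ∃ j : J, ∀ ξ, ∀ ε : ℝ, 0 < ε → ∃ r : ℝ, ∀ w ∈ Subgroup.zpowers b,
      ‖st mp {γ | ∃ i, i ≠ j ∧ r < G i γ} (π w ξ)‖ ≤ ε := by
  classical
  obtain ⟨l₀, hΩ⟩ : ∃ l₀, Ω l₀ ≠ 0 := by
    by_contra hcon
    push Not at hcon
    have h1 := S.pic.nΩ
    simp only [hcon, norm_zero] at h1
    norm_num at h1
  have hz : Subgroup.zpowers b⁻¹ = Subgroup.zpowers b := Subgroup.zpowers_inv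
  have hCen : Cen b⁻¹ = Cen b := by
    ext v
    exact ⟨fun hv => by
      have := (show Commute b⁻¹ v from hv).inv_left
      rwa [inv_inv] at this, fun hv => (show Commute b v from hv).inv_left⟩
  obtain ⟨j, hj⟩ := one_dirF S.pic hΩ hG h S.leg S.slow S.loc S.esc1 hM
  obtain ⟨j', hj'⟩ := one_dirF (b := b⁻¹) S.pic hΩ hG (h.mono hz.le) S.leg S.slow S.loc
    (by rw [hz]; exact S.esc2) (by rw [hCen]; exact hM')
  obtain rfl := same_dir hΩ hG h S.esc1 S.esc2 (hj (Ω l₀)) (hj' (Ω l₀))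
  refine ⟨j, fun ξ ε hε => ?_⟩
  have hprj : Prj (st mp) := h.sys.prj
  have h1 : (fun g => π g : D → (K →L[ℂ] K)) 1 = 1 := map_one π
  -- one direction
  have key : ∀ l : Filter D, Esc (st mp) (fun g => π g) Bd (Subgroup.zpowers b) l →
      (∀ ξ, Tendsto (fun w => P (st mp) (fun g => π g) w {γ | arg G γ = j} ξ) l (𝓝 ξ)) →
      ∃ r : ℝ, ∀ᶠ w in l, ‖st mp {γ | ∃ i, i ≠ j ∧ r < G i γ} (π w ξ)‖ ≤ ε := by
    intro l he hl
    obtain ⟨r, hr⟩ := tail_small h h1 he (full_T h l) ξ (ε := ε / 2) (by positivity)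
    refine ⟨r, ?_⟩
    have h2 : Tendsto (fun w => ‖st mp {γ | arg G γ = j}ᶜ (π w ξ)‖) l (𝓝 0) := by
      have h4 := (tendsto_iff_norm_sub_tendsto_zero.mp (hl ξ))
      refine (h4.congr fun w => ?_)
      have e1 : P (st mp) (fun g => π g) w {γ | arg G γ = j} ξ - ξ =
          - π w⁻¹ (st mp {γ | arg G γ = j}ᶜ (π w ξ)) := by
        rw [hprj.compl, P_ap, sub_apply, map_sub]
        have e2 : π w⁻¹ ((1 : K →L[ℂ] K) (π w ξ)) = ξ := by
          change (π w⁻¹ * π w) ξ = ξ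
          rw [← map_mul, inv_mul_cancel, map_one]; rfl
        rw [e2]; abel
      have e3 : ∀ x, ‖π w⁻¹ x‖ = ‖x‖ := fun x => by
        have := h.sys.rep.norm_eq w⁻¹ x
        change ‖π w⁻¹ x‖ = ‖π 1 x‖ at this
        rw [this, map_one]; rfl
      rw [e1, norm_neg, e3]
    filter_upwards [hr, (Metric.tendsto_nhds.mp h2) (ε / 2) (half_pos hε)] with w hw hw2
    rw [dist_zero_right, norm_norm] at hw2
    have h4 : {γ : Γ | ∃ i, i ≠ j ∧ r < G i γ} ⊆ {g | r < T2 G g} ∪ {γ | arg G γ = j}ᶜ := by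
      rintro γ ⟨i, hi, hi2⟩
      by_cases hg : arg G γ = j
      · left
        exact hi2.trans_le (le_T2 hG (by rw [hg]; exact hi))
      · right; exact hg
    have h5 := hprj.mono h4 (π w ξ)
    have h6 := hprj.norm_union_le {g | r < T2 G g} {γ | arg G γ = j}ᶜ (π w ξ)
    linarith
  obtain ⟨r1, hr1⟩ := key _ S.esc1 hj
  obtain ⟨r2, hr2⟩ := key _ S.esc2 hj'
  rw [pw, eventually_map, eventually_atTop] at hr1 hr2
  obtain ⟨N1, hN1⟩ := hr1
  obtain ⟨N2, hN2⟩ := hr2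
  -- the finitely many remaining powers
  choose F hF using fun w : D => hfin (π w ξ) ε hε
  obtain ⟨r3, hr3⟩ : ∃ r3 : ℝ, ∀ w ∈ (Finset.range N1).image (fun n : ℕ => b ^ n) ∪
      (Finset.range N2).image (fun n : ℕ => b⁻¹ ^ n), ∀ γ ∈ F w, ∀ i, G i γ ≤ r3 := by
    refine ⟨∑ w ∈ (Finset.range N1).image (fun n : ℕ => b ^ n) ∪
      (Finset.range N2).image (fun n : ℕ => b⁻¹ ^ n), ∑ γ ∈ F w, ∑ i, G i γ,
      fun w hw γ hγ i => ?_⟩
    refine le_trans ?_ (Finset.single_le_sum (f := fun w => ∑ γ ∈ F w, ∑ i, G i γ)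
      (fun w _ => Finset.sum_nonneg fun γ _ => Finset.sum_nonneg fun i _ => hG.nonneg i γ) hw)
    refine le_trans ?_ (Finset.single_le_sum (f := fun γ => ∑ i, G i γ)
      (fun γ _ => Finset.sum_nonneg fun i _ => hG.nonneg i γ) hγ)
    exact Finset.single_le_sum (f := fun i => G i γ) (fun i _ => hG.nonneg i γ)
      (Finset.mem_univ i)
  refine ⟨max r3 (max r1 r2), fun w hw => ?_⟩
  have mono : ∀ r, r ≤ max r3 (max r1 r2) → {γ : Γ | ∃ i, i ≠ j ∧ max r3 (max r1 r2) < G i γ} ⊆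
      {γ | ∃ i, i ≠ j ∧ r < G i γ} := fun r hr γ ⟨i, hi, hi2⟩ => ⟨i, hi, hr.trans_lt hi2⟩
  have fin1 : w ∈ (Finset.range N1).image (fun n : ℕ => b ^ n) ∪
      (Finset.range N2).image (fun n : ℕ => b⁻¹ ^ n) →
      ‖st mp {γ | ∃ i, i ≠ j ∧ max r3 (max r1 r2) < G i γ} (π w ξ)‖ ≤ ε := by
    intro hw
    refine (hprj.mono ?_ _).trans (hF w)
    rintro γ ⟨i, hi, hi2⟩ hγ
    have := hr3 w hw γ hγ i
    exact absurd ((le_max_left r3 _).trans_lt hi2) (not_lt.mpr this)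
  obtain ⟨n, rfl⟩ := Subgroup.mem_zpowers_iff.mp hw
  rcases Int.eq_nat_or_neg n with ⟨m, rfl | rfl⟩
  · by_cases hm : m < N1
    · refine fin1 (Finset.mem_union_left _ (Finset.mem_image.mpr ⟨m, Finset.mem_range.mpr hm, ?_⟩))
      simp
    · push Not at hm
      have h2 := hN1 m hm
      rw [zpow_natCast]
      exact (hprj.mono (mono r1 ((le_max_left _ _).trans (le_max_right _ _))) _).trans h2
  · by_cases hm : m < N2
    · refine fin1 (Finset.mem_union_right _ (Finset.mem_image.mpr ⟨m, Finset.mem_range.mpr hm, ?_⟩))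
      simp
    · push Not at hm
      have h2 := hN2 m hm
      rw [zpow_neg, zpow_natCast, ← inv_pow]
      exact (hprj.mono (mono r2 ((le_max_right _ _).trans (le_max_right _ _))) _).trans h2

end wall

/-! ### Regular sets, any row representation -/

section rgR

open Vale.Agent.P092.H160 (Ell2)
open Vale.Agent.P092.H432 (lx ARep)
open Vale.Agent.P092.H132 (massX)
open Vale.Agent.P092.H761 (CovFam)
open Vale.Agent.P092.H701 (tor)
open Vale.Agent.P092.H776.NG (gsys_fam Bg Bg_antitone Bg_trans nrm_zpowersJ bw_eq_tor)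

variable {E : Type} [Group E] [TopologicalSpace E] [IsTopologicalGroup E] [LocallyCompactSpace E]
  [SecondCountableTopology E] [T2Space E] [MeasurableSpace E] [BorelSpace E]
  {Γ : Subgroup E} [DiscreteTopology Γ] [Countable Γ] [MeasurableSpace (E ⧸ Γ)]
  [BorelSpace (E ⧸ Γ)] {ν : Measure (E ⧸ Γ)} [IsProbabilityMeasure ν]
  (hν : ∀ g : E, ν.map (fun x => g • x) = ν)
  {Q ι' : Type} [Group Q] [Countable Q] [Fintype ι'] {t : ℝ}
  {R : Γ → (Ell2 ((Γ × Q) × ι') →L[ℂ] Ell2 ((Γ × Q) × ι'))}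
  {E0 : Set Γ → (Ell2 ((Γ × Q) × ι') →L[ℂ] Ell2 ((Γ × Q) × ι'))}
  {I : Type} [Fintype I] [DecidableEq I] {k : I → Type}
  [∀ i, NontriviallyNormedField (k i)] [∀ i, ProperSpace (k i)] {N : I → ℕ}
  {I' : Type} [Fintype I'] [DecidableEq I'] [Nonempty I'] {k' : I' → Type}
  [∀ j, NontriviallyNormedField (k' j)] [∀ j, ProperSpace (k' j)] {N' : I' → ℕ}

/-- **Regular sets of a family of targets, small along every wall of an admissible family of
sources**, for every row representation. -/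
theorem exists_rgR (hR : ARep t R) (hE : CovFam R E0)
    (hl : ∀ A (x : Q), E0 A * lx ((1 : Γ), x) = lx ((1 : Γ), x) * E0 A)
    {ι : ∀ i, GG (k i) (N i) →* E} {a a' : ∀ i, E →* PG (k i) (N i + 1)}
    (hA : ∀ i, Adm (ι i) (a i) (a' i))
    (hcomm : ∀ i j, i ≠ j → ∀ g h, Commute (ι i g) (ι j h)) {w : ∀ i, (k i)ˣ}
    (hw : ∀ i, ‖(w i : k i)‖ < 1) (hk' : ∀ j, LocK (k' j)) (hN' : ∀ j, 0 < N' j)
    (hNN : ∑ j, N' j ≤ ∑ i, N i) {q : ∀ j, Γ → GG (k' j) (N' j)} (hq : ∀ j, PH (q j))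
    (fin : ∀ C : ℝ, {γ : Γ | ∀ j, nm (q j γ) ≤ C}.Finite) :
    ∃ Br : ℝ → Set Γ, RG q Br ∧ ∀ i, ∀ ε : ℝ, 0 < ε → ∃ r : ℝ,
      ∀ u ∈ Subgroup.zpowers (ι i (bw (w i))),
        massX (H538.fst (H790.baseL (H85.cdat ν hν).μ (Γ × Q) ι')) (H790.Ri (H85.cdat ν hν) R)
          u (H538.ind fun γ => γ ∈ Br r) ≤ ε := by
  classical
  have hN : ∀ i, 0 < N i := fun i => by have := (hA i).hN; omega
  obtain ⟨gap, W, hs, hfin, h1, h2, h3⟩ := gsys_fam hk' (fun j => by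
    have := hN' j; omega) q hq fin
  refine ⟨Bg gap, ⟨Bg_antitone gap, Bg_trans hs, fun j r => ?_, fun j r => ?_, h3⟩,
    fun i ε hε => ?_⟩
  · obtain ⟨r', hr'⟩ := h1 j r
    exact ⟨r', fun γ a1 a2 => hr' γ (by rwa [← H776.NG.G1_eq]) (by rwa [← H776.NG.G2_eq])⟩
  · obtain ⟨r', hr'⟩ := h2 j r
    refine ⟨r', fun γ a1 a2 => hr' γ ?_ ?_⟩
    · have e : G1 (ct (q j γ)) = G1 (q j γ)⁻¹ := G1_ta (q j γ)
      rwa [← H776.NG.G1_inv_eq, ← e]
    · have e : G2 (ct (q j γ)) = G2 (q j γ)⁻¹ := G2_ta (q j γ)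
      rwa [← H776.NG.G2_inv_eq, ← e]
  · have hw1 : ∀ i, 1 < ‖(((w i)⁻¹ : (k i)ˣ) : k i)‖ := fun i => by
      rw [Units.val_inv_eq_inv_val, norm_inv]
      exact one_lt_inv_iff₀.2 ⟨norm_pos_iff.2 (w i).ne_zero, hw i⟩
    obtain ⟨e, he, ⟨C, hC⟩, C', hC', -⟩ := H776.NE.exists_chE hN ι a (fun i => (hA i).cι)
      (fun i => (hA i).ca) (fun i => (hA i).comp) hcomm
      (fun i => (((w i)⁻¹ : (k i)ˣ) : k i)) hw1 (fun i => Units.ne_zero _) i
    have hm : 0 < ∑ i, N i := lt_of_lt_of_le (hN i)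
      (Finset.single_le_sum (f := N) (fun _ _ => Nat.zero_le _) (Finset.mem_univ i))
    have hJ : Fintype.card (Σ j, Fin (N' j + 1 - 1)) ≤ ∑ i, N i := by
      rw [Fintype.card_sigma]
      refine le_trans (le_of_eq (Finset.sum_congr rfl fun j _ => ?_)) hNN
      rw [Fintype.card_fin]
      omega
    refine nrm_zpowersJ Γ ν hν hR hE hl C C' hm (b := ι i (SN.bw (w i))) (fun M => ?_)
      (fun M => ?_) hJ hs hfin hε
    · rw [hC, he]
      change ι i (tor (N i) _ (⟨0, hN i⟩ : Fin (N i)).castSucc) ^ M = _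
      rw [bw_eq_tor]
      rfl
    · rw [hC', bw_eq_tor]

end rgR

end Vale.Agent.P092.H337.NG
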