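import Vale.Agent.P092.H337.NGl
import Vale.Agent.P092.H962.NT.RowT

/-!
P092, Team N, products, all amplifications (helper337), part 13: the picture `L²(E/Γ; ℋ)` of a
triple with an honest family: regular sets, `SysF` for every coordinate, one wall - one coordinate.
-/

set_option linter.all false

open scoped InnerProductSpace ENNReal LinearAlgebra.Projectivization
open Filter Topology ContinuousLinearMap MeasureTheory TopologicalSpace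

namespace Vale.Agent.P092.H337.NG

open Vale.Agent.P092.SN (PH NW NWA nm Att UD Adm bw)
open Vale.Agent.P092.RC (GG YY PG ct PicF Moore)
open Vale.Agent.P092.SR
open Vale.Agent.P092.H859.CL (BB FF cn st)
open Vale.Agent.P092.H859
open Vale.Agent.P092.H933 (LocK)
open Vale.Agent.P092.H515.Tau (Coords T1 T2 T1_gap T2_gap BB_sub quasi)
open Vale.Agent.P092.H368.SN (Cz geoE_of_adm pow_cocompact)
open Vale.Agent.P092.H21 (Hon mT BdT BfT msT WT RT arepT covFamT ET_lx fn_T fin_T)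

section tmod

variable {E : Type} [Group E] [TopologicalSpace E] [IsTopologicalGroup E] [LocallyCompactSpace E]
  [SecondCountableTopology E] [T2Space E] [MeasurableSpace E] [BorelSpace E]
  {Γ : Subgroup E} [DiscreteTopology Γ] [MeasurableSpace (E ⧸ Γ)] [BorelSpace (E ⧸ Γ)]
  {ν : Measure (E ⧸ Γ)} [IsProbabilityMeasure ν] [Countable Γ]
  (hν : ∀ g : E, ν.map (fun x => g • x) = ν)
  {ℋ κ κ' : Type} [Fintype κ] [Fintype κ'] [NormedAddCommGroup ℋ]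
  [InnerProductSpace ℂ ℋ] [CompleteSpace ℋ] {V R₁ R₂ : Γ →* (ℋ →L[ℂ] ℋ)} {ξ : κ → ℋ}
  {ξ' : κ' → ℋ} (hT : Tri V R₁ R₂ ξ)
  (hΓ : ∀ g : Γ, g ≠ 1 → Set.Infinite {y : Γ | ∃ h, y = h * g * h⁻¹}) (hT' : Tri R₁ V R₂ ξ')
  (hh : Hon R₁ R₂ ξ)

/-! ### `SysF` along every wall -/

section sysf

variable {I : Type} [Fintype I] [DecidableEq I] {kk : I → Type}
  [∀ i, NontriviallyNormedField (kk i)] {NN : I → ℕ} {q : ∀ i, Γ → GG (kk i) (NN i)}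
  {Br : ℝ → Set Γ}

include hΓ hT' hh

/-- One target, a general regular set. -/
theorem sysF_tgT {k : Type} [NontriviallyNormedField k] {N : ℕ} (hN : 2 ≤ N)
    {q : Γ → GG k N} {ρ : Γ → ℝ} (h : TgN.Tg q ρ) {A : Subgroup E} {Br : ℝ → Set Γ}
    (hBr : ∀ r, ∃ r', BB (TgN.g1 q) (TgN.g2 q ρ) r' ⊆ Br r)
    (nrm : ∀ ε : ℝ, 0 < ε → ∃ r, ∀ u ∈ A, msT (H85.cdat ν hν) hT u (Br r) ≤ ε) :
    CN.SysF (mT (H85.cdat ν hν) hT) (fun g => H34.Ind.pi (H85.cdat ν hν) (V := V) hT.adjV g)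
      (BdT (H85.cdat ν hν) hT) (msT (H85.cdat ν hν) hT) A Br (TgN.g1 q) (TgN.g2 q ρ) :=
  H962.NT.sysN_T (H85.cdat ν hν) hT hΓ hT' hh (fun s u => h.gap2 hN s u) hBr nrm

/-- **`SysF`, points of the coordinate `j`**. -/
theorem sysF_ptsT (hN : ∀ i, 2 ≤ NN i) (hq : ∀ i, PH (q i))
    (fin : ∀ C : ℝ, {γ | ∀ j, nm (q j γ) ≤ C}.Finite) (h : RG q Br) {A : Subgroup E}
    (nrm : ∀ ε : ℝ, 0 < ε → ∃ r, ∀ u ∈ A, msT (H85.cdat ν hν) hT u (Br r) ≤ ε) (j : I) :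
    CN.SysF (mT (H85.cdat ν hν) hT) (fun g => H34.Ind.pi (H85.cdat ν hν) (V := V) hT.adjV g)
      (BdT (H85.cdat ν hν) hT) (msT (H85.cdat ν hν) hT) A Br (TgN.g1 (q j))
      (TgN.g2 (q j) (rho q j)) :=
  sysF_tgT hν hT hΓ hT' hh (hN j) (tg_prod (fun i => by have := hN i; omega) hq fin j)
    (h.bb (fun i => by have := hN i; omega) j) nrm

/-- **`SysF`, hyperplanes of the coordinate `j`.** -/
theorem sysF_hypT (hN : ∀ i, 2 ≤ NN i) (hq : ∀ i, PH (q i))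
    (fin : ∀ C : ℝ, {γ | ∀ j, nm (q j γ) ≤ C}.Finite) (h : RG q Br) {A : Subgroup E}
    (nrm : ∀ ε : ℝ, 0 < ε → ∃ r, ∀ u ∈ A, msT (H85.cdat ν hν) hT u (Br r) ≤ ε) (j : I) :
    CN.SysF (mT (H85.cdat ν hν) hT) (fun g => H34.Ind.pi (H85.cdat ν hν) (V := V) hT.adjV g)
      (BdT (H85.cdat ν hν) hT) (msT (H85.cdat ν hν) hT) A Br (TgN.g1 fun γ => ct (q j γ))
      (TgN.g2 (fun γ => ct (q j γ)) (rho q j)) :=
  sysF_tgT hν hT hΓ hT' hh (hN j) (tg_prod_ct (fun i => by have := hN i; omega) hq fin j)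
    (h.bb_ct (fun i => by have := hN i; omega) j) nrm

/-- `SysF` for the largest coordinate and the others. -/
theorem sysF_TT [Nonempty I] (hN : ∀ i, 1 ≤ NN i) (hq : ∀ i, PH (q i))
    (fin : ∀ C : ℝ, {γ | ∀ j, nm (q j γ) ≤ C}.Finite) (h : RG q Br) {A : Subgroup E}
    (nrm : ∀ ε : ℝ, 0 < ε → ∃ r, ∀ u ∈ A, msT (H85.cdat ν hν) hT u (Br r) ≤ ε) :
    CN.SysF (mT (H85.cdat ν hν) hT) (fun g => H34.Ind.pi (H85.cdat ν hν) (V := V) hT.adjV g)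
      (BdT (H85.cdat ν hν) hT) (msT (H85.cdat ν hν) hT) A Br (T1 (Ls q)) (T2 (Ls q)) := by
  have hG := h.coords hN hq fin
  refine H962.NT.sysN_T (H85.cdat ν hν) hT hΓ hT' hh (fun s u => ?_) (BB_sub hG) nrm
  obtain ⟨C, hC0, hC⟩ := quasi hG s u
  refine ⟨(Fintype.card I + 1) * C, fun x => ⟨(T1_gap fun j => hC j x).trans ?_,
    T2_gap hC0 fun j => hC j x⟩⟩
  have : (0 : ℝ) ≤ (Fintype.card I : ℝ) * C := by positivity
  linarith

end sysf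

/-! ### Regular sets -/

section rg

variable {I : Type} [Fintype I] [DecidableEq I] {k : I → Type}
  [∀ i, NontriviallyNormedField (k i)] [∀ i, ProperSpace (k i)] {N : I → ℕ}
  {I' : Type} [Fintype I'] [DecidableEq I'] [Nonempty I'] {k' : I' → Type}
  [∀ j, NontriviallyNormedField (k' j)] [∀ j, ProperSpace (k' j)] {N' : I' → ℕ}

include hΓ hT' in
/-- **Regular sets of a family of targets, small along every wall of an admissible family of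
sources**, all `t`. -/
theorem exists_rgT {ι : ∀ i, GG (k i) (N i) →* E} {a a' : ∀ i, E →* PG (k i) (N i + 1)}
    (hA : ∀ i, Adm (ι i) (a i) (a' i))
    (hcomm : ∀ i j, i ≠ j → ∀ g h, Commute (ι i g) (ι j h)) {w : ∀ i, (k i)ˣ}
    (hw : ∀ i, ‖(w i : k i)‖ < 1) (hk' : ∀ j, LocK (k' j)) (hN' : ∀ j, 0 < N' j)
    (hNN : ∑ j, N' j ≤ ∑ i, N i) {q : ∀ j, Γ → GG (k' j) (N' j)} (hq : ∀ j, PH (q j))
    (fin : ∀ C : ℝ, {γ : Γ | ∀ j, nm (q j γ) ≤ C}.Finite) :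
    ∃ Br : ℝ → Set Γ, RG q Br ∧ ∀ i, ∀ ε : ℝ, 0 < ε → ∃ r : ℝ,
      ∀ u ∈ Subgroup.zpowers (ι i (bw (w i))), msT (H85.cdat ν hν) hT u (Br r) ≤ ε :=
  exists_rgR hν (arepT hT hΓ hT') (covFamT hT hT') (fun A x => ET_lx hT hT' A x) hA hcomm hw hk'
    hN' hNN hq fin

end rg

/-! ### One wall, one coordinate -/

section wallT

variable {I : Type} [Fintype I] [DecidableEq I] [Nonempty I] {kk : I → Type}
  [∀ i, NontriviallyNormedField (kk i)] {NN : I → ℕ} {q : ∀ i, Γ → GG (kk i) (NN i)}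
  {Br : ℝ → Set Γ} {k : Type} [NontriviallyNormedField k] [ProperSpace k] {N : ℕ}
  {ι : GG k N →* E} {a a' : E →* PG k (N + 1)}

include hΓ hT' hh

/-- **One wall, one coordinate**, on the picture of an honest family over an admissible source. -/
theorem tau_wallT {c : ℂ}
    (hP : PicF (H34.Ind.pi (H85.cdat ν hν) (V := V) hT.adjV) (H34.Ind.lam (H85.cdat ν hν) R₁)
      (WT (H85.cdat ν hν) R₂) (fun i => (Lp.const 2 (H85.cdat ν hν).μ (c • ξ i) : Lp ℋ 2 _)))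
    (hN : ∀ i, 1 ≤ NN i) (hq : ∀ i, PH (q i))
    (fin : ∀ C : ℝ, {γ | ∀ j, nm (q j γ) ≤ C}.Finite) (h : RG q Br)
    (hA : Adm ι a a') {v : kˣ} (hv : ‖(v : k)‖ < 1) (hz : Cz v ι a a')
    (nrm : ∀ ε : ℝ, 0 < ε → ∃ r, ∀ u ∈ Subgroup.zpowers (ι (bw v)),
      msT (H85.cdat ν hν) hT u (Br r) ≤ ε) :
    ∃ j : I, ∀ η, ∀ ε : ℝ, 0 < ε → ∃ r : ℝ, ∀ u ∈ Subgroup.zpowers (ι (bw v)),
      ‖st (mT (H85.cdat ν hν) hT) {γ | ∃ i, i ≠ j ∧ r < nm (q i γ)}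
        (H34.Ind.pi (H85.cdat ν hν) (V := V) hT.adjV u η)‖ ≤ ε := by
  have hE := geoE_of_adm hA hv hz
  have hS := sysF_TT hν hT hΓ hT' hh hN hq fin h nrm
  obtain ⟨j, hj⟩ := one_wallF (H962.NT.srcEF_T hν hT hΓ hT' hh (pow_cocompact hA hv) hP)
    (h.coords hN hq fin) hS hE.moore hE.moore' fun η ε hε => fin_T (H85.cdat ν hν) hT hh η hε
  refine ⟨j, fun η ε hε => ?_⟩
  obtain ⟨r, hr⟩ := hj η ε hε
  refine ⟨Real.exp r, fun u hu => ?_⟩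
  refine le_trans (hS.sys.prj.mono ?_ _) (hr u hu)
  rintro γ ⟨i, hi, h1⟩
  refine ⟨i, hi, ?_⟩
  change r < Real.log (1 + nm (q i γ))
  rw [Real.lt_log_iff_exp_lt (by have := one_le_nm (q := q) i γ; linarith)]
  linarith

end wallT

include hΓ hT' hh in
/-- **One coordinate for every factor of the source**, all `t`. -/
theorem exists_tauT {c : ℂ}
    (hP : PicF (H34.Ind.pi (H85.cdat ν hν) (V := V) hT.adjV) (H34.Ind.lam (H85.cdat ν hν) R₁)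
      (WT (H85.cdat ν hν) R₂) (fun i => (Lp.const 2 (H85.cdat ν hν).μ (c • ξ i) : Lp ℋ 2 _)))
    {I : Type} [Fintype I] [DecidableEq I] [Nonempty I] {kk : I → Type}
    [∀ i, NontriviallyNormedField (kk i)] {NN : I → ℕ} {q : ∀ i, Γ → GG (kk i) (NN i)}
    {J : Type} [Fintype J] [DecidableEq J] {k : J → Type} [∀ j, NontriviallyNormedField (k j)]
    [∀ j, ProperSpace (k j)] {N : J → ℕ} [∀ i, ProperSpace (kk i)]
    {ι : ∀ j, GG (k j) (N j) →* E} {a a' : ∀ j, E →* PG (k j) (N j + 1)}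
    (hA : ∀ j, Adm (ι j) (a j) (a' j))
    (hcomm : ∀ i j, i ≠ j → ∀ g h, Commute (ι i g) (ι j h)) {v : ∀ j, (k j)ˣ}
    (hv : ∀ j, ‖(v j : k j)‖ < 1) (hz : ∀ j, Cz (v j) (ι j) (a j) (a' j))
    (hk : ∀ i, LocK (kk i)) (hN : ∀ i, 1 ≤ NN i) (hNN : ∑ i, NN i ≤ ∑ j, N j)
    (hq : ∀ i, PH (q i)) (fin : ∀ C : ℝ, {γ | ∀ j, nm (q j γ) ≤ C}.Finite) :
    ∃ (Br : ℝ → Set Γ) (τ : J → I), RG q Br ∧
      (∀ j, ∀ ε : ℝ, 0 < ε → ∃ r : ℝ, ∀ u ∈ Subgroup.zpowers (ι j (bw (v j))),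
        msT (H85.cdat ν hν) hT u (Br r) ≤ ε) ∧
      ∀ j η, ∀ ε : ℝ, 0 < ε → ∃ r : ℝ, ∀ u ∈ Subgroup.zpowers (ι j (bw (v j))),
        ‖st (mT (H85.cdat ν hν) hT) {γ | ∃ i, i ≠ τ j ∧ r < nm (q i γ)}
          (H34.Ind.pi (H85.cdat ν hν) (V := V) hT.adjV u η)‖ ≤ ε := by
  obtain ⟨Br, hB, hn⟩ := exists_rgT hν hT hΓ hT' hA hcomm hv hk hN hNN hq fin
  choose τ hτ using fun j =>
    tau_wallT hν hT hΓ hT' hh hP hN hq fin hB (hA j) (hv j) (hz j) (hn j)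
  exact ⟨Br, τ, hB, hn, hτ⟩

end tmod

end Vale.Agent.P092.H337.NG
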