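import Vale.Agent.P092.H944.DNw
import Vale.Agent.P092.H820.Pn

/-!
P092, Team D, block [D0-STAB] (helper337): stability of the attracting points of matrices with a
large first gap, `bp (s x u) ~ s bp x`, for every choice of the attracting points.
-/

namespace Vale.Agent.P092.H337

open Matrix Topology
open scoped LinearAlgebra.Projectivization
open Vale.Agent.P092.H944 Vale.Agent.P092.H820

variable {n : ℕ}

/-! ### The Gram determinant -/

/-- Gram determinant of two vectors. -/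
def gram (v w : Fin n → ℝ) : ℝ := nq v * nq w - (v ⬝ᵥ w) ^ 2

theorem sum_wd (v w : Fin n → ℝ) :
    ∑ i, ∑ j, (v i * w j - v j * w i) ^ 2 = 2 * gram v w := by
  have e1 : ∀ i j, (v i * w j - v j * w i) ^ 2 =
      v i ^ 2 * w j ^ 2 - 2 * ((v i * w i) * (v j * w j)) + w i ^ 2 * v j ^ 2 := by
    intro i j; ring
  simp only [e1, Finset.sum_add_distrib, Finset.sum_sub_distrib, ← Finset.mul_sum,
    ← Finset.sum_mul]
  unfold gram nq dotProduct
  ring

theorem gram_nonneg (v w : Fin n → ℝ) : 0 ≤ gram v w := by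
  have h := sum_wd v w
  have h1 : 0 ≤ ∑ i, ∑ j, (v i * w j - v j * w i) ^ 2 :=
    Finset.sum_nonneg fun _ _ => Finset.sum_nonneg fun _ _ => sq_nonneg _
  linarith

theorem gram_le (v w : Fin n → ℝ) : gram v w ≤ nq v * nq w := by
  unfold gram
  have := sq_nonneg (v ⬝ᵥ w)
  linarith

theorem gram_orth {κ : Matrix (Fin n) (Fin n) ℝ} (h : κᵀ * κ = 1) (v w : Fin n → ℝ) :
    gram (κ *ᵥ v) (κ *ᵥ w) = gram v w := by
  unfold gram
  rw [nq_mulVec h, nq_mulVec h, dotProduct_mulVec, ← mulVec_transpose, mulVec_mulVec, h,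
    one_mulVec]

theorem gram_diag {a : Fin n → ℝ} {M : ℝ} (h : ∀ i j, i ≠ j → (a i * a j) ^ 2 ≤ M)
    (v w : Fin n → ℝ) : gram (diagonal a *ᵥ v) (diagonal a *ᵥ w) ≤ M * gram v w := by
  have e1 := sum_wd (diagonal a *ᵥ v) (diagonal a *ᵥ w)
  have e2 := sum_wd v w
  have h1 : ∑ i, ∑ j, ((diagonal a *ᵥ v) i * (diagonal a *ᵥ w) j -
      (diagonal a *ᵥ v) j * (diagonal a *ᵥ w) i) ^ 2 ≤
      M * ∑ i, ∑ j, (v i * w j - v j * w i) ^ 2 := by
    rw [Finset.mul_sum]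
    refine Finset.sum_le_sum fun i _ => ?_
    rw [Finset.mul_sum]
    refine Finset.sum_le_sum fun j _ => ?_
    simp only [mulVec_diagonal]
    by_cases hij : i = j
    · subst hij; simp
    · have e : (a i * v i * (a j * w j) - a j * v j * (a i * w i)) ^ 2 =
          (a i * a j) ^ 2 * (v i * w j - v j * w i) ^ 2 := by ring
      rw [e]
      exact mul_le_mul_of_nonneg_right (h i j hij) (sq_nonneg _)
  rw [e1, e2] at h1
  linarith

/-- The second exterior power of `g` has norm `a_0 a_1`. -/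
theorem gram_svd {g k1 k2 : Matrix (Fin n) (Fin n) ℝ} {a : Fin n → ℝ} (h : IsSVD g k1 a k2)
    {M : ℝ} (hM : ∀ i j, i ≠ j → (a i * a j) ^ 2 ≤ M) (v w : Fin n → ℝ) :
    gram (g *ᵥ v) (g *ᵥ w) ≤ M * gram v w := by
  rw [h.eq, ← mulVec_mulVec, ← mulVec_mulVec, ← mulVec_mulVec, ← mulVec_mulVec, gram_orth h.o1]
  refine (gram_diag hM _ _).trans ?_
  rw [gram_orth h.o2]

theorem nq_mulVec_le (g : Matrix (Fin n) (Fin n) ℝ) (v : Fin n → ℝ) :
    nq (g *ᵥ v) ≤ hs g * nq v := by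
  unfold hs
  rw [Finset.sum_mul]
  refine Finset.sum_le_sum fun i _ => ?_
  exact dot_sq_le (fun j => g i j) v

theorem hs_mul_le (g h : Matrix (Fin n) (Fin n) ℝ) : hs (g * h) ≤ hs g * hs h := by
  rw [hs_eq_sum_nq, hs_eq_sum_nq h, Finset.mul_sum]
  refine Finset.sum_le_sum fun j _ => ?_
  rw [← mulVec_mulVec]
  exact nq_mulVec_le g _

theorem gram_mulVec_le (g : Matrix (Fin n) (Fin n) ℝ) (hg : g.det ≠ 0) (v w : Fin n → ℝ) :
    gram (g *ᵥ v) (g *ᵥ w) ≤ hs g ^ 2 * gram v w := by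
  refine gram_svd (isSVD hg) (fun i j _ => ?_) v w
  have h1 : ∀ i, sv g i ^ 2 ≤ hs g := fun i => by
    rw [hs_eq_sum_sv hg]
    exact Finset.single_le_sum (f := fun i => sv g i ^ 2) (fun _ _ => sq_nonneg _)
      (Finset.mem_univ i)
  rw [mul_pow, sq (hs g)]
  exact mul_le_mul (h1 i) (h1 j) (sq_nonneg _) (hs_nonneg g)

/-- Large first gap: the second exterior power is small. -/
theorem gram_gap (g : Matrix (Fin n) (Fin n) ℝ) (hg : g.det ≠ 0) (v w : Fin n → ℝ) :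
    gram (g *ᵥ v) (g *ᵥ w) ≤ Real.exp (-gap 0 g) * hs g ^ 2 * gram v w := by
  have h1 : ∀ i, sv g i ^ 2 ≤ hs g := fun i => by
    rw [hs_eq_sum_sv hg]
    exact Finset.single_le_sum (f := fun i => sv g i ^ 2) (fun _ _ => sq_nonneg _)
      (Finset.mem_univ i)
  -- `sv i ^ 2 ≤ exp (- gap) hs` for `i ≥ 1`
  have h2 : ∀ i : Fin n, 1 ≤ (i : ℕ) → sv g i ^ 2 ≤ Real.exp (-gap 0 g) * hs g := by
    intro i hi
    have hn : 0 + 1 < n := by have := i.2; omega
    have e0 : sv g ⟨0, by omega⟩ ^ 2 ≤ hs g := h1 _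
    rw [← exp_la hg, ← Real.exp_nat_mul] at e0
    refine le_trans ?_ (mul_le_mul_of_nonneg_left e0 (Real.exp_pos _).le)
    rw [← exp_la hg, ← Real.exp_nat_mul, ← Real.exp_add]
    refine Real.exp_le_exp.mpr ?_
    have e1 : la g i ≤ la g 1 := la_anti hg hi i.2
    unfold gap
    rw [if_pos hn]
    push_cast
    linarith
  refine gram_svd (isSVD hg) (fun i j hij => ?_) v w
  rw [mul_pow]
  have hexp : (0:ℝ) < Real.exp (-gap 0 g) := Real.exp_pos _
  have hh := hs_nonneg g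
  rcases Nat.eq_zero_or_pos (i : ℕ) with h0 | h0
  · have hj : 1 ≤ (j : ℕ) := by
      rcases Nat.eq_zero_or_pos (j : ℕ) with h3 | h3
      · exact absurd (Fin.ext (by rw [h0, h3])) hij
      · exact h3
    calc _ ≤ hs g * (Real.exp (-gap 0 g) * hs g) :=
          mul_le_mul (h1 i) (h2 j hj) (sq_nonneg _) hh
      _ = _ := by ring
  · calc _ ≤ (Real.exp (-gap 0 g) * hs g) * hs g :=
          mul_le_mul (h2 i h0) (h1 j) (sq_nonneg _) (by positivity)
      _ = _ := by ring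

/-! ### Attracting points -/

/-- `p` is an attracting point of `g`, up to the constant `c`: the image of a vector which is not
contracted more than by `√c` in comparison to the norm of `g`. -/
def Att (c : ℝ) (g : Matrix (Fin n) (Fin n) ℝ) (p : ℙ ℝ (Fin n → ℝ)) : Prop :=
  ∃ (v : Fin n → ℝ) (hv : g *ᵥ v ≠ 0), c * (hs g * nq v) ≤ nq (g *ᵥ v) ∧
    p = Projectivization.mk ℝ (g *ᵥ v) hv

theorem Att.mono {c c' : ℝ} (h : c' ≤ c) {g : Matrix (Fin n) (Fin n) ℝ} {p : ℙ ℝ (Fin n → ℝ)}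
    (hp : Att c g p) : Att c' g p := by
  obtain ⟨v, hv, h1, h2⟩ := hp
  exact ⟨v, hv, (mul_le_mul_of_nonneg_right h (mul_nonneg (hs_nonneg _) (nq_nonneg _))).trans h1,
    h2⟩

/-- The first left singular vector is attracting. -/
theorem att_svd {g k1 k2 : Matrix (Fin n) (Fin n) ℝ} {a : Fin n → ℝ} (h : IsSVD g k1 a k2)
    {z : Fin n} (hz : (z : ℕ) = 0) (hk : k1.col z ≠ 0) :
    Att (1 / n) g (Projectivization.mk ℝ (k1.col z) hk) := by
  have hn : 0 < n := lt_of_le_of_lt (Nat.zero_le _) z.2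
  have hn' : (0 : ℝ) < n := by exact_mod_cast hn
  have e1 : g *ᵥ (k2ᵀ *ᵥ Pi.single z 1) = a z • k1.col z := by
    rw [h.eq, mulVec_mulVec, Matrix.mul_assoc, h.o2', Matrix.mul_one, ← mulVec_mulVec]
    have : diagonal a *ᵥ Pi.single z 1 = a z • (Pi.single z 1 : Fin n → ℝ) := by
      funext i
      rw [mulVec_diagonal, Pi.smul_apply, smul_eq_mul]
      by_cases hi : i = z
      · subst hi; rfl
      · rw [Pi.single_eq_of_ne hi, mul_zero, mul_zero]
    rw [this, mulVec_smul, mulVec_single_one]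
  have ha := h.pos z
  have hne : g *ᵥ (k2ᵀ *ᵥ Pi.single z 1) ≠ 0 := by
    rw [e1]; exact smul_ne_zero ha.ne' hk
  refine ⟨k2ᵀ *ᵥ Pi.single z 1, hne, ?_, ?_⟩
  · have o2 : (k2ᵀ)ᵀ * k2ᵀ = 1 := by rw [transpose_transpose]; exact h.o2'
    have q1 : nq (k2ᵀ *ᵥ Pi.single z (1:ℝ)) = 1 := by
      rw [nq_mulVec o2, nq_eq, dotProduct_single, Pi.single_eq_same, mul_one]
    have q2 : nq (k1.col z) = 1 := by
      have : k1.col z = k1 *ᵥ Pi.single z 1 := (mulVec_single_one k1 z).symm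
      rw [this, nq_mulVec h.o1, nq_eq, dotProduct_single, Pi.single_eq_same, mul_one]
    rw [q1, mul_one, e1]
    have q3 : nq (a z • k1.col z) = a z ^ 2 := by
      rw [nq_eq, smul_dotProduct, dotProduct_smul, ← nq_eq, q2, smul_eq_mul, smul_eq_mul]
      ring
    rw [q3]
    have q4 : hs g ≤ n * a z ^ 2 := by
      conv_lhs => rw [h.eq]
      rw [hs_mul_orth _ h.o2', hs_orth_mul _ h.o1]
      unfold hs
      calc ∑ i, ∑ j, diagonal a i j ^ 2 ≤ ∑ _i : Fin n, a z ^ 2 := by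
            refine Finset.sum_le_sum fun i _ => ?_
            rw [Finset.sum_eq_single i]
            · rw [diagonal_apply_eq]
              exact pow_le_pow_left₀ (h.pos i).le (h.anti (Fin.le_def.mpr (by omega))) 2
            · intro j _ hj
              rw [diagonal_apply_ne _ (Ne.symm hj)]
              simp
            · intro hi
              exact absurd (Finset.mem_univ i) hi
        _ = _ := by simp
    rw [one_div, inv_mul_le_iff₀ hn']
    exact q4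
  · rw [Projectivization.mk_eq_mk_iff]
    exact ⟨Units.mk0 (a z)⁻¹ (inv_ne_zero ha.ne'), by
      rw [e1, Units.smul_mk0, smul_smul, inv_mul_cancel₀ ha.ne', one_smul]⟩

/-- A pivot column is attracting. -/
theorem att_piv {g : Matrix (Fin n) (Fin n) ℝ} {i j : Fin n} (h : ∀ k l, |g k l| ≤ |g i j|)
    (hk : g.col j ≠ 0) : Att (1 / (n ^ 2 : ℝ)) g (Projectivization.mk ℝ (g.col j) hk) := by
  have hn' : (0 : ℝ) < n := by exact_mod_cast j.pos
  have e1 : g *ᵥ Pi.single j 1 = g.col j := mulVec_single_one g j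
  have hne : g *ᵥ Pi.single j 1 ≠ 0 := by rw [e1]; exact hk
  refine ⟨Pi.single j 1, hne, ?_, ?_⟩
  · have q1 : nq (Pi.single j (1:ℝ) : Fin n → ℝ) = 1 := by
      rw [nq_eq, dotProduct_single, Pi.single_eq_same, mul_one]
    rw [q1, mul_one, e1, one_div, inv_mul_le_iff₀ (by positivity)]
    have q2 : g i j ^ 2 ≤ nq (g.col j) := sq_le_nq (g.col j) i
    calc hs g ≤ ∑ _i : Fin n, ∑ _j : Fin n, g i j ^ 2 := by
          unfold hs
          exact Finset.sum_le_sum fun k _ => Finset.sum_le_sum fun l _ => sq_le_sq.mpr (h k l)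
      _ = n ^ 2 * g i j ^ 2 := by simp; ring
      _ ≤ _ := by gcongr
  · rw [Projectivization.mk_eq_mk_iff]
    exact ⟨1, by rw [e1, one_smul]⟩

/-- **Attracting points of `s x u` are close to the images under `s` of attracting points of
`x`.** -/
theorem gram_stab {c : ℝ} (hc : 0 < c) {s x u : Matrix (Fin n) (Fin n) ℝ} (hs0 : s.det ≠ 0)
    (hx0 : x.det ≠ 0) (hu0 : u.det ≠ 0) {v w : Fin n → ℝ}
    (hv : c * (hs (s * x * u) * nq v) ≤ nq ((s * x * u) *ᵥ v))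
    (hw : c * (hs x * nq w) ≤ nq (x *ᵥ w)) :
    gram ((s * x * u) *ᵥ v) (s *ᵥ (x *ᵥ w)) ≤
      (hs s * hs s⁻¹) ^ 2 * (hs u * hs u⁻¹) / c ^ 2 * Real.exp (-gap 0 x) *
        (nq ((s * x * u) *ᵥ v) * nq (s *ᵥ (x *ᵥ w))) := by
  rcases Nat.eq_zero_or_pos n with hn | hn
  · subst hn
    simp [gram, nq]
  have us : IsUnit s.det := isUnit_iff_ne_zero.mpr hs0
  have uu : IsUnit u.det := isUnit_iff_ne_zero.mpr hu0
  have X0 : 0 < hs x := hs_pos hx0 hn
  have S0 : 0 < hs s := hs_pos hs0 hn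
  have S1 : 0 < hs s⁻¹ := hs_pos (inv_det_ne hs0) hn
  have U0 : 0 < hs u := hs_pos hu0 hn
  have U1 : 0 < hs u⁻¹ := hs_pos (inv_det_ne hu0) hn
  -- upper bound
  have e0 : (s * x * u) *ᵥ v = s *ᵥ (x *ᵥ (u *ᵥ v)) := by
    rw [mulVec_mulVec, mulVec_mulVec, Matrix.mul_assoc]
  have b1 : gram ((s * x * u) *ᵥ v) (s *ᵥ (x *ᵥ w)) ≤
      hs s ^ 2 * (Real.exp (-gap 0 x) * hs x ^ 2 * (hs u * nq v * nq w)) := by
    rw [e0]
    refine (gram_mulVec_le s hs0 _ _).trans (mul_le_mul_of_nonneg_left ?_ (sq_nonneg _))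
    refine (gram_gap x hx0 _ _).trans (mul_le_mul_of_nonneg_left ?_ (by positivity))
    refine (gram_le _ _).trans (mul_le_mul_of_nonneg_right ?_ (nq_nonneg _))
    exact nq_mulVec_le u v
  -- lower bounds
  have b2 : hs x ≤ hs s⁻¹ * hs (s * x * u) * hs u⁻¹ := by
    have e : x = s⁻¹ * (s * x * u) * u⁻¹ := by
      rw [Matrix.mul_assoc s, ← Matrix.mul_assoc s⁻¹, nonsing_inv_mul _ us, Matrix.one_mul,
        Matrix.mul_assoc, mul_nonsing_inv _ uu, Matrix.mul_one]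
    calc hs x = hs (s⁻¹ * (s * x * u) * u⁻¹) := by rw [← e]
      _ ≤ hs (s⁻¹ * (s * x * u)) * hs u⁻¹ := hs_mul_le _ _
      _ ≤ _ := mul_le_mul_of_nonneg_right (hs_mul_le _ _) U1.le
  have b3 : hs x * nq v ≤ hs s⁻¹ * hs u⁻¹ / c * nq ((s * x * u) *ᵥ v) := by
    rw [div_mul_eq_mul_div, le_div_iff₀ hc]
    calc hs x * nq v * c ≤ (hs s⁻¹ * hs (s * x * u) * hs u⁻¹) * nq v * c := by
          have := nq_nonneg v
          gcongr
      _ = hs s⁻¹ * hs u⁻¹ * (c * (hs (s * x * u) * nq v)) := by ring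
      _ ≤ _ := mul_le_mul_of_nonneg_left hv (by positivity)
  have b4 : nq (x *ᵥ w) ≤ hs s⁻¹ * nq (s *ᵥ (x *ᵥ w)) := by
    have := nq_mulVec_le s⁻¹ (s *ᵥ (x *ᵥ w))
    rwa [mulVec_mulVec (M := s⁻¹), nonsing_inv_mul _ us, one_mulVec] at this
  have b5 : hs x * nq w ≤ hs s⁻¹ / c * nq (s *ᵥ (x *ᵥ w)) := by
    rw [div_mul_eq_mul_div, le_div_iff₀ hc]
    linarith
  refine b1.trans ?_
  have h1 := nq_nonneg v
  have h2 := nq_nonneg w
  have h3 := nq_nonneg ((s * x * u) *ᵥ v)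
  have h4 := nq_nonneg (s *ᵥ (x *ᵥ w))
  have b6 : (hs x * nq v) * (hs x * nq w) ≤ (hs s⁻¹ * hs u⁻¹ / c * nq ((s * x * u) *ᵥ v)) *
      (hs s⁻¹ / c * nq (s *ᵥ (x *ᵥ w))) := by
    refine mul_le_mul b3 b5 (by positivity) (by positivity)
  calc hs s ^ 2 * (Real.exp (-gap 0 x) * hs x ^ 2 * (hs u * nq v * nq w))
      = hs s ^ 2 * Real.exp (-gap 0 x) * hs u * ((hs x * nq v) * (hs x * nq w)) := by ring
    _ ≤ hs s ^ 2 * Real.exp (-gap 0 x) * hs u *
        ((hs s⁻¹ * hs u⁻¹ / c * nq ((s * x * u) *ᵥ v)) *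
          (hs s⁻¹ / c * nq (s *ᵥ (x *ᵥ w)))) := by gcongr
    _ = _ := by field_simp

end Vale.Agent.P092.H337
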