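import Vale.Agent.P092.H337.Stab
import Vale.Agent.P092.H944.GeoRaw
import Vale.Agent.P092.H414.Near

/-!
P092, Team D, block [D0-STAB] (helper337): uniform continuity on the projective space in terms of
Gram determinants, and the stability theorem for functions of the attracting points.
-/

namespace Vale.Agent.P092.H337

open Matrix Topology
open scoped LinearAlgebra.Projectivization
open Vale.Agent.P092.H944 Vale.Agent.P092.H820

variable {n : ℕ}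

theorem norm_sq_le_nq (v : Fin n → ℝ) : ‖v‖ ^ 2 ≤ nq v := by
  have h0 := nq_nonneg v
  have h1 : ‖v‖ ≤ Real.sqrt (nq v) := by
    rw [pi_norm_le_iff_of_nonneg (Real.sqrt_nonneg _)]
    intro i
    rw [Real.norm_eq_abs]
    exact Real.abs_le_sqrt (sq_le_nq v i)
  calc ‖v‖ ^ 2 ≤ Real.sqrt (nq v) ^ 2 := pow_le_pow_left₀ (norm_nonneg _) h1 2
    _ = _ := Real.sq_sqrt h0

theorem nq_le_norm_sq (v : Fin n → ℝ) : nq v ≤ n * ‖v‖ ^ 2 := by
  unfold nq
  calc ∑ i, v i ^ 2 ≤ ∑ _i : Fin n, ‖v‖ ^ 2 := by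
        refine Finset.sum_le_sum fun i _ => ?_
        have := norm_le_pi_norm v i
        rw [Real.norm_eq_abs] at this
        rw [← sq_abs]
        exact pow_le_pow_left₀ (abs_nonneg _) this 2
    _ = _ := by simp

theorem wd_sq_le (v w : Fin n → ℝ) : ‖wd v w‖ ^ 2 ≤ 2 * gram v w := by
  have h0 := gram_nonneg v w
  have h1 : ‖wd v w‖ ≤ Real.sqrt (2 * gram v w) := by
    rw [pi_norm_le_iff_of_nonneg (Real.sqrt_nonneg _)]
    intro p
    rw [Real.norm_eq_abs]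
    refine Real.abs_le_sqrt ?_
    rw [← sum_wd]
    refine le_trans ?_ (Finset.single_le_sum
      (f := fun i => ∑ j, (v i * w j - v j * w i) ^ 2)
      (fun i _ => Finset.sum_nonneg fun j _ => sq_nonneg _) (Finset.mem_univ p.1))
    exact Finset.single_le_sum (f := fun j => (v p.1 * w j - v j * w p.1) ^ 2)
      (fun j _ => sq_nonneg _) (Finset.mem_univ p.2)
  calc ‖wd v w‖ ^ 2 ≤ Real.sqrt (2 * gram v w) ^ 2 :=
        pow_le_pow_left₀ (norm_nonneg _) h1 2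
    _ = _ := Real.sq_sqrt (by linarith)

theorem wd_smul (a b : ℝ) (v w : Fin n → ℝ) : wd (a • v) (b • w) = (a * b) • wd v w := by
  funext p
  simp only [wd, Pi.smul_apply, smul_eq_mul]
  ring

/-- Uniform continuity in terms of the wedge. -/
theorem uc_wd {F : Type*} [PseudoMetricSpace F] {f : ℙ ℝ (Fin n → ℝ) → F} (hf : Continuous f)
    {ε : ℝ} (hε : 0 < ε) : ∃ δ : ℝ, 0 < δ ∧ ∀ v w : {v : Fin n → ℝ // v ≠ 0},
      ‖wd v.1 w.1‖ ≤ δ * (‖v.1‖ * ‖w.1‖) →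
      dist (f (pj ℝ (Fin n) v)) (f (pj ℝ (Fin n) w)) < ε := by
  have hne : ∀ v : Metric.sphere (0 : Fin n → ℝ) 1, v.1 ≠ 0 := fun v h => by
    have := v.2
    rw [h] at this
    simp at this
  obtain ⟨S, hS⟩ : ∃ S : Metric.sphere (0 : Fin n → ℝ) 1 → {v : Fin n → ℝ // v ≠ 0},
      S = fun v => ⟨v.1, hne v⟩ := ⟨_, rfl⟩
  have hSc : Continuous S := by
    rw [hS]; exact Continuous.subtype_mk continuous_subtype_val _
  have hSv : ∀ v, (S v).1 = v.1 := fun v => by rw [hS]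
  have cS : CompactSpace (Metric.sphere (0 : Fin n → ℝ) 1) :=
    isCompact_iff_compactSpace.1 (isCompact_sphere _ _)
  have hd : Continuous fun p : Metric.sphere (0 : Fin n → ℝ) 1 × Metric.sphere (0 : Fin n → ℝ) 1 =>
      dist (f (pj ℝ (Fin n) (S p.1))) (f (pj ℝ (Fin n) (S p.2))) :=
    ((hf.comp (pj_continuous.comp (hSc.comp continuous_fst)))).dist
      ((hf.comp (pj_continuous.comp (hSc.comp continuous_snd))))
  have hK : IsCompact {p : Metric.sphere (0 : Fin n → ℝ) 1 × Metric.sphere (0 : Fin n → ℝ) 1 |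
      ε ≤ dist (f (pj ℝ (Fin n) (S p.1))) (f (pj ℝ (Fin n) (S p.2)))} :=
    (isClosed_le continuous_const hd).isCompact
  have hw : Continuous fun p : Metric.sphere (0 : Fin n → ℝ) 1 × Metric.sphere (0 : Fin n → ℝ) 1 =>
      ‖wd p.1.1 p.2.1‖ :=
    (wd_continuous.comp ((continuous_subtype_val.comp continuous_fst).prodMk
      (continuous_subtype_val.comp continuous_snd))).norm
  obtain ⟨δ, hδ, hmin⟩ : ∃ δ : ℝ, 0 < δ ∧ ∀ p : Metric.sphere (0 : Fin n → ℝ) 1 ×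
      Metric.sphere (0 : Fin n → ℝ) 1, ε ≤ dist (f (pj ℝ (Fin n) (S p.1)))
        (f (pj ℝ (Fin n) (S p.2))) → δ < ‖wd p.1.1 p.2.1‖ := by
    rcases Set.eq_empty_or_nonempty {p : Metric.sphere (0 : Fin n → ℝ) 1 ×
      Metric.sphere (0 : Fin n → ℝ) 1 | ε ≤ dist (f (pj ℝ (Fin n) (S p.1)))
        (f (pj ℝ (Fin n) (S p.2)))} with h | h
    · exact ⟨1, one_pos, fun p hp => absurd (show p ∈ (∅ : Set _) from h ▸ hp) (by simp)⟩
    · obtain ⟨p0, hp0, hp⟩ := hK.exists_isMinOn h hw.continuousOn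
      have h1 : 0 < ‖wd p0.1.1 p0.2.1‖ := by
        rw [norm_pos_iff]
        intro h0
        have h2 : pj ℝ (Fin n) (S p0.1) = pj ℝ (Fin n) (S p0.2) := by
          rw [pj_eq_iff, hSv, hSv]; exact h0
        have h3 : ε ≤ dist (f (pj ℝ (Fin n) (S p0.1))) (f (pj ℝ (Fin n) (S p0.2))) := hp0
        rw [h2, dist_self] at h3
        linarith
      refine ⟨‖wd p0.1.1 p0.2.1‖ / 2, by positivity, fun p hp' => ?_⟩
      have := isMinOn_iff.mp hp p hp'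
      linarith
  refine ⟨δ, hδ, fun v w hvw => ?_⟩
  by_contra hcon
  push Not at hcon
  have hv : 0 < ‖v.1‖ := norm_pos_iff.2 v.2
  have hw0 : 0 < ‖w.1‖ := norm_pos_iff.2 w.2
  have key : ∀ v : {v : Fin n → ℝ // v ≠ 0}, ∃ v' : Metric.sphere (0 : Fin n → ℝ) 1,
      v'.1 = ‖v.1‖⁻¹ • v.1 ∧ pj ℝ (Fin n) (S v') = pj ℝ (Fin n) v := by
    intro v
    have hv : 0 < ‖v.1‖ := norm_pos_iff.2 v.2
    refine ⟨⟨‖v.1‖⁻¹ • v.1, ?_⟩, rfl, ?_⟩
    · rw [mem_sphere_zero_iff_norm, norm_smul, norm_inv, norm_norm, inv_mul_cancel₀ hv.ne']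
    · rw [pj_eq]
      exact ⟨Units.mk0 ‖v.1‖⁻¹ (inv_ne_zero hv.ne'), by rw [hSv]; rfl⟩
  obtain ⟨v', e1, e2⟩ := key v
  obtain ⟨w', e3, e4⟩ := key w
  have h1 := hmin (v', w') (by simp only [e2, e4]; exact hcon)
  simp only [e1, e3] at h1
  rw [wd_smul, norm_smul, Real.norm_eq_abs, abs_of_pos (by positivity), ← mul_inv,
    ← div_eq_inv_mul, lt_div_iff₀ (by positivity)] at h1
  linarith

/-- Uniform continuity in terms of the Gram determinant. -/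
theorem uc_gram {F : Type*} [PseudoMetricSpace F] {f : ℙ ℝ (Fin n → ℝ) → F} (hf : Continuous f)
    {ε : ℝ} (hε : 0 < ε) : ∃ δ : ℝ, 0 < δ ∧ ∀ (v w : Fin n → ℝ) (hv : v ≠ 0) (hw : w ≠ 0),
      gram v w ≤ δ * (nq v * nq w) →
      dist (f (Projectivization.mk ℝ v hv)) (f (Projectivization.mk ℝ w hw)) < ε := by
  obtain ⟨δ, hδ, h⟩ := uc_wd hf hε
  refine ⟨δ ^ 2 / (2 * ((n : ℝ) + 1) ^ 2), by positivity, fun v w hv hw hvw => ?_⟩
  refine h ⟨v, hv⟩ ⟨w, hw⟩ ?_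
  have h1 := wd_sq_le v w
  have h2 := nq_le_norm_sq v
  have h3 := nq_le_norm_sq w
  have h4 : nq v * nq w ≤ (n * ‖v‖ ^ 2) * (n * ‖w‖ ^ 2) :=
    mul_le_mul h2 h3 (nq_nonneg _) (by positivity)
  have h5 : ‖wd v w‖ ^ 2 ≤ (δ * (‖v‖ * ‖w‖)) ^ 2 := by
    calc ‖wd v w‖ ^ 2 ≤ 2 * (δ ^ 2 / (2 * ((n : ℝ) + 1) ^ 2) *
          ((n * ‖v‖ ^ 2) * (n * ‖w‖ ^ 2))) := by
          refine h1.trans (mul_le_mul_of_nonneg_left (hvw.trans ?_) (by norm_num))
          exact mul_le_mul_of_nonneg_left h4 (by positivity)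
      _ = (δ * (‖v‖ * ‖w‖)) ^ 2 * (n ^ 2 / ((n : ℝ) + 1) ^ 2) := by
          field_simp
      _ ≤ (δ * (‖v‖ * ‖w‖)) ^ 2 * 1 := by
          refine mul_le_mul_of_nonneg_left ?_ (sq_nonneg _)
          rw [div_le_one (by positivity)]
          have : (0 : ℝ) ≤ n := Nat.cast_nonneg n
          nlinarith
      _ = _ := mul_one _
  exact (pow_le_pow_iff_left₀ (norm_nonneg _) (by positivity) two_ne_zero).mp h5

/-- **Stability of the attracting points**, matrix form: uniformly in `x`, all choices of the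
attracting points. -/
theorem stab_mat {F : Type*} [PseudoMetricSpace F] {f : ℙ ℝ (Fin n → ℝ) → F} (hf : Continuous f)
    {c : ℝ} (hc : 0 < c) (s u : SpecialLinearGroup (Fin n) ℝ) {ε : ℝ} (hε : 0 < ε) :
    ∃ T : ℝ, ∀ (x : SpecialLinearGroup (Fin n) ℝ) (p q : ℙ ℝ (Fin n → ℝ)),
      T ≤ gap 0 x.1 → Att c (s * x * u).1 p → Att c x.1 q → dist (f p) (f (s • q)) < ε := by
  obtain ⟨δ, hδ, h⟩ := uc_gram hf hε
  obtain ⟨C, hC⟩ : ∃ C : ℝ, C = (hs s.1 * hs s.1⁻¹) ^ 2 * (hs u.1 * hs u.1⁻¹) / c ^ 2 := ⟨_, rfl⟩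
  have hC0 : 0 ≤ C := by
    rw [hC]
    have := hs_nonneg u.1
    have := hs_nonneg u.1⁻¹
    positivity
  refine ⟨Real.log ((C + 1) / δ), fun x p q hx hp hq => ?_⟩
  obtain ⟨v, hv, h1, rfl⟩ := hp
  obtain ⟨w, hw, h2, rfl⟩ := hq
  have hs0 : s.1.det ≠ 0 := by rw [s.2]; exact one_ne_zero
  have hx0 : x.1.det ≠ 0 := by rw [x.2]; exact one_ne_zero
  have hu0 : u.1.det ≠ 0 := by rw [u.2]; exact one_ne_zero
  have e : (s * x * u).1 = s.1 * x.1 * u.1 := by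
    rw [Matrix.SpecialLinearGroup.coe_mul, Matrix.SpecialLinearGroup.coe_mul]
  have e2 : ∀ (a : Fin n → ℝ) (ha : a ≠ 0) (hsa : s.1 *ᵥ a ≠ 0),
      s • Projectivization.mk ℝ a ha = Projectivization.mk ℝ (s.1 *ᵥ a) hsa := fun _ _ _ => rfl
  have hsw : s.1 *ᵥ (x.1 *ᵥ w) ≠ 0 := by
    intro h0
    apply hw
    have : s.1⁻¹ *ᵥ (s.1 *ᵥ (x.1 *ᵥ w)) = 0 := by rw [h0, mulVec_zero]
    rwa [mulVec_mulVec (M := s.1⁻¹), nonsing_inv_mul _ (isUnit_iff_ne_zero.mpr hs0),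
      one_mulVec] at this
  rw [e2 _ _ hsw]
  refine h _ _ _ _ ?_
  have h3 : c * (hs (s.1 * x.1 * u.1) * nq v) ≤ nq ((s.1 * x.1 * u.1) *ᵥ v) := by
    rw [← e]; exact h1
  have h4 := gram_stab hc hs0 hx0 hu0 h3 h2
  rw [← hC, ← e] at h4
  refine h4.trans (mul_le_mul_of_nonneg_right ?_ (mul_nonneg (nq_nonneg _) (nq_nonneg _)))
  have h5 : Real.exp (-gap 0 x.1) ≤ δ / (C + 1) := by
    rw [Real.log_le_iff_le_exp (by positivity)] at hx
    rw [Real.exp_neg, inv_le_comm₀ (Real.exp_pos _) (by positivity), inv_div]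
    exact hx
  calc C * Real.exp (-gap 0 x.1) ≤ C * (δ / (C + 1)) := mul_le_mul_of_nonneg_left h5 hC0
    _ = δ * (C / (C + 1)) := by ring
    _ ≤ δ * 1 := by
        refine mul_le_mul_of_nonneg_left ?_ hδ.le
        rw [div_le_one (by positivity)]
        linarith
    _ = δ := mul_one δ

section group

variable {Γ : Type} [Group Γ] (φ : Γ →* SpecialLinearGroup (Fin n) ℝ)

/-- `bp` is a choice of attracting points. -/
def IsBp (c : ℝ) (bp : Γ → ℙ ℝ (Fin n → ℝ)) : Prop := ∀ x, Att c (φ x).1 (bp x)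

/-- **[D0-STAB]** for a homomorphism to `SL_n(ℝ)`. -/
theorem stab {c : ℝ} (hc : 0 < c) {bp : Γ → ℙ ℝ (Fin n → ℝ)} (hbp : IsBp φ c bp) (s u : Γ)
    {F : Type*} [SeminormedAddCommGroup F] {f : ℙ ℝ (Fin n → ℝ) → F} (hf : Continuous f) {ε : ℝ}
    (hε : 0 < ε) : ∃ T : ℝ, ∀ x, T ≤ gap 0 (φ x).1 →
      ‖f (bp (s * x * u)) - f (φ s • bp x)‖ ≤ ε := by
  obtain ⟨T, hT⟩ := stab_mat hf hc (φ s) (φ u) hε
  refine ⟨T, fun x hx => ?_⟩
  have h := hT (φ x) (bp (s * x * u)) (bp x) hx (by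
    have := hbp (s * x * u)
    rwa [map_mul, map_mul] at this) (hbp x)
  rw [dist_eq_norm] at h
  exact h.le

/-- Two choices of the attracting points are asymptotically equal. -/
theorem stab_choice {c : ℝ} (hc : 0 < c) {bp bp' : Γ → ℙ ℝ (Fin n → ℝ)} (hbp : IsBp φ c bp)
    (hbp' : IsBp φ c bp')
    {F : Type*} [SeminormedAddCommGroup F] {f : ℙ ℝ (Fin n → ℝ) → F} (hf : Continuous f) {ε : ℝ}
    (hε : 0 < ε) : ∃ T : ℝ, ∀ x, T ≤ gap 0 (φ x).1 → ‖f (bp' x) - f (bp x)‖ ≤ ε := by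
  obtain ⟨T, hT⟩ := stab_mat hf hc 1 1 hε
  refine ⟨T, fun x hx => ?_⟩
  have h := hT (φ x) (bp' x) (bp x) hx (by rw [one_mul, mul_one]; exact hbp' x) (hbp x)
  rw [dist_eq_norm, one_smul] at h
  exact h.le

/-- Quasi-invariance of the gaps. -/
theorem gap_stab (s u : Γ) : ∃ C : ℝ, ∀ (x : Γ) (j : ℕ),
    |gap j (φ (s * x * u)).1 - gap j (φ x).1| ≤ C := by
  refine ⟨4 * lc (φ s).1 + 4 * lc (φ u).1, fun x j => ?_⟩
  have e : (φ (s * x * u)).1 = (φ s).1 * (φ x).1 * (φ u).1 := by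
    rw [map_mul, map_mul, Matrix.SpecialLinearGroup.coe_mul, Matrix.SpecialLinearGroup.coe_mul]
  have hd : ∀ y : Γ, (φ y).1.det ≠ 0 := fun y => by rw [(φ y).2]; exact one_ne_zero
  rw [e]
  exact abs_gap_le (hd s) (hd x) (hd u) j

/-- A choice of the attracting points: the first left singular vector. -/
theorem exists_bp (hn : 0 < n) : ∃ bp : Γ → ℙ ℝ (Fin n → ℝ), IsBp φ (1 / n) bp := by
  have h : ∀ x : Γ, ∃ p, Att (1 / n) (φ x).1 p := by
    intro x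
    have hd : (φ x).1.det ≠ 0 := by rw [(φ x).2]; exact one_ne_zero
    have S := isSVD hd
    have hk : (kA (φ x).1).col ⟨0, hn⟩ ≠ 0 := by
      intro h0
      have h1 : kA (φ x).1 *ᵥ Pi.single ⟨0, hn⟩ 1 = 0 := by rw [mulVec_single_one]; exact h0
      have h2 : nq (kA (φ x).1 *ᵥ Pi.single ⟨0, hn⟩ 1) = 1 := by
        rw [nq_mulVec S.o1, nq_eq, dotProduct_single, Pi.single_eq_same, mul_one]
      rw [h1] at h2
      simp [nq] at h2
    exact ⟨_, att_svd S rfl hk⟩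
  choose bp hbp using h
  exact ⟨bp, hbp⟩

end group

/-! ### Discrete subgroups of `SL_3(ℝ)` -/

/-- Finitely many elements of a discrete subgroup have bounded Hilbert-Schmidt norm. -/
theorem hs_finite (Γ : Subgroup (Matrix.SpecialLinearGroup (Fin 3) ℝ)) [DiscreteTopology Γ]
    (R : ℝ) : {g : Γ | hs (g : Matrix.SpecialLinearGroup (Fin 3) ℝ).1 ≤ R}.Finite := by
  have h1 := H414.finite_inter (Γ := Γ) (Real.sqrt R)
  refine Set.Finite.of_finite_image (f := Subtype.val) (h1.subset ?_)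
    Subtype.val_injective.injOn
  rintro _ ⟨g, hg, rfl⟩
  refine ⟨g.2, fun i j => ?_⟩
  exact Real.abs_le_sqrt ((sq_entry_le _ i j).trans hg)

/-- The embedding of a discrete subgroup in the letters of `H944`. -/
theorem emb_sub (Γ : Subgroup (Matrix.SpecialLinearGroup (Fin 3) ℝ)) [DiscreteTopology Γ] :
    Emb (fun g : Γ => (g : Matrix.SpecialLinearGroup (Fin 3) ℝ).1) :=
  ⟨fun _ _ => Or.inl rfl, fun g => by rw [g.1.2, one_pow], hs_finite Γ⟩

/-- Finitely many elements of a discrete subgroup have both gaps bounded. -/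
theorem ff_finite (Γ : Subgroup (Matrix.SpecialLinearGroup (Fin 3) ℝ)) [DiscreteTopology Γ]
    (r : ℝ) : {g : Γ | gap 0 (g : Matrix.SpecialLinearGroup (Fin 3) ℝ).1 ≤ r ∧
      gap 1 (g : Matrix.SpecialLinearGroup (Fin 3) ℝ).1 ≤ r}.Finite := by
  refine ((emb_sub Γ).gap_finite r).subset fun g hg j hj => ?_
  have : j = 0 ∨ j = 1 := by omega
  rcases this with rfl | rfl
  · exact hg.1
  · exact hg.2

/-- **[D0-STAB]** for a subgroup of `SL_3(ℝ)`, with the action of the subgroup. -/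
theorem stab_sub (Γ : Subgroup (Matrix.SpecialLinearGroup (Fin 3) ℝ)) {c : ℝ} (hc : 0 < c)
    {bp : Γ → ℙ ℝ (Fin 3 → ℝ)} (hbp : IsBp Γ.subtype c bp) (s u : Γ)
    {F : Type*} [SeminormedAddCommGroup F] {f : ℙ ℝ (Fin 3 → ℝ) → F} (hf : Continuous f) {ε : ℝ}
    (hε : 0 < ε) (r : ℝ) : ∃ T : ℝ, ∀ x : Γ,
      T ≤ gap 0 (x : Matrix.SpecialLinearGroup (Fin 3) ℝ).1 →
      gap 1 (x : Matrix.SpecialLinearGroup (Fin 3) ℝ).1 ≤ r →
      ‖f (bp (s * x * u)) - f (s • bp x)‖ ≤ ε := by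
  obtain ⟨T, hT⟩ := stab Γ.subtype hc hbp s u hf hε
  exact ⟨T, fun x hx _ => hT x hx⟩

end Vale.Agent.P092.H337
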